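import Vale.Agent.P362.Search

/-! The quantum algorithm for pointer functions, in abstract form. -/

namespace Vale.Agent.P362

variable {ι V C : Type} [Fintype V] [DecidableEq V] [Nonempty V] [Fintype C] [DecidableEq C]
  [Nonempty C]

lemma verify_step {okk : C → (ι → Bool) → Bool} {c M : ℕ} (hok : ∀ ch, Det c (okk ch))
    (hC : (Fintype.card C : ℝ) ≤ 9 ^ M) (r : ℕ) :
    ∃ Ev : (ι → Bool) → (Bool → ℝ) → ℝ, Samp (r * (3 ^ M * c + c)) Ev ∧ ∀ x,
      ((∀ ch, okk ch x = true) → Ev x ind = 1) ∧
      (¬ (∀ ch, okk ch x = true) → Ev x ind ≤ (1 - sa M) ^ r) := by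
  obtain ⟨E', hE', h⟩ := (Samp.unif (ι := ι) (Ω := C)).search
    (g := fun ch x => !okk ch x) (fun ch => (hok ch).map not) M
  rw [Nat.zero_add] at hE'
  have h2 := hE'.bind (F := fun ch x (φ : Bool → ℝ) => φ (okk ch x)) hok
  obtain ⟨Ev, hEv, hv⟩ := h2.andRep r
  refine ⟨Ev, hEv, fun x => ⟨fun hx => ?_, fun hx => ?_⟩⟩
  · rw [hv]; simp only [hx, ind_true, (hE'.isP x).one, one_pow]
  · rw [hv]
    refine pow_le_pow_left₀ ((hE'.isP x).nonneg _ fun _ => ind_nonneg _) ?_ r
    push Not at hx
    obtain ⟨ch, hch⟩ := hx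
    have hc : (0 : ℝ) < Fintype.card C := by exact_mod_cast Fintype.card_pos
    have hs : 1 ≤ ∑ ω, ind (!okk ω x) := by
      have := Finset.single_le_sum (f := fun ω => ind (!okk ω x)) (fun ω _ => ind_nonneg _)
        (Finset.mem_univ ch)
      simpa [hch] using this
    have hp : 0 < (∑ ω, ind (!okk ω x)) / Fintype.card C := by positivity
    have h3 := h x (by
      rw [← mul_div_assoc, le_div_iff₀ hc]
      nlinarith [pow_pos (by norm_num : (0 : ℝ) < 9) M]) (fun ω => ind (!okk ω x))
      fun ω => ind_nonneg _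
    have h4 : ∀ b, ind b * ind b = ind b := fun b => by cases b <;> simp
    simp only [h4] at h3
    rw [mul_comm] at h3
    have h5 := le_of_mul_le_mul_left h3 hp
    simp only [ind_not] at h5
    rw [(hE'.isP x).sub, (hE'.isP x).one] at h5
    linarith

section
variable (rf : V × V → V → (ι → Bool) → Bool)

/-- candidates not refuted by any of the tables `P` -/
def surv {t : ℕ} (P : Fin t → V × V) (x : ι → Bool) : Finset V :=
  Finset.univ.filter fun c' => ∀ j, rf (P j) c' x = false

lemma surv_cons {t : ℕ} (tb : V × V) (P : Fin t → V × V) (x : ι → Bool) :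
    surv rf (Fin.cons tb P : Fin (t + 1) → V × V) x =
      (surv rf P x).filter fun c' => rf tb c' x = false := by
  ext c'
  simp [surv, Fin.forall_fin_succ, and_comm]

def test {K : ℕ} (cs : Fin K → V) (tb : V × V) (x : ι → Bool) : Bool :=
  decide (∀ j j', rf tb (cs j) x = false → rf tb (cs j') x = false → cs j = cs j')

variable {rf} {c M : ℕ}

lemma sample_step (hrf : ∀ tb c', Det c (rf tb c')) (hN : (Fintype.card V : ℝ) ≤ 9 ^ M)
    {t : ℕ} (P : Fin t → V × V) :
    ∃ Es : (ι → Bool) → (V → ℝ) → ℝ, Samp (3 ^ M * (t * c)) Es ∧ ∀ x,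
      (surv rf P x).Nonempty → ∀ A ⊆ surv rf P x,
        sa M * A.card ≤ (surv rf P x).card * Es x (fun c' => if c' ∈ A then 1 else 0) := by
  obtain ⟨E', hE', h⟩ := (Samp.unif (ι := ι) (Ω := V)).search
    (g := fun c' x => decide (∀ j, rf (P j) c' x = false)) (T' := t * c)
    (fun c' => (Det.piFin fun j => hrf (P j) c').map fun w => decide (∀ j, w j = false)) M
  rw [Nat.zero_add] at hE'
  refine ⟨E', hE', fun x hx A hA => ?_⟩
  have hc : (0 : ℝ) < Fintype.card V := by exact_mod_cast Fintype.card_pos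
  have hs : ∑ ω, ind (decide (∀ j, rf (P j) ω x = false)) = (surv rf P x).card := by
    simp only [surv, ind, decide_eq_true_eq, Finset.sum_boole]
  have hs1 : (1 : ℝ) ≤ (surv rf P x).card := by exact_mod_cast hx.card_pos
  have h3 := h x (by
    rw [hs, ← mul_div_assoc, le_div_iff₀ hc]
    nlinarith [pow_pos (by norm_num : (0 : ℝ) < 9) M]) (fun c' => if c' ∈ A then 1 else 0)
    fun ω => by split_ifs <;> norm_num
  have hA' : ∑ ω, ind (decide (∀ j, rf (P j) ω x = false)) * (if ω ∈ A then (1 : ℝ) else 0)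
      = A.card := by
    have : ∀ ω, ind (decide (∀ j, rf (P j) ω x = false)) * (if ω ∈ A then (1 : ℝ) else 0)
        = if ω ∈ A then 1 else 0 := by
      intro ω
      split_ifs with hω
      · have := hA hω
        simp only [surv, Finset.mem_filter, Finset.mem_univ, true_and] at this
        simp [this]
      · simp
    simp only [this, Finset.sum_boole]
    simp
  rw [hs, hA', ← mul_div_assoc, div_mul_eq_mul_div, div_le_div_iff_of_pos_right hc] at h3
  exact h3

variable {Ed : V → (ι → Bool) → (V → ℝ) → ℝ} {γ : ℝ}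

/-- `(i, p)` is a genuine candidate -/
structure Gen (rf : V × V → V → (ι → Bool) → Bool) (Ed : V → (ι → Bool) → (V → ℝ) → ℝ) (γ : ℝ)
    (x : ι → Bool) (i p : V) : Prop where
  nr : ∀ tb, rf tb i x = false
  rr : ∀ c', c' ≠ i → rf (i, p) c' x = true
  dec : γ ≤ Ed i x (fun p' => if p' = p then 1 else 0)

lemma table_step (hrf : ∀ tb c', Det c (rf tb c')) (hEd : ∀ i, Samp c (Ed i))
    (hN : (Fintype.card V : ℝ) ≤ 9 ^ M * γ) {K : ℕ} (cs : Fin K → V) :
    ∃ Et : (ι → Bool) → (V × V → ℝ) → ℝ, Samp (3 ^ M * (c + K * c)) Et ∧ ∀ x i p,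
      Gen rf Ed γ x i p → sa M ≤ Et x (fun tb => ind (test rf cs tb x)) := by
  have h0 := (Samp.unif (ι := ι) (Ω := V)).bind
    (F := fun i x (φ : V × V → ℝ) => Ed i x (fun p => φ (i, p))) fun i => (hEd i).map _
  rw [Nat.zero_add] at h0
  obtain ⟨E', hE', h⟩ := h0.search (g := fun tb x => test rf cs tb x) (T' := K * c)
    (fun tb => (Det.piFin fun j => hrf tb (cs j)).map
      fun w => decide (∀ j j', w j = false → w j' = false → cs j = cs j')) M
  refine ⟨E', hE', fun x i p hg => ?_⟩
  have hc : (0 : ℝ) < Fintype.card V := by exact_mod_cast Fintype.card_pos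
  have ht : test rf cs (i, p) x = true := by
    simp only [test, decide_eq_true_eq]
    intro j j' h1 h2
    have e1 : cs j = i := by
      by_contra e; rw [hg.rr _ e] at h1; exact absurd h1 (by simp)
    have e2 : cs j' = i := by
      by_contra e; rw [hg.rr _ e] at h2; exact absurd h2 (by simp)
    rw [e1, e2]
  have hs : γ ≤ ∑ i, Ed i x (fun p => ind (test rf cs (i, p) x)) := by
    refine le_trans ?_ (Finset.single_le_sum (f := fun i => Ed i x (fun p => ind (test rf cs (i, p) x)))
      (fun i _ => ((hEd i).isP x).nonneg _ fun _ => ind_nonneg _) (Finset.mem_univ i))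
    refine hg.dec.trans (((hEd i).isP x).mono _ _ fun p' => ?_)
    split_ifs with e
    · rw [e, ht]; simp
    · exact ind_nonneg _
  have h9 : (0 : ℝ) < 9 ^ M := by positivity
  have hγ : 0 < γ := by
    by_contra hh
    push Not at hh
    nlinarith
  have h3 := h x (by
    rw [← mul_div_assoc, le_div_iff₀ hc]
    nlinarith) (fun tb => ind (test rf cs tb x)) fun ω => ind_nonneg _
  have h4 : ∀ b, ind b * ind b = ind b := fun b => by cases b <;> simp
  simp only [h4] at h3
  rw [mul_comm] at h3
  exact le_of_mul_le_mul_left h3 (div_pos (by linarith) hc)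

lemma round_step (hrf : ∀ tb c', Det c (rf tb c')) (hEd : ∀ i, Samp c (Ed i))
    (hN : (Fintype.card V : ℝ) ≤ 9 ^ M * γ) (hN' : (Fintype.card V : ℝ) ≤ 9 ^ M) {K : ℕ}
    (hK : (Fintype.card V : ℝ) ^ 3 * (1 - sa M / 4) ^ K ≤ 1 / 2) {t : ℕ} (P : Fin t → V × V) :
    ∃ Er : (ι → Bool) → (V × V → ℝ) → ℝ,
      Samp (K * (3 ^ M * (t * c)) + 3 ^ M * (c + K * c)) Er ∧ ∀ x i p, Gen rf Ed γ x i p →
      Er x (fun tb => ((surv rf (Fin.cons tb P : Fin (t + 1) → V × V) x).card : ℝ) - 1) ≤
        (1 - sa M / 4) * (((surv rf P x).card : ℝ) - 1) := by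
  classical
  obtain ⟨Es, hEs, hs⟩ := sample_step hrf hN' P
  obtain ⟨Ek, hEk, hk⟩ := hEs.rep K
  choose Et hEt ht using fun cs : Fin K → V => table_step hrf hEd hN cs
  refine ⟨_, hEk.bind hEt, fun x i p hg => ?_⟩
  simp only [surv_cons]
  set S := surv rf P x with hS
  have hiS : i ∈ S := by simp [hS, surv, hg.nr]
  let U : V × V → Finset V := fun tb => S.filter fun c' => rf tb c' x = false
  have hσ : (1 : ℝ) ≤ S.card := by exact_mod_cast Finset.card_pos.mpr ⟨i, hiS⟩
  have hU : ∀ tb, ((U tb).card : ℝ) ≤ S.card := fun tb => by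
    exact_mod_cast Finset.card_filter_le _ _
  let Big : V × V → Prop := fun tb => 2 ≤ (U tb).card ∧ S.card ≤ 2 * (U tb).card
  let Bad : (Fin K → V) → Prop := fun cs => ∃ tb, Big tb ∧ test rf cs tb x = true
  have hsa := sa_pos M
  have hsa1 := sa_le M
  have hinner : ∀ cs, Et cs x (fun tb => ((U tb).card : ℝ) - 1) ≤
      ((S.card : ℝ) - 1) * (1 - sa M / 2) +
        ((S.card : ℝ) - 1) * (sa M / 2) * (if Bad cs then 1 else 0) := by
    intro cs
    split_ifs with hb
    · have := ((hEt cs).isP x).le_const (fun tb => ((U tb).card : ℝ) - 1) ((S.card : ℝ) - 1)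
        fun tb => by linarith [hU tb]
      linarith
    · have h1 : Et cs x (fun tb => ((U tb).card : ℝ) - 1) ≤
          Et cs x (fun tb => ((S.card : ℝ) - 1) +
            (-(((S.card : ℝ) - 1) / 2)) * ind (test rf cs tb x)) := by
        refine ((hEt cs).isP x).mono _ _ fun tb => ?_
        cases htb : test rf cs tb x
        · simp only [ind_false]; linarith [hU tb]
        · have hnb : ¬ Big tb := fun hB => hb ⟨tb, hB, htb⟩
          simp only [Big, not_and_or, not_le] at hnb
          simp only [ind_true]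
          rcases hnb with h | h
          · have : ((U tb).card : ℝ) ≤ 1 := by exact_mod_cast Nat.lt_succ_iff.mp h
            linarith
          · have : 2 * ((U tb).card : ℝ) + 1 ≤ S.card := by exact_mod_cast h
            linarith
      rw [((hEt cs).isP x).affine] at h1
      have h2 := ht cs x i p hg
      nlinarith
  have hbad : Ek x (fun cs => if Bad cs then 1 else 0) ≤ 1 / 2 := by
    have h1 : ∀ cs, (if Bad cs then (1 : ℝ) else 0) ≤ ∑ y ∈ (Finset.univ.filter Big) ×ˢ Finset.univ,
        ∏ j, (1 - (if cs j ∈ (U y.1).erase y.2 then (1 : ℝ) else 0)) := by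
      intro cs
      have hnn : ∀ y : (V × V) × V,
          0 ≤ ∏ j, (1 - (if cs j ∈ (U y.1).erase y.2 then (1 : ℝ) else 0)) := fun y =>
        Finset.prod_nonneg fun j _ => by split_ifs <;> norm_num
      split_ifs with hb
      · obtain ⟨tb, hB, htb⟩ := hb
        simp only [test, decide_eq_true_eq] at htb
        have : ∃ c0, ∀ j, cs j ∉ (U tb).erase c0 := by
          by_cases hj : ∃ j, rf tb (cs j) x = false
          · obtain ⟨j0, hj0⟩ := hj
            refine ⟨cs j0, fun j hj => ?_⟩
            simp only [U, Finset.mem_erase, Finset.mem_filter] at hj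
            exact hj.1 (htb j j0 hj.2.2 hj0)
          · refine ⟨i, fun j hj' => hj ⟨j, ?_⟩⟩
            simp only [U, Finset.mem_erase, Finset.mem_filter] at hj'
            exact hj'.2.2
        obtain ⟨c0, hc0⟩ := this
        refine le_trans ?_ (Finset.single_le_sum (fun y _ => hnn y)
          (a := (tb, c0)) (by simp [hB]))
        simp [hc0]
      · exact Finset.sum_nonneg fun y _ => hnn y
    refine ((hEk.isP x).mono _ _ h1).trans ?_
    rw [(hEk.isP x).sum]
    have h2 : ∀ y ∈ (Finset.univ.filter Big) ×ˢ (Finset.univ : Finset V),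
        Ek x (fun cs => ∏ j, (1 - (if cs j ∈ (U y.1).erase y.2 then (1 : ℝ) else 0))) ≤
          (1 - sa M / 4) ^ K := by
      intro y hy
      have hB : Big y.1 := by simpa using hy
      rw [hk x (fun c' => 1 - (if c' ∈ (U y.1).erase y.2 then (1 : ℝ) else 0)),
        (hEs.isP x).sub, (hEs.isP x).one]
      have h3 := hs x ⟨i, hiS⟩ ((U y.1).erase y.2)
        ((Finset.erase_subset _ _).trans (Finset.filter_subset _ _))
      have h4 : ((U y.1).card : ℝ) - 1 ≤ ((U y.1).erase y.2).card := by
        have := Finset.pred_card_le_card_erase (s := U y.1) (a := y.2)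
        have h5 : (U y.1).card ≤ ((U y.1).erase y.2).card + 1 := by omega
        have : ((U y.1).card : ℝ) ≤ ((U y.1).erase y.2).card + 1 := by exact_mod_cast h5
        linarith
      have h5 : (2 : ℝ) ≤ (U y.1).card := by exact_mod_cast hB.1
      have h6 : (S.card : ℝ) ≤ 2 * (U y.1).card := by exact_mod_cast hB.2
      have h7 := (hEs.isP x).le_const (fun c' => if c' ∈ (U y.1).erase y.2 then (1 : ℝ) else 0) 1
        fun c' => by split_ifs <;> norm_num
      refine pow_le_pow_left₀ (by linarith) ?_ K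
      have h8 : (S.card : ℝ) * (sa M / 4) ≤
          S.card * Es x (fun c' => if c' ∈ (U y.1).erase y.2 then (1 : ℝ) else 0) := by
        refine le_trans ?_ h3
        nlinarith
      have := le_of_mul_le_mul_left h8 (by linarith)
      linarith
    refine (Finset.sum_le_sum h2).trans ?_
    rw [Finset.sum_const, nsmul_eq_mul]
    refine le_trans (mul_le_mul_of_nonneg_right ?_ (pow_nonneg (by linarith) K)) hK
    have : ((Finset.univ.filter Big) ×ˢ (Finset.univ : Finset V)).card ≤ Fintype.card V ^ 3 := by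
      rw [Finset.card_product, Finset.card_univ]
      have := Finset.card_filter_le (Finset.univ : Finset (V × V)) Big
      rw [Finset.card_univ, Fintype.card_prod] at this
      calc _ ≤ Fintype.card V * Fintype.card V * Fintype.card V := Nat.mul_le_mul_right _ this
        _ = _ := by ring
    exact_mod_cast this
  refine ((hEk.isP x).mono _ _ hinner).trans ?_
  rw [(hEk.isP x).affine]
  have : 0 ≤ ((S.card : ℝ) - 1) * (sa M / 2) := mul_nonneg (by linarith) (by linarith)
  nlinarith [mul_le_mul_of_nonneg_left hbad this]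

lemma loop_step (hrf : ∀ tb c', Det c (rf tb c')) (hEd : ∀ i, Samp c (Ed i))
    (hN : (Fintype.card V : ℝ) ≤ 9 ^ M * γ) (hN' : (Fintype.card V : ℝ) ≤ 9 ^ M) {K : ℕ}
    (hK : (Fintype.card V : ℝ) ^ 3 * (1 - sa M / 4) ^ K ≤ 1 / 2) : ∀ t ≤ K,
    ∃ El : (ι → Bool) → ((Fin t → V × V) → ℝ) → ℝ,
      Samp (t * (K * (3 ^ M * (K * c)) + 3 ^ M * (c + K * c))) El ∧ ∀ x i p, Gen rf Ed γ x i p →
      El x (fun P => ((surv rf P x).card : ℝ) - 1) ≤ (1 - sa M / 4) ^ t * Fintype.card V
  | 0, _ => ⟨fun _ φ => φ (fun j => j.elim0), by rw [Nat.zero_mul]; exact Samp.pure _,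
      fun x i p _ => by
        have : ((surv rf (fun j : Fin 0 => (j.elim0 : V × V)) x).card : ℝ) ≤ Fintype.card V := by
          exact_mod_cast Finset.card_le_univ _
        simp only [pow_zero, one_mul]; linarith⟩
  | t + 1, ht => by
      obtain ⟨El, hEl, hl⟩ := loop_step hrf hEd hN hN' hK t (by omega)
      choose Er hEr hr using fun P : Fin t → V × V => round_step hrf hEd hN hN' hK P
      have h1 := hEl.bind (T' := K * (3 ^ M * (K * c)) + 3 ^ M * (c + K * c))
        (F := fun P x φ => Er P x (fun tb => φ (Fin.cons tb P : Fin (t + 1) → V × V)))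
        fun P => ((hEr P).map _).mono (by
          have : t * c ≤ K * c := Nat.mul_le_mul_right _ (by omega)
          gcongr)
      rw [← Nat.succ_mul] at h1
      refine ⟨_, h1, fun x i p hg => ?_⟩
      refine ((hEl.isP x).mono _ _ fun P => hr P x i p hg).trans ?_
      rw [(hEl.isP x).smul, pow_succ', mul_assoc]
      exact mul_le_mul_of_nonneg_left (hl x i p hg) (by linarith [sa_le M])

theorem pointer_alg {okk : V → V → C → (ι → Bool) → Bool}
    (hrf : ∀ tb c', Det c (rf tb c')) (hEd : ∀ i, Samp c (Ed i))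
    (hok : ∀ i p ch, Det c (okk i p ch))
    (hgen : ∀ x i p, (∀ ch, okk i p ch x = true) → Gen rf Ed γ x i p)
    (hγ : γ ≤ 1) (hN : (Fintype.card V : ℝ) ≤ 9 ^ M * γ) (hC : (Fintype.card C : ℝ) ≤ 9 ^ M)
    {K r : ℕ} (hK1 : 1 ≤ K) (hK : (Fintype.card V : ℝ) ^ 3 * (1 - sa M / 4) ^ K ≤ 1 / 2)
    (hr : (1 - sa M * γ / 2) ^ r ≤ 1 / 3) (hr' : r * (1 - sa M) ^ K ≤ 1 / 3) :
    ∃ E : (ι → Bool) → (Bool → ℝ) → ℝ, Samp (r * (8 * K ^ 3 * 3 ^ M * c)) E ∧ ∀ x,
      (2 / 3 : ℝ) ≤
        E x (fun b => if b = decide (∃ i p, ∀ ch, okk i p ch x = true) then 1 else 0) := by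
  have h9 : (0 : ℝ) < 9 ^ M := by positivity
  have hN' : (Fintype.card V : ℝ) ≤ 9 ^ M := by nlinarith
  have hc : (1 : ℝ) ≤ Fintype.card V := by exact_mod_cast Fintype.card_pos
  have hγ0 : 0 < γ := by
    by_contra hh
    push Not at hh
    nlinarith
  have hsa := sa_pos M
  have hsa1 := sa_le M
  obtain ⟨El, hEl, hl⟩ := loop_step hrf hEd hN hN' hK K le_rfl
  choose Es hEs hs using fun P : Fin K → V × V => sample_step hrf hN' P
  choose Ev hEv hv using fun i p => verify_step (hok i p) hC K
  have h1 := hEl.bind fun P => (hEs P).bind fun i => (hEd i).bind fun p => hEv i p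
  have hcost : K * (K * (3 ^ M * (K * c)) + 3 ^ M * (c + K * c)) +
      (3 ^ M * (K * c) + (c + K * (3 ^ M * c + c))) ≤ 8 * K ^ 3 * 3 ^ M * c := by
    have h3 : 1 ≤ 3 ^ M := Nat.one_le_pow _ _ (by norm_num)
    have k2 : K ≤ K ^ 3 := Nat.le_self_pow (by norm_num) K
    have k3 : K ^ 2 ≤ K ^ 3 := Nat.pow_le_pow_right hK1 (by norm_num)
    have e1 : c ≤ K ^ 3 * 3 ^ M * c := by
      calc c = 1 * 1 * c := by ring
        _ ≤ _ := by gcongr; omega
    have e2 : K * c ≤ K ^ 3 * 3 ^ M * c := by
      calc K * c = K * 1 * c := by ring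
        _ ≤ _ := by gcongr
    have e3 : K * 3 ^ M * c ≤ K ^ 3 * 3 ^ M * c := by gcongr
    have e4 : K ^ 2 * 3 ^ M * c ≤ K ^ 3 * 3 ^ M * c := by gcongr
    nlinarith
  obtain ⟨E, hE, he⟩ := (h1.mono hcost).orRep r
  refine ⟨E, hE, fun x => ?_⟩
  have hge : ∀ i, 0 ≤ Ed i x (fun p => Ev i p x ind) := fun i =>
    ((hEd i).isP x).nonneg _ fun p => ((hEv i p).isP x).nonneg _ ind_nonneg
  have hy1 := ((h1.isP x).le_const _ _ ind_le_one)
  by_cases hx : ∃ i p, ∀ ch, okk i p ch x = true
  · rw [decide_eq_true hx]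
    obtain ⟨i, p, hip⟩ := hx
    have hg := hgen x i p hip
    have e : (fun b : Bool => if b = true then (1 : ℝ) else 0) = ind := rfl
    rw [e, he]
    have h2 : ∀ P, sa M * γ + (-(sa M * γ)) * (((surv rf P x).card : ℝ) - 1) ≤
        Es P x (fun i => Ed i x (fun p => Ev i p x ind)) := by
      intro P
      have hiS : i ∈ surv rf P x := by simp [surv, hg.nr]
      have hσ : 1 ≤ (surv rf P x).card := Finset.card_pos.mpr ⟨i, hiS⟩
      rcases hσ.eq_or_lt with h | h
      · have h3 := hs P x ⟨i, hiS⟩ {i} (by simpa using hiS)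
        rw [← h] at h3 ⊢
        simp only [Finset.card_singleton, Nat.cast_one, mul_one, one_mul, sub_self, mul_zero,
          add_zero] at h3 ⊢
        have h4 : Es P x (fun c' => γ * if c' ∈ ({i} : Finset V) then 1 else 0) ≤
            Es P x (fun i => Ed i x (fun p => Ev i p x ind)) := by
          refine ((hEs P).isP x).mono _ _ fun c' => ?_
          split_ifs with hc'
          · rw [Finset.mem_singleton] at hc'
            subst hc'
            rw [mul_one]
            refine hg.dec.trans (((hEd c').isP x).mono _ _ fun p' => ?_)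
            split_ifs with hp'
            · rw [hp', (hv c' p x).1 hip]
            · exact ((hEv c' p').isP x).nonneg _ ind_nonneg
          · rw [mul_zero]; exact hge c'
        rw [((hEs P).isP x).smul] at h4
        nlinarith
      · have h3 : (2 : ℝ) ≤ (surv rf P x).card := by exact_mod_cast h
        have h4 := ((hEs P).isP x).nonneg _ hge
        nlinarith [mul_pos hsa hγ0]
    have h3 := (hEl.isP x).mono _ _ h2
    rw [(hEl.isP x).affine] at h3
    have h4 := hl x i p hg
    have h5 : (1 - sa M / 4) ^ K * Fintype.card V ≤ 1 / 2 := by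
      refine le_trans ?_ hK
      rw [mul_comm]
      exact mul_le_mul_of_nonneg_right (le_self_pow₀ hc (by norm_num))
        (pow_nonneg (by linarith) K)
    have h6 : sa M * γ / 2 ≤
        El x (fun P => Es P x (fun i => Ed i x (fun p => Ev i p x ind))) := by
      nlinarith [mul_pos hsa hγ0]
    have h7 := pow_le_pow_left₀ (by linarith) (by linarith :
      1 - El x (fun P => Es P x (fun i => Ed i x (fun p => Ev i p x ind))) ≤ 1 - sa M * γ / 2) r
    linarith
  · rw [decide_eq_false hx]
    have e : (fun b : Bool => if b = false then (1 : ℝ) else 0) = fun b => 1 - ind b := by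
      funext b; cases b <;> simp
    rw [e, (hE.isP x).sub, (hE.isP x).one, he]
    have h2 : El x (fun P => Es P x (fun i => Ed i x (fun p => Ev i p x ind))) ≤ (1 - sa M) ^ K :=
      (hEl.isP x).le_const _ _ fun P => ((hEs P).isP x).le_const _ _ fun i =>
        ((hEd i).isP x).le_const _ _ fun p => (hv i p x).2 fun h => hx ⟨i, p, h⟩
    set y := El x (fun P => Es P x (fun i => Ed i x (fun p => Ev i p x ind)))
    have h3 := one_add_mul_le_pow (a := -y) (by linarith) r
    have h4 : (r : ℝ) * y ≤ r * (1 - sa M) ^ K := mul_le_mul_of_nonneg_left h2 (Nat.cast_nonneg r)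
    rw [← sub_eq_add_neg] at h3
    linarith
end

end Vale.Agent.P362
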