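import Vale.Agent.P362.Had

/-! The pointer function with encrypted pointers. -/

namespace Vale.Agent.P362

open Matrix

/-- which block supplies the signs at time `t` (`none`: the fixed signs) -/
def blk : (k : ℕ) → ℕ → Option (Fin (k + 1))
  | 0, _ => some 0
  | k + 1, t => if t = 2 * k + 2 then some 0 else if t = 2 * k + 1 then none
      else (blk k t).map Fin.succ

variable {n : ℕ}

def sched (D : Vn n → Bool) (k : ℕ) (z : Fin (k + 1) → Vn n → Bool) (t : ℕ) : Vn n → Bool :=
  match blk k t with
  | none => D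
  | some j => z j

abbrev Mem (n k B : ℕ) : Type := (Vn n × Fin n) ⊕ (Fin (2 * k + 1) × Fin (n + 1) × Vn n × Fin B)
abbrev Reg (n k B : ℕ) : Type := Vn n ⊕ (Fin (k + 1) × Vn n) ⊕ (Vn n × Mem n k B)
abbrev Idx (n k B : ℕ) : Type := Vn n × Reg n k B
abbrev Chk (n k : ℕ) : Type := Vn n ⊕ Vn n ⊕ (Fin (2 * k + 1) × Fin (n + 1) × Vn n) ⊕ Unit

variable {k B : ℕ}

def tab (x : Idx n k B → Bool) (i p c : Vn n) : Vn n :=
  fun j => x (i, .inr (.inr (p, .inl (c, j))))

def refu (x : Idx n k B → Bool) (ip : Vn n × Vn n) (c : Vn n) : Bool :=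
  !x (c, .inl (tab x ip.1 ip.2 c))

noncomputable def cell (dec : (Fin B → Bool) → ℝ) (x : Idx n k B → Bool) (i p : Vn n) (t l : ℕ)
    (a : Vn n) : ℝ :=
  if h : t < 2 * k + 1 ∧ l < n + 1 then
    dec fun b => x (i, .inr (.inr (p, .inr (⟨t, h.1⟩, ⟨l, h.2⟩, a, b))))
  else 0

def Eb (x : Idx n k B → Bool) (i : Vn n) : Fin (k + 1) → Vn n → Bool :=
  fun j a => x (i, .inr (.inl (j, a)))

noncomputable def prevc (dec : (Fin B → Bool) → ℝ) (x : Idx n k B → Bool) (i p : Vn n) (t : ℕ)
    (a : Vn n) : ℝ :=
  if t = 0 then 1 else cell dec x i p (t - 1) n a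

noncomputable def expect (D : Vn n → Bool) (dec : (Fin B → Bool) → ℝ) (x : Idx n k B → Bool)
    (i p : Vn n) (t : ℕ) (l : Fin (n + 1)) (a : Vn n) : ℝ :=
  Fin.cases (sg (sched D k (Eb x i) t a) * prevc dec x i p t a)
    (fun l' => cell dec x i p t l' (Function.update a l' false) +
      sg (a l') * cell dec x i p t l' (Function.update a l' true)) l

noncomputable def ok (D : Vn n → Bool) (dec : (Fin B → Bool) → ℝ) (thr : ℝ)
    (x : Idx n k B → Bool) (i p : Vn n) : Chk n k → Bool
  | .inl r => x (i, .inl r)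
  | .inr (.inl c) => decide (c = i) || refu x (i, p) c
  | .inr (.inr (.inl (t, l, a))) => decide (cell dec x i p t l a = expect D dec x i p t l a)
  | .inr (.inr (.inr _)) => decide (thr ≤ cell dec x i p (2 * k) n p)

/-- the total Boolean function -/
noncomputable def fn (D : Vn n → Bool) (dec : (Fin B → Bool) → ℝ) (thr : ℝ)
    (x : Idx n k B → Bool) : Bool :=
  decide (∃ i p, ∀ c, ok D dec thr x i p c = true)

/-- address of the sign at time `t` and position `a` of candidate `i` -/
def adr (k B : ℕ) (i : Vn n) (t : ℕ) (a : Vn n) : Option (Idx n k B) :=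
  (blk k t).map fun j => (i, .inr (.inl (j, a)))

lemma sig_adr (D : Vn n → Bool) (x : Idx n k B → Bool) (i : Vn n) (t : ℕ) :
    sig (adr k B i t) D x = sched D k (Eb x i) t := by
  funext a
  simp only [sig, adr, sched]
  cases blk k t <;> rfl

/-! ### query costs of the checks -/

lemma det_tab (i p c : Vn n) : Det n (fun x : Idx n k B → Bool => tab x i p c) := by
  have := Det.piFin (ι := Idx n k B) (K := n)
    (g := fun j x => x (i, .inr (.inr (p, .inl (c, j))))) fun j => Det.read _
  rwa [Nat.mul_one] at this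

lemma det_refu (ip : Vn n × Vn n) (c : Vn n) :
    Det (n + 1) (fun x : Idx n k B → Bool => refu x ip c) :=
  (det_tab ip.1 ip.2 c).bind (F := fun r x => !x (c, .inl r)) fun r => (Det.read _).map not

lemma det_cell (dec : (Fin B → Bool) → ℝ) (i p : Vn n) (t l : ℕ) (a : Vn n) :
    Det B (fun x : Idx n k B → Bool => cell dec x i p t l a) := by
  unfold cell
  split_ifs with h
  · have := (Det.piFin (ι := Idx n k B) (K := B)
      (g := fun b x => x (i, .inr (.inr (p, .inr (⟨t, h.1⟩, ⟨l, h.2⟩, a, b)))))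
      fun j => Det.read _).map dec
    rwa [Nat.mul_one] at this
  · exact (Det.const _).mono (Nat.zero_le _)

lemma det_sched (D : Vn n → Bool) (i : Vn n) (t : ℕ) (a : Vn n) :
    Det 1 (fun x : Idx n k B → Bool => sched D k (Eb x i) t a) := by
  unfold sched
  cases blk k t with
  | none => exact (Det.const _).mono (Nat.zero_le _)
  | some j => exact Det.read _

lemma det_expect (D : Vn n → Bool) (dec : (Fin B → Bool) → ℝ) (i p : Vn n) (t : ℕ)
    (l : Fin (n + 1)) (a : Vn n) :
    Det (2 * B + 1) (fun x : Idx n k B → Bool => expect D dec x i p t l a) := by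
  refine Fin.cases ?_ (fun l' => ?_) l
  · have h1 : Det B (fun x : Idx n k B → Bool => prevc dec x i p t a) := by
      unfold prevc
      split_ifs
      · exact (Det.const _).mono (Nat.zero_le _)
      · exact det_cell _ _ _ _ _ _
    exact (((det_sched D i t a).pair h1).map fun y => sg y.1 * y.2).mono (by omega)
  · exact (((det_cell dec i p t l' (Function.update a l' false)).pair
      (det_cell dec i p t l' (Function.update a l' true))).map
      fun y => y.1 + sg (a l') * y.2).mono (by omega)

lemma det_ok (D : Vn n → Bool) (dec : (Fin B → Bool) → ℝ) (thr : ℝ) (i p : Vn n) (c : Chk n k) :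
    Det (3 * B + n + 2) (fun x : Idx n k B → Bool => ok D dec thr x i p c) := by
  rcases c with r | c | ⟨t, l, a⟩ | u
  · exact (Det.read _).mono (by omega)
  · exact ((det_refu (i, p) c).map fun b => decide (c = i) || b).mono (by omega)
  · exact (((det_cell dec i p t l a).pair (det_expect D dec i p t l a)).map
      fun y => decide (y.1 = y.2)).mono (by omega)
  · exact ((det_cell dec i p (2 * k) n p).map fun y => decide (thr ≤ y)).mono (by omega)

/-! ### honest transcripts and soundness -/

noncomputable def val (σ : ℕ → Vn n → Bool) (t l : ℕ) (a : Vn n) : ℝ :=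
  ∑ b, ker l a b * (sg (σ t b) * Psi σ t b)

lemma val_zero (σ : ℕ → Vn n → Bool) (t : ℕ) (a : Vn n) :
    val σ t 0 a = sg (σ t a) * Psi σ t a := by
  simp [val, ker_zero]

lemma val_full (σ : ℕ → Vn n → Bool) (t : ℕ) (a : Vn n) : val σ t n a = Psi σ (t + 1) a := by
  simp [val, ker_full, Psi]

lemma val_succ (σ : ℕ → Vn n → Bool) (t : ℕ) (l : Fin n) (a : Vn n) :
    val σ t (l + 1) a = val σ t l (Function.update a l false) +
      sg (a l) * val σ t l (Function.update a l true) := by
  simp only [val, ker_succ, add_mul, Finset.sum_add_distrib, Finset.mul_sum, mul_assoc]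

lemma sound_cell (D : Vn n → Bool) (dec : (Fin B → Bool) → ℝ) (thr : ℝ) (x : Idx n k B → Bool)
    (i p : Vn n) (h : ∀ c, ok D dec thr x i p c = true) :
    ∀ t < 2 * k + 1, ∀ l < n + 1, ∀ a,
      cell dec x i p t l a = val (sched D k (Eb x i)) t l a := by
  have h1 : ∀ (t : Fin (2 * k + 1)) (l : Fin (n + 1)) a,
      cell dec x i p t l a = expect D dec x i p t l a := fun t l a => by
    simpa [ok] using h (.inr (.inr (.inl (t, l, a))))
  have h2 : ∀ t < 2 * k + 1, (∀ a, prevc dec x i p t a = Psi (sched D k (Eb x i)) t a) →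
      ∀ l < n + 1, ∀ a, cell dec x i p t l a = val (sched D k (Eb x i)) t l a := by
    intro t ht hp l
    induction l with
    | zero =>
      intro _ a
      have := h1 ⟨t, ht⟩ 0 a
      simp only [expect, Fin.cases_zero, Fin.val_zero] at this
      rw [this, hp, val_zero]
    | succ l ih =>
      intro hl a
      have := h1 ⟨t, ht⟩ (Fin.succ ⟨l, by omega⟩) a
      simp only [expect, Fin.cases_succ, Fin.val_succ] at this
      rw [this, ih (by omega), ih (by omega)]
      exact (val_succ _ t ⟨l, by omega⟩ a).symm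
  intro t
  induction t with
  | zero => intro ht; exact h2 0 ht fun a => by simp [prevc, Psi]
  | succ t ih =>
    intro ht
    refine h2 (t + 1) ht fun a => ?_
    simp only [prevc, Nat.succ_ne_zero, if_false, Nat.add_sub_cancel]
    rw [ih (by omega) n (by omega), val_full]

lemma sound_thr (D : Vn n → Bool) (dec : (Fin B → Bool) → ℝ) (thr : ℝ) (x : Idx n k B → Bool)
    (i p : Vn n) (h : ∀ c, ok D dec thr x i p c = true) :
    thr ≤ Psi (sched D k (Eb x i)) (2 * k + 1) p := by
  have := h (.inr (.inr (.inr ())))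
  simp only [ok, decide_eq_true_eq] at this
  rwa [sound_cell D dec thr x i p h _ (by omega) _ (by omega), val_full] at this

/-- an integer of absolute value at most `2 ^ m` -/
def Good (m : ℕ) (v : ℝ) : Prop := ∃ z : ℤ, |z| ≤ 2 ^ m ∧ v = z

lemma Good.mono {m m' : ℕ} {v : ℝ} (h : Good m v) (hm : m ≤ m') : Good m' v := by
  obtain ⟨z, hz, e⟩ := h
  exact ⟨z, hz.trans (pow_le_pow_right₀ (by norm_num) hm), e⟩

lemma Good.sg_mul {m : ℕ} {v : ℝ} (h : Good m v) (b : Bool) : Good m (sg b * v) := by
  obtain ⟨z, hz, e⟩ := h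
  cases b
  · exact ⟨z, hz, by simp [e]⟩
  · exact ⟨-z, by simpa using hz, by simp [e]⟩

lemma Good.add {m : ℕ} {v w : ℝ} (h : Good m v) (h' : Good m w) : Good (m + 1) (v + w) := by
  obtain ⟨z, hz, e⟩ := h
  obtain ⟨z', hz', e'⟩ := h'
  refine ⟨z + z', (abs_add_le _ _).trans ?_, by simp [e, e']⟩
  rw [pow_succ]; linarith

lemma good_val (σ : ℕ → Vn n → Bool) : ∀ t l, l < n + 1 → ∀ a, Good (n * t + l) (val σ t l a) := by
  have h2 : ∀ t, (∀ a, Good (n * t) (Psi σ t a)) →
      ∀ l, l < n + 1 → ∀ a, Good (n * t + l) (val σ t l a) := by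
    intro t hp l
    induction l with
    | zero => intro _ a; rw [val_zero]; exact (hp a).sg_mul _
    | succ l ih =>
      intro hl a
      have := val_succ σ t ⟨l, by omega⟩ a
      simp only at this
      rw [this]
      exact (ih (by omega) _).add ((ih (by omega) _).sg_mul _)
  intro t
  induction t with
  | zero => exact h2 0 fun a => ⟨1, by simp, by simp [Psi]⟩
  | succ t ih =>
    refine h2 (t + 1) fun a => ?_
    rw [← val_full, Nat.mul_succ]
    exact ih n (by omega) a

lemma exists_dec (m : ℕ) : ∃ (dec : (Fin (m + 2) → Bool) → ℝ) (enc : ℝ → Fin (m + 2) → Bool),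
    ∀ v, Good m v → dec (enc v) = v := by
  classical
  have hc : Fintype.card (Finset.Icc (-(2 : ℤ) ^ m) (2 ^ m)) ≤
      Fintype.card (Fin (m + 2) → Bool) := by
    simp only [Fintype.card_coe, Int.card_Icc, Fintype.card_fun, Fintype.card_bool,
      Fintype.card_fin]
    rw [Int.toNat_le]
    push_cast
    have : (1 : ℤ) ≤ 2 ^ m := one_le_pow₀ (by norm_num)
    rw [pow_add]; linarith
  obtain ⟨e⟩ := Function.Embedding.nonempty_of_card_le hc
  have hne : Nonempty (Finset.Icc (-(2 : ℤ) ^ m) (2 ^ m)) := ⟨⟨0, by simp⟩⟩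
  refine ⟨fun w => ((Function.invFun e w : Finset.Icc (-(2 : ℤ) ^ m) (2 ^ m)) : ℤ),
    fun v => if h : Good m v then e ⟨h.choose, by
      have := h.choose_spec.1
      rw [Finset.mem_Icc]; exact abs_le.mp this⟩ else fun _ => false, fun v hv => ?_⟩
  simp only [dif_pos hv]
  rw [Function.leftInverse_invFun e.injective]
  exact hv.choose_spec.2.symm

/-- the honest memory content -/
noncomputable def honest (D : Vn n → Bool) (enc : ℝ → Fin B → Bool) (r : Vn n → Vn n)
    (z : Fin (k + 1) → Vn n → Bool) : Mem n k B → Bool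
  | .inl (c, j) => r c j
  | .inr (t, l, a, b) => enc (val (sched D k z) t l a) b

lemma complete (D : Vn n → Bool) (dec : (Fin B → Bool) → ℝ) (enc : ℝ → Fin B → Bool) (thr : ℝ)
    (hde : ∀ v, Good (n * (2 * k + 1)) v → dec (enc v) = v) (x : Idx n k B → Bool) (i p : Vn n)
    (r : Vn n → Vn n) (hseg : ∀ s, x (i, .inl s) = true)
    (hz : ∀ c, c ≠ i → x (c, .inl (r c)) = false)
    (hm : ∀ m, x (i, .inr (.inr (p, m))) = honest D enc r (Eb x i) m)
    (hthr : thr ≤ Psi (sched D k (Eb x i)) (2 * k + 1) p) : fn D dec thr x = true := by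
  have hc : ∀ t < 2 * k + 1, ∀ l < n + 1, ∀ a,
      cell dec x i p t l a = val (sched D k (Eb x i)) t l a := by
    intro t ht l hl a
    rw [cell, dif_pos ⟨ht, hl⟩]
    simp only [hm, honest]
    refine hde _ ((good_val _ t l hl a).mono ?_)
    have : n * t ≤ n * (2 * k) := Nat.mul_le_mul_left _ (by omega)
    rw [Nat.mul_succ]; omega
  rw [fn, decide_eq_true_eq]
  refine ⟨i, p, fun c => ?_⟩
  rcases c with s | c | ⟨t, l, a⟩ | u
  · exact hseg s
  · by_cases hci : c = i
    · simp [ok, hci]
    · have : tab x i p c = r c := by funext j; simp only [tab, hm, honest]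
      simp [ok, refu, this, hz c hci]
  · simp only [ok, decide_eq_true_eq]
    rw [hc t t.2 l l.2]
    refine Fin.cases ?_ (fun l' => ?_) l
    · simp only [expect, Fin.cases_zero, Fin.val_zero, val_zero, prevc]
      congr 1
      rcases Nat.eq_zero_or_pos t with h0 | h0
      · rw [if_pos h0, h0]; rfl
      · rw [if_neg (by omega), hc _ (by omega) _ (by omega), val_full,
          show (t : ℕ) - 1 + 1 = t by omega]
    · simp only [expect, Fin.cases_succ, Fin.val_succ]
      rw [hc t t.2 l' (by omega), hc t t.2 l' (by omega), val_succ]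
  · simp only [ok, decide_eq_true_eq]
    rwa [hc _ (by omega) _ (by omega), val_full]

end Vale.Agent.P362
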