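import Vale.Agent.P362.Tree
import Vale.Agent.P362.Fn

/-! The randomized lower bound, given a pseudo-uniform distribution of encrypted pointers. -/

namespace Vale.Agent.P362

/-- uniform average -/
noncomputable def av {α : Type} [Fintype α] (F : α → ℝ) : ℝ := (∑ a, F a) / Fintype.card α

section
variable {α β' : Type} [Fintype α] [Fintype β']

lemma av_isP [Nonempty α] : IsP (av (α := α)) := by
  classical
  exact (Samp.unif (ι := Unit) (Ω := α)).isP (fun _ => false)

lemma av_comm (F : α → β' → ℝ) : av (fun a => av (fun b => F a b)) =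
    av (fun b => av (fun a => F a b)) := by
  simp only [av, ← Finset.sum_div]
  rw [Finset.sum_comm]; ring

lemma av_equiv (e : α ≃ α) (F : α → ℝ) : av (fun a => F (e a)) = av F := by
  simp only [av, e.sum_comp]

lemma av_update {I : Type} [Fintype I] [DecidableEq I] [Nonempty α] (i : I) (F : (I → α) → ℝ) :
    av (fun r => av (fun s => F (Function.update r i s))) = av F := by
  have hc : (0 : ℝ) < Fintype.card α := by exact_mod_cast Fintype.card_pos
  let e : (I → α) × α ≃ (I → α) × α :=
    { toFun := fun y => (Function.update y.1 i y.2, y.1 i)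
      invFun := fun y => (Function.update y.1 i y.2, y.1 i)
      left_inv := fun y => by simp
      right_inv := fun y => by simp }
  have h := e.sum_comp (fun y => F y.1)
  simp only [Fintype.sum_prod_type, Finset.sum_const, Finset.card_univ, nsmul_eq_mul] at h
  simp only [av, ← Finset.sum_div]
  have h2 : ∑ r : I → α, ∑ s : α, F (Function.update r i s) = ∑ r, (Fintype.card α : ℝ) * F r := h
  rw [h2, ← Finset.mul_sum]
  field_simp

/-- at most `countP` many labels are touched by a list -/
lemma sum_touch {ι : Type} [DecidableEq α] (P : ι → Bool) (lab : ι → Option α)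
    (hP : ∀ j a, lab j = some a → P j = true) : ∀ l : List ι,
    ∑ a, (if ∃ j ∈ l, lab j = some a then (1 : ℝ) else 0) ≤ l.countP P
  | [] => by simp
  | j :: l => by
      have ih := sum_touch P lab hP l
      have h1 : ∀ a, (if ∃ j' ∈ j :: l, lab j' = some a then (1 : ℝ) else 0) ≤
          (if ∃ j' ∈ l, lab j' = some a then (1 : ℝ) else 0) + (if lab j = some a then 1 else 0) := by
        intro a
        simp only [List.mem_cons, exists_eq_or_imp]
        by_cases h2 : lab j = some a <;> by_cases h3 : ∃ j' ∈ l, lab j' = some a <;> simp [h2, h3]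
      refine (Finset.sum_le_sum fun a _ => h1 a).trans ?_
      rw [Finset.sum_add_distrib, List.countP_cons]
      push_cast
      refine add_le_add ih ?_
      cases hl : lab j with
      | none => simp; split_ifs <;> norm_num
      | some a => simp [hP j a hl]

lemma sum_countP {ι : Type} [DecidableEq α] (reg : ι → α) : ∀ l : List ι,
    ∑ a, l.countP (fun j => decide (reg j = a)) = l.length
  | [] => by simp
  | j :: l => by
      simp only [List.countP_cons, Finset.sum_add_distrib, sum_countP reg l, List.length_cons]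
      simp
end

lemma IsP.bind {Ω Ω' : Type} {E : (Ω → ℝ) → ℝ} {F : Ω → (Ω' → ℝ) → ℝ} (hE : IsP E)
    (hF : ∀ ω, IsP (F ω)) : IsP (fun φ => E (fun ω => F ω φ)) :=
  ⟨fun φ ψ => by simp only [(hF _).add, hE.add], fun c φ => by simp only [(hF _).smul, hE.smul],
    fun φ ψ h => hE.mono _ _ fun ω => (hF ω).mono _ _ h, by simp only [(hF _).one, hE.one]⟩

lemma IsP.map {Ω Ω' : Type} {E : (Ω → ℝ) → ℝ} (hE : IsP E) (g : Ω → Ω') :
    IsP (fun φ : Ω' → ℝ => E (fun ω => φ (g ω))) :=
  ⟨fun φ ψ => hE.add _ _, fun c φ => hE.smul _ _, fun φ ψ h => hE.mono _ _ fun ω => h _, hE.one⟩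

variable {n k B : ℕ}

abbrev Zb (n k : ℕ) : Type := Fin (k + 1) → Vn n → Bool

def unc (z : Zb n k) : Fin (k + 1) × Vn n → Bool := fun y => z y.1 y.2

noncomputable def shift (p : Vn n) (z : Zb n k) : Zb n k :=
  fun j a => xor (z j a) (decide (j = 0) && hb p a)

lemma shift_shift (p : Vn n) (z : Zb n k) : shift p (shift p z) = z := by
  funext j a; simp [shift]

lemma blk_top : ∀ k : ℕ, blk k (2 * k) = some 0
  | 0 => rfl
  | k + 1 => by simp [blk, Nat.mul_succ]

lemma blk_low : ∀ k t : ℕ, t < 2 * k → blk k t ≠ some 0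
  | 0, _, h => by omega
  | k + 1, t, h => by
      rw [blk, if_neg (by omega)]
      split_ifs
      · simp
      · cases blk k t <;> simp [Fin.succ_ne_zero]

lemma Psi_shift (D : Vn n → Bool) (p : Vn n) (z : Zb n k) :
    Psi (sched D k (shift p z)) (2 * k + 1) p = Psi (sched D k z) (2 * k + 1) (fun _ => false) := by
  have h1 : Psi (sched D k (shift p z)) (2 * k) = Psi (sched D k z) (2 * k) := by
    refine Psi_congr _ _ _ fun s hs => ?_
    have := blk_low k s hs
    simp only [sched]
    cases hb' : blk k s with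
    | none => rfl
    | some j =>
      have hj : j ≠ 0 := fun e => this (by rw [hb', e])
      funext a; simp [shift, hj]
  simp only [Psi, h1, hd_zero]
  refine Finset.sum_congr rfl fun b _ => ?_
  simp only [sched, blk_top, shift, decide_true, Bool.true_and, sg_xor, sg_hb]
  have := hd_sq p b
  calc _ = hd p b ^ 2 * (sg (z 0 b) * Psi (sched D k z) (2 * k) b) := by ring
    _ = _ := by rw [this]

def x0 (r : Vn n → Vn n) (e : Vn n → Zb n k) : Idx n k B → Bool
  | (i, .inl s) => decide (s ≠ r i)
  | (i, .inr (.inl (j, a))) => e i j a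
  | (_, .inr (.inr _)) => false

def xo (r : Vn n → Vn n) (e : Vn n → Zb n k) (i : Vn n) : Idx n k B → Bool
  | (i', .inl s) => decide (i' = i) || decide (s ≠ r i')
  | (i', .inr (.inl (j, a))) => e i' j a
  | (_, .inr (.inr _)) => false

noncomputable def x1 (D : Vn n → Bool) (enc : ℝ → Fin B → Bool) (r : Vn n → Vn n)
    (e : Vn n → Zb n k) (i p : Vn n) (z : Zb n k) : Idx n k B → Bool
  | (i', .inl s) => decide (i' = i) || decide (s ≠ r i')
  | (i', .inr (.inl (j, a))) => Function.update e i (shift p z) i' j a
  | (i', .inr (.inr (p', m))) => if i' = i ∧ p' = p then honest D enc r (shift p z) m else false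

noncomputable def sb (r : Vn n → Vn n) (e : Vn n → Zb n k) (i p : Vn n) :
    Idx n k B → Option (Bool ⊕ ((Fin (k + 1) × Vn n) × Bool))
  | (i', .inl s) => some (.inl (decide (i' = i) || decide (s ≠ r i')))
  | (i', .inr (.inl (j, a))) =>
      if i' = i then some (.inr ((j, a), decide (j = 0) && hb p a)) else some (.inl (e i' j a))
  | (i', .inr (.inr (p', _))) => if i' = i ∧ p' = p then none else some (.inl false)

lemma compat_x1 (D : Vn n → Bool) (enc : ℝ → Fin B → Bool) (r : Vn n → Vn n)
    (e : Vn n → Zb n k) (i p : Vn n) (z : Zb n k) :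
    DT.Compat (sb (B := B) r e i p) (x1 D enc r e i p z) (unc z) := by
  rintro ⟨i', s | ⟨j, a⟩ | ⟨p', m⟩⟩
  · simp [sb, x1]
  · by_cases h : i' = i
    · subst h; simp [sb, x1, shift, unc]
    · simp [sb, x1, h]
  · by_cases h : i' = i ∧ p' = p
    · simp [sb, h]
    · simp [sb, x1, h]

lemma compat_xo (r : Vn n → Vn n) (e : Vn n → Zb n k) (i p : Vn n) (z : Zb n k) :
    DT.Compat (sb (B := B) r e i p) (xo r (Function.update e i (shift p z)) i) (unc z) := by
  rintro ⟨i', s | ⟨j, a⟩ | ⟨p', m⟩⟩
  · simp [sb, xo]
  · by_cases h : i' = i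
    · subst h; simp [sb, xo, shift, unc]
    · simp [sb, xo, h]
  · by_cases h : i' = i ∧ p' = p
    · simp [sb, h]
    · simp [sb, xo, h]

def labM (i : Vn n) : Idx n k B → Option (Vn n)
  | (i', .inr (.inr (p', _))) => if i' = i then some p' else none
  | _ => none

def labS (i : Vn n) : Idx n k B → Option (Vn n)
  | (i', .inl s) => if i' = i then some s else none
  | _ => none

section
variable (D : Vn n → Bool) (enc : ℝ → Fin B → Bool) {Dn : (Zb n k → ℝ) → ℝ} {q : ℕ} {η : ℝ}

lemma step_c (hD : IsP Dn)
    (hI : ∀ T : DT (Fin (k + 1) × Vn n), T.depth ≤ q →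
      av (fun z => ind (!T.eval (unc z))) - η ≤ Dn (fun z => ind (!T.eval (unc z))))
    (T : DT (Idx n k B)) (r : Vn n → Vn n) (e : Vn n → Zb n k) (i : Vn n)
    (hT : T.rd (fun j => decide (j.1 = i)) ≤ q) :
    av (fun z => ind (!T.eval (xo r (Function.update e i z) i))) - (q / 2 ^ n + η) ≤
      av (fun p => Dn (fun z => ind (!T.eval (x1 D enc r e i p z)))) := by
  classical
  let tch : Vn n → Zb n k → ℝ := fun p z =>
    if ∃ j ∈ T.qs (xo r (Function.update e i z) i), labM i j = some p then 1 else 0
  have h1 : ∀ p, av (fun z => ind (!T.eval (xo r (Function.update e i z) i)) - tch p z) - η ≤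
      Dn (fun z => ind (!T.eval (x1 D enc r e i p z))) := by
    intro p
    have hd : (T.subst (sb r e i p)).depth ≤ q := by
      refine (DT.depth_subst ?_ T).trans hT
      rintro ⟨i', s | ⟨j, a⟩ | ⟨p', m⟩⟩ y
      · simp [sb]
      · by_cases h : i' = i <;> simp [sb, h]
      · by_cases h : i' = i ∧ p' = p <;> simp [sb, h]
    refine le_trans ?_ ((hI _ hd).trans (hD.mono _ _ fun z => ?_))
    · let σ : Zb n k ≃ Zb n k := ⟨shift p, shift p, shift_shift p, shift_shift p⟩
      rw [← av_equiv σ]
      refine sub_le_sub_right (av_isP.mono _ _ fun z => ?_) _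
      have h2 := (DT.subst_eval (compat_xo r e i p z) T).2
      show ind (!T.eval (xo r (Function.update e i (shift p z)) i)) - tch p (shift p z) ≤ _
      by_cases h3 : ∃ j ∈ T.qs (xo r (Function.update e i (shift p z)) i), labM i j = some p
      · simp only [tch, if_pos h3]
        linarith [ind_le_one (!T.eval (xo r (Function.update e i (shift p z)) i)),
          ind_nonneg (!(T.subst (sb r e i p)).eval (unc z))]
      · simp only [tch, if_neg h3, sub_zero]
        cases h4 : T.eval (xo r (Function.update e i (shift p z)) i)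
        · rw [h2 h4]
          rintro ⟨i', s | ⟨j, a⟩ | ⟨p', m⟩⟩ hj
          · simp [sb]
          · by_cases h : i' = i <;> simp [sb, h]
          · by_cases h : i' = i ∧ p' = p
            · exact absurd ⟨_, hj, by simp [labM, h]⟩ h3
            · simp [sb, h]
        · exact ind_nonneg _
    · have h2 := (DT.subst_eval (compat_x1 D enc r e i p z) T).1
      cases h4 : (T.subst (sb r e i p)).eval (unc z)
      · rw [h2 h4]
      · exact ind_nonneg _
  refine le_trans ?_ (av_isP.mono _ _ h1)
  rw [av_isP.sub, av_isP.const, av_comm]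
  simp only [av_isP.sub, av_isP.const]
  have h2 : av (fun z => av (fun p => tch p z)) ≤ q / 2 ^ n := by
    refine av_isP.le_const _ _ fun z => ?_
    have h3 := sum_touch (fun j : Idx n k B => decide (j.1 = i)) (labM i) (by
      rintro ⟨i', s | ⟨j, a⟩ | ⟨p', m⟩⟩ y
      · simp [labM]
      · simp [labM]
      · by_cases h : i' = i <;> simp [labM, h]) (T.qs (xo r (Function.update e i z) i))
    have h4 := (DT.countP_le_rd (fun j : Idx n k B => decide (j.1 = i))
      (xo r (Function.update e i z) i) T).trans hT
    have h5 : ((List.countP (fun j : Idx n k B => decide (j.1 = i))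
      (T.qs (xo r (Function.update e i z) i)) : ℕ) : ℝ) ≤ q := by exact_mod_cast h4
    simp only [av, card_Vn]
    push_cast
    exact div_le_div_of_nonneg_right (h3.trans h5) (by positivity)
  linarith

lemma step_b (T : DT (Idx n k B)) (r : Vn n → Vn n) (e : Vn n → Zb n k) (i : Vn n)
    (hT : T.rd (fun j => decide (j.1 = i)) ≤ q) :
    av (fun s => ind (!T.eval (x0 (Function.update r i s) e))) - q / 2 ^ n ≤
      ind (!T.eval (xo r e i)) := by
  classical
  let tch : Vn n → ℝ := fun s => if ∃ j ∈ T.qs (xo r e i), labS i j = some s then 1 else 0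
  have h1 : ∀ s, ind (!T.eval (x0 (Function.update r i s) e)) ≤
      ind (!T.eval (xo r e i)) + tch s := by
    intro s
    by_cases h3 : ∃ j ∈ T.qs (xo r e i), labS i j = some s
    · simp only [tch, if_pos h3]
      linarith [ind_le_one (!T.eval (x0 (Function.update r i s) e)),
        ind_nonneg (!T.eval (xo r e i))]
    · simp only [tch, if_neg h3, add_zero]
      rw [(DT.agree T (xo r e i) (x0 (Function.update r i s) e) ?_).1]
      rintro ⟨i', s' | ⟨j, a⟩ | ⟨p', m⟩⟩ hj
      · by_cases h : i' = i
        · subst h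
          have : s' ≠ s := fun h' => h3 ⟨_, hj, by simp [labS, h']⟩
          simp [x0, xo, this]
        · simp [x0, xo, h]
      · rfl
      · rfl
  have h2 := av_isP.mono _ _ h1
  rw [av_isP.add, av_isP.const] at h2
  have h3 := sum_touch (fun j : Idx n k B => decide (j.1 = i)) (labS i) (by
    rintro ⟨i', s | ⟨j, a⟩ | ⟨p', m⟩⟩ y
    · by_cases h : i' = i <;> simp [labS, h]
    · simp [labS]
    · simp [labS]) (T.qs (xo r e i))
  have h4 := (DT.countP_le_rd (fun j : Idx n k B => decide (j.1 = i)) (xo r e i) T).trans hT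
  have h5 : ((List.countP (fun j : Idx n k B => decide (j.1 = i))
    (T.qs (xo r e i)) : ℕ) : ℝ) ≤ q := by exact_mod_cast h4
  have h6 : av tch ≤ q / 2 ^ n := by
    simp only [av, card_Vn]
    push_cast
    exact div_le_div_of_nonneg_right (h3.trans h5) (by positivity)
  linarith

lemma xo_update (r : Vn n → Vn n) (e : Vn n → Zb n k) (i s : Vn n) :
    xo (B := B) (Function.update r i s) e i = xo r e i := by
  funext y
  obtain ⟨i', s' | ⟨j, a⟩ | ⟨p', m⟩⟩ := y
  · by_cases h : i' = i <;> simp [xo, h]
  · rfl
  · rfl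

lemma tree_ineq (hD : IsP Dn)
    (hI : ∀ T : DT (Fin (k + 1) × Vn n), T.depth ≤ q →
      av (fun z => ind (!T.eval (unc z))) - η ≤ Dn (fun z => ind (!T.eval (unc z))))
    (T : DT (Idx n k B)) {q' : ℕ} (hT : ∀ x, T.cost x ≤ q') :
    av (fun r => av (fun e => ind (!T.eval (x0 r e)))) -
        (2 * q / 2 ^ n + η + q' / (2 ^ n * (q + 1))) ≤
      av (fun i => av (fun r => av (fun e => av (fun p =>
        Dn (fun z => ind (!T.eval (x1 D enc r e i p z))))))) := by
  classical
  let hv : Vn n → (Idx n k B → Bool) → ℝ := fun i x =>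
    ((T.qs x).countP (fun j => decide (j.1 = i)) : ℝ) / (q + 1)
  have h1 : ∀ i, av (fun r => av (fun e => ind (!T.eval (x0 r e)) - hv i (x0 r e))) -
      (2 * q / 2 ^ n + η) ≤ av (fun r => av (fun e => av (fun p =>
        Dn (fun z => ind (!T.eval (x1 D enc r e i p z)))))) := by
    intro i
    set T' := T.trunc (fun j => decide (j.1 = i)) q with hT'
    have hrd : T'.rd (fun j => decide (j.1 = i)) ≤ q := DT.rd_trunc _ _ _
    have a1 : av (fun r => av (fun e => av (fun p =>
        Dn (fun z => ind (!T'.eval (x1 D enc r e i p z)))))) ≤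
        av (fun r => av (fun e => av (fun p =>
        Dn (fun z => ind (!T.eval (x1 D enc r e i p z)))))) := by
      refine av_isP.mono _ _ fun r => av_isP.mono _ _ fun e => av_isP.mono _ _ fun p =>
        hD.mono _ _ fun z => ?_
      cases h : T'.eval (x1 D enc r e i p z)
      · rw [DT.trunc_rej _ _ T q h]
      · exact ind_nonneg _
    have a2 := av_isP.mono _ _ fun r => av_isP.mono _ _ fun e => step_c D enc hD hI T' r e i hrd
    simp only [av_isP.sub, av_isP.const] at a2
    have a3 : ∀ r, av (fun e => av (fun z => ind (!T'.eval (xo r (Function.update e i z) i)))) =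
        av (fun e => ind (!T'.eval (xo r e i))) := fun r =>
      av_update i (fun e => ind (!T'.eval (xo r e i)))
    simp only [a3] at a2
    have a4 := av_isP.mono _ _ fun e => av_isP.mono _ _ fun r => step_b T' r e i hrd
    simp only [av_isP.sub, av_isP.const] at a4
    have a5 : ∀ e, av (fun r => av (fun s => ind (!T'.eval (x0 (Function.update r i s) e)))) =
        av (fun r => ind (!T'.eval (x0 r e))) := fun e =>
      av_update i (fun r => ind (!T'.eval (x0 r e)))
    simp only [a5] at a4
    rw [av_comm, av_comm (fun e r => ind (!T'.eval (xo r e i)))] at a4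
    have a6 : av (fun r => av (fun e => ind (!T.eval (x0 r e)) - hv i (x0 r e))) ≤
        av (fun r => av (fun e => ind (!T'.eval (x0 r e)))) := by
      refine av_isP.mono _ _ fun r => av_isP.mono _ _ fun e => ?_
      have hv0 : 0 ≤ hv i (x0 r e) := by simp only [hv]; positivity
      by_cases hc : (T.qs (x0 r e)).countP (fun j => decide (j.1 = i)) ≤ q
      · cases h : T.eval (x0 r e)
        · rw [hT', DT.rej_trunc _ _ T q h hc]; linarith
        · simp only [Bool.not_true, ind_false]; linarith [ind_nonneg (!T'.eval (x0 r e))]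
      · have : 1 ≤ hv i (x0 r e) := by
          simp only [hv]
          rw [le_div_iff₀ (by positivity), one_mul]
          exact_mod_cast Nat.succ_le_of_lt (not_le.mp hc)
        linarith [ind_nonneg (!T'.eval (x0 r e)), ind_le_one (!T.eval (x0 r e))]
    have : (2 * q / 2 ^ n : ℝ) = q / 2 ^ n + q / 2 ^ n := by ring
    linarith
  have h2 := av_isP.mono _ _ h1
  simp only [av_isP.sub, av_isP.const] at h2
  have h3 : av (fun i => av (fun r => av (fun e => hv i (x0 r e)))) ≤ q' / (2 ^ n * (q + 1)) := by
    rw [av_comm]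
    refine av_isP.le_const _ _ fun r => ?_
    rw [av_comm]
    refine av_isP.le_const _ _ fun e => ?_
    have h4 := sum_countP (fun j : Idx n k B => j.1) (T.qs (x0 r e))
    rw [DT.length_qs] at h4
    have h5 : (∑ i, ((T.qs (x0 r e)).countP (fun j => decide (j.1 = i)) : ℝ)) ≤ q' := by
      exact_mod_cast h4.le.trans (hT _)
    simp only [av, hv, card_Vn, ← Finset.sum_div]
    push_cast
    rw [div_div, mul_comm]
    exact div_le_div_of_nonneg_right h5 (by positivity)
  linarith

theorem r_lower (dec : (Fin B → Bool) → ℝ) (thr β : ℝ)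
    (hde : ∀ v, Good (n * (2 * k + 1)) v → dec (enc v) = v) (hD : IsP Dn)
    (hI : ∀ T : DT (Fin (k + 1) × Vn n), T.depth ≤ q →
      av (fun z => ind (!T.eval (unc z))) - η ≤ Dn (fun z => ind (!T.eval (unc z))))
    (hA : β ≤ Dn (fun z => if thr ≤ Psi (sched D k z) (2 * k + 1) (fun _ => false) then 1 else 0))
    {m q' : ℕ} (w : Fin m → ℝ) (T : Fin m → DT (Idx n k B)) (hw : ∀ j, 0 ≤ w j)
    (hw1 : ∑ j, w j = 1) (hT : ∀ j x, (T j).cost x ≤ q')
    (hc : ∀ x, (2 / 3 : ℝ) ≤ ∑ j, if (T j).eval x = fn D dec thr x then w j else 0) (t : ℕ) :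
    (2 / 3 : ℝ) ^ t * β ≤ (1 / 3) ^ t + (2 * q / 2 ^ n + η + t * q' / (2 ^ n * (q + 1))) := by
  classical
  let acc : (Idx n k B → Bool) → ℝ := fun x => ∑ j, w j * ind ((T j).eval x)
  have hacc0 : ∀ x, 0 ≤ acc x := fun x =>
    Finset.sum_nonneg fun j _ => mul_nonneg (hw j) (ind_nonneg _)
  have hacc1 : ∀ x, fn D dec thr x = true → 2 / 3 ≤ acc x := fun x hx => by
    refine (hc x).trans (le_of_eq (Finset.sum_congr rfl fun j _ => ?_))
    rw [hx]; cases (T j).eval x <;> simp
  have hacc2 : ∀ x, fn D dec thr x = false → acc x ≤ 1 / 3 := fun x hx => by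
    have h1 := hc x
    have h2 : ∑ j, (if (T j).eval x = fn D dec thr x then w j else 0) + acc x = 1 := by
      rw [← hw1, ← Finset.sum_add_distrib]
      refine Finset.sum_congr rfl fun j _ => ?_
      rw [hx]; cases (T j).eval x <;> simp
    linarith
  let W : (Fin t → Fin m) → ℝ := fun js => ∏ l, w (js l)
  let TT : (Fin t → Fin m) → DT (Idx n k B) := fun js => DT.andL (List.ofFn fun l => T (js l))
  have hW : ∀ js, 0 ≤ W js := fun js => Finset.prod_nonneg fun l _ => hw _
  have hW1 : ∑ js, W js = 1 := by
    have := Finset.prod_univ_sum (fun _ : Fin t => (Finset.univ : Finset (Fin m))) (fun _ j => w j)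
    simp only [hw1, Finset.prod_const_one, Fintype.piFinset_univ] at this
    exact this.symm
  have hsum : ∀ x, ∑ js, W js * ind (!(TT js).eval x) = 1 - acc x ^ t := by
    intro x
    have := Finset.prod_univ_sum (fun _ : Fin t => (Finset.univ : Finset (Fin m)))
      (fun _ j => w j * ind ((T j).eval x))
    simp only [Finset.prod_const, Finset.card_univ, Fintype.card_fin, Fintype.piFinset_univ] at this
    simp only [ind_not, mul_sub, mul_one, Finset.sum_sub_distrib, hW1, acc, this]
    congr 1
    refine Finset.sum_congr rfl fun js _ => ?_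
    simp only [TT, DT.eval_andL, List.map_ofFn, List.prod_ofFn, W, Finset.prod_mul_distrib]
    rfl
  have hP0 : IsP (fun φ : (Idx n k B → Bool) → ℝ => av (fun r => av (fun e => φ (x0 r e)))) :=
    av_isP.bind fun r => av_isP.map _
  have hP1 : IsP (fun φ : (Idx n k B → Bool) → ℝ => av (fun i => av (fun r => av (fun e =>
      av (fun p => Dn (fun z => φ (x1 D enc r e i p z))))))) :=
    av_isP.bind fun i => av_isP.bind fun r => av_isP.bind fun e => av_isP.bind fun p => hD.map _
  have h1 : ∀ js, _ := fun js => tree_ineq D enc hD hI (TT js) (q' := t * q') fun x => by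
    have := DT.cost_andL x q' (List.ofFn fun l => T (js l)) (by
      intro T' hT'
      obtain ⟨l, rfl⟩ := (List.mem_ofFn' _ _).mp hT'
      exact hT _ _)
    simpa using this
  have h2 := Finset.sum_le_sum fun js (_ : js ∈ Finset.univ) =>
    mul_le_mul_of_nonneg_left (h1 js) (hW js)
  have e0 := hP0.sum Finset.univ (fun js x => W js * ind (!(TT js).eval x))
  have e1 := hP1.sum Finset.univ (fun js x => W js * ind (!(TT js).eval x))
  simp only [hsum] at e0 e1
  have s0 := fun js => hP0.smul (W js) (fun x => ind (!(TT js).eval x))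
  have s1 := fun js => hP1.smul (W js) (fun x => ind (!(TT js).eval x))
  simp only [s0] at e0
  simp only [s1] at e1
  simp only [mul_sub, Finset.sum_sub_distrib, ← Finset.sum_mul, hW1, one_mul] at h2
  rw [← e0, ← e1] at h2
  have b0 : 1 - (1 / 3 : ℝ) ^ t ≤ av (fun r => av (fun e => 1 - acc (x0 r e) ^ t)) := by
    refine av_isP.const_le _ _ fun r => av_isP.const_le _ _ fun e => ?_
    have : fn D dec thr (x0 (B := B) r e) = false := by
      rw [fn, decide_eq_false_iff_not]
      rintro ⟨i, p, h⟩
      have := h (.inl (r i))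
      simp [ok, x0] at this
    have := pow_le_pow_left₀ (hacc0 _) (hacc2 _ this) t
    linarith
  have b1 : av (fun i => av (fun r => av (fun e => av (fun p =>
      Dn (fun z => 1 - acc (x1 D enc r e i p z) ^ t))))) ≤ 1 - (2 / 3 : ℝ) ^ t * β := by
    refine av_isP.le_const _ _ fun i => av_isP.le_const _ _ fun r => av_isP.le_const _ _ fun e =>
      av_isP.le_const _ _ fun p => ?_
    have h3 : Dn (fun z => 1 - acc (x1 D enc r e i p z) ^ t) ≤ Dn (fun z => 1 + (-(2 / 3 : ℝ) ^ t) *
        (if thr ≤ Psi (sched D k z) (2 * k + 1) (fun _ => false) then 1 else 0)) := by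
      refine hD.mono _ _ fun z => ?_
      split_ifs with hz
      · have hE : Eb (x1 D enc r e i p z) i = shift p z := by
          funext j a; simp [Eb, x1]
        have : fn D dec thr (x1 D enc r e i p z) = true := by
          refine complete D dec enc thr hde _ i p r (fun s => by simp [x1])
            (fun c hc => by simp [x1, hc]) (fun m => by rw [hE]; simp [x1]) ?_
          rwa [hE, Psi_shift]
        have := pow_le_pow_left₀ (by norm_num) (hacc1 _ this) t
        linarith
      · have := pow_nonneg (hacc0 (x1 D enc r e i p z)) t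
        linarith
    rw [hD.affine] at h3
    nlinarith [pow_pos (by norm_num : (0 : ℝ) < 2 / 3) t]
  push_cast at h2
  linarith
end

end Vale.Agent.P362
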