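import Vale.Agent.P362.Perm
import Vale.Agent.P362.Lower

/-! The chain of masked kernels: a pseudo-uniform distribution with large decoding amplitude. -/

namespace Vale.Agent.P362

open Finset Matrix

variable {n : ℕ}

def xh {k : ℕ} (v : Vn n → Bool) (y : Zb n k) : Zb n k :=
  Function.update y 0 (fun a => xor (v a) (y 0 a))

@[simp] lemma xh_zero {k : ℕ} (v : Vn n → Bool) (y : Zb n k) :
    xh v y 0 = fun a => xor (v a) (y 0 a) := by simp [xh]

@[simp] lemma xh_succ {k : ℕ} (v : Vn n → Bool) (y : Zb n k) (j : Fin k) :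
    xh v y j.succ = y j.succ := by simp [xh, Fin.succ_ne_zero]

noncomputable def ch (κ : (Vn n → Bool) → (Vn n → Bool) → ℝ) : (k : ℕ) → (Zb n k → ℝ) → ℝ
  | 0, F => F (fun _ _ => false)
  | k + 1, F => ∑ u, ∑ v, κ u v * ch κ k (fun y => F (Fin.cons u (xh v y)))

variable {κ κ' : (Vn n → Bool) → (Vn n → Bool) → ℝ}

lemma ch_add : ∀ (k : ℕ) (F G : Zb n k → ℝ), ch κ k (fun z => F z + G z) = ch κ k F + ch κ k G
  | 0, _, _ => rfl
  | k + 1, F, G => by simp only [ch, ch_add k, mul_add, sum_add_distrib]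

lemma ch_smul : ∀ (k : ℕ) (c : ℝ) (F : Zb n k → ℝ), ch κ k (fun z => c * F z) = c * ch κ k F
  | 0, _, _ => rfl
  | k + 1, c, F => by
      simp only [ch, ch_smul k, mul_sum]
      exact sum_congr rfl fun _ _ => sum_congr rfl fun _ _ => by ring

lemma ch_sum {I : Type} (k : ℕ) (s : Finset I) (F : I → Zb n k → ℝ) :
    ch κ k (fun z => ∑ i ∈ s, F i z) = ∑ i ∈ s, ch κ k (F i) := by
  classical
  induction s using Finset.induction_on with
  | empty => simpa using ch_smul (κ := κ) k 0 (fun _ => 0)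
  | insert i s hi ih =>
    simp only [Finset.sum_insert hi]
    rw [ch_add, ih]

lemma ch_isP (h0 : ∀ u v, 0 ≤ κ u v) (h1 : ∑ u, ∑ v, κ u v = 1) : ∀ k, IsP (ch κ k)
  | 0 => ⟨ch_add 0, ch_smul 0, fun _ _ h => h _, rfl⟩
  | k + 1 => ⟨ch_add _, ch_smul _, fun F G h => sum_le_sum fun u _ => sum_le_sum fun v _ =>
      mul_le_mul_of_nonneg_left ((ch_isP h0 h1 k).mono _ _ fun y => h _) (h0 u v), by
      simp only [ch, (ch_isP h0 h1 k).one, mul_one, h1]⟩

lemma ch_close (h0 : ∀ u v, 0 ≤ κ u v) (h1 : ∑ u, ∑ v, κ u v = 1) {τ : ℝ}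
    (hτ : ∑ u, ∑ v, |κ u v - κ' u v| ≤ τ) : ∀ (k : ℕ) (F : Zb n k → ℝ), (∀ z, |F z| ≤ 1) →
    |ch κ k F - ch κ' k F| ≤ (1 + τ) ^ k - 1
  | 0, _, _ => by simp [ch]
  | k + 1, F, hF => by
      have hτ0 : 0 ≤ τ := le_trans (sum_nonneg fun _ _ => sum_nonneg fun _ _ => abs_nonneg _) hτ
      have a1 : ∀ u v, |κ u v * ch κ k (fun y => F (Fin.cons u (xh v y))) -
          κ' u v * ch κ' k (fun y => F (Fin.cons u (xh v y)))| ≤
          κ u v * ((1 + τ) ^ k - 1) + |κ u v - κ' u v| * (1 + τ) ^ k := by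
        intro u v
        have i1 := ch_close h0 h1 hτ k (fun y => F (Fin.cons u (xh v y))) fun y => hF _
        have i2 : |ch κ k (fun y => F (Fin.cons u (xh v y)))| ≤ 1 := abs_le.mpr
          ⟨(ch_isP h0 h1 k).const_le _ _ fun y => (abs_le.mp (hF _)).1,
            (ch_isP h0 h1 k).le_const _ _ fun y => (abs_le.mp (hF _)).2⟩
        set X := ch κ k (fun y => F (Fin.cons u (xh v y)))
        set Y := ch κ' k (fun y => F (Fin.cons u (xh v y)))
        have i3 : |Y| ≤ (1 + τ) ^ k := by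
          have := abs_sub_abs_le_abs_sub Y X
          rw [abs_sub_comm] at this
          linarith
        have : κ u v * X - κ' u v * Y = κ u v * (X - Y) + (κ u v - κ' u v) * Y := by ring
        rw [this]
        refine (abs_add_le _ _).trans (add_le_add ?_ ?_)
        · rw [abs_mul, abs_of_nonneg (h0 u v)]
          exact mul_le_mul_of_nonneg_left i1 (h0 u v)
        · rw [abs_mul]
          exact mul_le_mul_of_nonneg_left i3 (abs_nonneg _)
      simp only [ch, ← sum_sub_distrib]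
      refine (abs_sum_le_sum_abs _ _).trans ((sum_le_sum fun u _ =>
        (abs_sum_le_sum_abs _ _).trans (sum_le_sum fun v _ => a1 u v)).trans ?_)
      simp only [sum_add_distrib, ← sum_mul, h1]
      have := mul_le_mul_of_nonneg_right hτ (pow_nonneg (by linarith : 0 ≤ 1 + τ) k)
      rw [pow_succ]; linarith

/-- subcube indicator in one block -/
noncomputable def cb (S : Finset (Vn n)) (ζ u : Vn n → Bool) : ℝ :=
  ∏ a ∈ S, (1 + sg (ζ a) * sg (u a)) / 2

lemma cb_eq (S : Finset (Vn n)) (ζ u : Vn n → Bool) :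
    cb S ζ u = (1 / 2) ^ S.card * ∑ B ∈ S.powerset, chi B ζ * chi B u := by
  have : ∀ y : ℝ, (1 + y) / 2 = 1 / 2 * (1 + y) := fun y => by ring
  simp only [cb, this, prod_mul_distrib, prod_const, chi, prod_one_add]

lemma chi_xor (B : Finset (Vn n)) (v u : Vn n → Bool) :
    chi B (fun a => xor (v a) (u a)) = chi B v * chi B u := by
  simp only [chi, sg_xor, prod_mul_distrib]

lemma chi_sq (B : Finset (Vn n)) (u : Vn n → Bool) : chi B u ^ 2 = 1 := by
  simp only [chi, ← prod_pow, sg_sq, prod_const_one]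

noncomputable def msg (κ' : (Vn n → Bool) → (Vn n → Bool) → ℝ) (k : ℕ)
    (S : Fin (k + 1) → Finset (Vn n)) (ζ : Zb n k) (A : Finset (Vn n)) : ℝ :=
  ch κ' k (fun z => chi A (z 0) * ∏ j : Fin k, cb (S j.succ) (ζ j.succ) (z j.succ))

lemma msg_succ (k : ℕ) (S : Fin (k + 2) → Finset (Vn n)) (ζ : Zb n (k + 1)) (A : Finset (Vn n)) :
    msg κ' (k + 1) S ζ A = (1 / 2) ^ (S 1).card * ∑ B ∈ (S 1).powerset,
      mom κ' A B * (chi B (ζ 1) * msg κ' k (Fin.tail S) (Fin.tail ζ) B) := by
  have h : ∀ u v, ch κ' k (fun y => chi A u * (cb (S 1) (ζ 1) (fun a => xor (v a) (y 0 a)) *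
      ∏ j : Fin k, cb (S j.succ.succ) (ζ j.succ.succ) (y j.succ))) =
      (1 / 2) ^ (S 1).card * ∑ B ∈ (S 1).powerset, chi A u * chi B v *
        (chi B (ζ 1) * msg κ' k (Fin.tail S) (Fin.tail ζ) B) := by
    intro u v
    simp only [msg, ← ch_smul, ← ch_sum, Fin.tail]
    congr 1
    funext y
    simp only [cb_eq (S 1), chi_xor, mul_sum, sum_mul]
    exact sum_congr rfl fun B _ => by ring
  simp only [msg, ch, Fin.cons_zero, Fin.cons_succ, Fin.prod_univ_succ, xh_zero, xh_succ,
    Fin.succ_zero_eq_one] at h ⊢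
  simp only [h, mom, mul_sum, sum_mul]
  rw [sum_comm (s := (S 1).powerset)]
  refine sum_congr rfl fun u _ => ?_
  rw [sum_comm (s := (S 1).powerset)]
  exact sum_congr rfl fun v _ => sum_congr rfl fun B _ => by ring

section
variable {W : Vn n → Vn n → ℝ} {q : ℕ} {lam : ℝ}
  (h1 : mom κ' ∅ ∅ = 1) (h0 : ∀ B, B ≠ ∅ → mom κ' ∅ B = 0)
  (hrec : ∀ A B a, a ∈ A → mom κ' A B = ∑ b ∈ B, W b a * mom κ' (A.erase a) (B.erase b))
  (hW : ∀ S T : Finset (Vn n), S.card ≤ q → T.card ≤ q → ∀ g : Vn n → ℝ,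
    ∑ a ∈ S, (∑ b ∈ T, W b a * g b) ^ 2 ≤ lam ^ 2 * ∑ b ∈ T, g b ^ 2)
include h1 h0 hrec hW

lemma msg_bound : ∀ (k : ℕ) (S : Fin (k + 1) → Finset (Vn n)) (ζ : Zb n k),
    (∀ j, (S j).card ≤ q) → msg κ' k S ζ ∅ = ∏ j : Fin k, (1 / 2) ^ (S j.succ).card ∧
      ∀ l, ∑ A ∈ powersetCard l (S 0), msg κ' k S ζ A ^ 2 ≤
        (∏ j : Fin k, (1 / 2 : ℝ) ^ (S j.succ).card) ^ 2 * (((lam ^ 2) ^ l) ^ k * q ^ l)
  | 0, S, ζ, hS => by
      refine ⟨by simp [msg, ch, chi], fun l => ?_⟩
      simp only [msg, ch, univ_eq_empty, prod_empty, mul_one, chi_sq, sum_const, card_powersetCard,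
        nsmul_eq_mul, one_pow, pow_zero, one_mul]
      exact_mod_cast (Nat.choose_le_pow _ _).trans (Nat.pow_le_pow_left (hS 0) l)
  | k + 1, S, ζ, hS => by
      obtain ⟨i1, i2⟩ := msg_bound k (Fin.tail S) (Fin.tail ζ) fun j => hS _
      simp only [Fin.prod_univ_succ, Fin.succ_zero_eq_one]
      refine ⟨?_, fun l => ?_⟩
      · rw [msg_succ, sum_eq_single ∅]
        · rw [h1, i1]; simp [chi, Fin.tail]
        · intro B _ hB; rw [h0 B hB, zero_mul]
        · simp
      · have e : ∀ A ∈ powersetCard l (S 0), msg κ' (k + 1) S ζ A ^ 2 =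
            ((1 / 2) ^ (S 1).card) ^ 2 * (∑ B ∈ powersetCard l (S 1),
              mom κ' A B * (chi B (ζ 1) * msg κ' k (Fin.tail S) (Fin.tail ζ) B)) ^ 2 := by
          intro A hA
          rw [msg_succ, mul_pow]
          congr 2
          symm
          refine sum_subset (fun B hB => mem_powerset.mpr (mem_powersetCard.mp hB).1)
            fun B hB hB' => ?_
          rw [wick_zero h0 hrec l A B (mem_powersetCard.mp hA).2
            (fun e => hB' (mem_powersetCard.mpr ⟨mem_powerset.mp hB, e⟩)), zero_mul]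
        rw [sum_congr rfl e, ← mul_sum]
        have i3 := wick_op h1 hrec (S 0) (S 1) lam (hW _ _ (hS 0) (hS 1)) l
          (fun B => chi B (ζ 1) * msg κ' k (Fin.tail S) (Fin.tail ζ) B)
        simp only [mul_pow, chi_sq, one_mul] at i3
        have i4 := mul_le_mul_of_nonneg_left (i2 l) (by positivity : 0 ≤ (lam ^ 2) ^ l)
        refine (mul_le_mul_of_nonneg_left (i3.trans i4) (by positivity)).trans (le_of_eq ?_)
        simp only [Fin.tail]
        ring

lemma cube_bound (hlam : 0 ≤ lam) (k : ℕ) (hq : q * lam ^ k ≤ 1 / 2)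
    (S : Fin (k + 1) → Finset (Vn n)) (ζ : Zb n k) (hS : ∀ j, (S j).card ≤ q) :
    (1 - 2 * (q * lam ^ k)) * ∏ j, (1 / 2) ^ (S j).card ≤
      ch κ' k (fun z => ∏ j, cb (S j) (ζ j) (z j)) := by
  obtain ⟨i1, i2⟩ := msg_bound h1 h0 hrec hW k S ζ hS
  have e : ch κ' k (fun z => ∏ j, cb (S j) (ζ j) (z j)) = (1 / 2) ^ (S 0).card *
      ∑ A ∈ (S 0).powerset, chi A (ζ 0) * msg κ' k S ζ A := by
    simp only [msg, ← ch_smul, ← ch_sum]
    congr 1
    funext z
    simp only [Fin.prod_univ_succ, cb_eq (S 0), mul_sum, sum_mul]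
    exact sum_congr rfl fun B _ => by ring
  rw [e, Fin.prod_univ_succ, mul_left_comm]
  refine mul_le_mul_of_nonneg_left ?_ (by positivity)
  set w := ∏ j : Fin k, (1 / 2 : ℝ) ^ (S j.succ).card with hw
  have hw0 : 0 ≤ w := by positivity
  set y := q * lam ^ k with hy
  have hy0 : 0 ≤ y := by positivity
  rw [sum_powerset, sum_range_succ']
  simp only [powersetCard_zero, sum_singleton, i1]
  have hl : ∀ l, -(w * y ^ l) ≤ ∑ A ∈ powersetCard l (S 0), chi A (ζ 0) * msg κ' k S ζ A := by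
    intro l
    refine (abs_le.mp (abs_le_of_sq_le_sq' ?_ (by positivity) |> abs_le.mpr)).1
    refine (sum_mul_sq_le_sq_mul_sq _ _ _).trans ?_
    simp only [chi_sq, sum_const, card_powersetCard, nsmul_eq_mul, mul_one]
    have a1 : (((S 0).card.choose l : ℕ) : ℝ) ≤ q ^ l := by
      exact_mod_cast (Nat.choose_le_pow _ _).trans (Nat.pow_le_pow_left (hS 0) l)
    refine (mul_le_mul a1 (i2 l) (sum_nonneg fun _ _ => sq_nonneg _) (by positivity)).trans
      (le_of_eq ?_)
    rw [hy]; ring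
  have hg : ∀ m : ℕ, ∑ l ∈ range m, y ^ (l + 1) ≤ 2 * y - 2 * y ^ (m + 1) := by
    intro m
    induction m with
    | zero => simp
    | succ m ih =>
      rw [sum_range_succ, pow_succ y (m + 1)]
      nlinarith [pow_nonneg hy0 (m + 1)]
  have h2 := sum_le_sum fun l (_ : l ∈ range (S 0).card) => hl (l + 1)
  rw [sum_neg_distrib, ← mul_sum] at h2
  have h3 := mul_le_mul_of_nonneg_left (hg (S 0).card) hw0
  have h4 : 0 ≤ w * y ^ ((S 0).card + 1) := by positivity
  have h5 : chi ∅ (ζ 0) = 1 := by simp [chi]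
  rw [h5]
  nlinarith
end

/-! ### from subcubes to decision trees -/

noncomputable def cube {I : Type} (S : Finset I) (ζ z : I → Bool) : ℝ :=
  ∏ y ∈ S, (1 + sg (ζ y) * sg (z y)) / 2

lemma tree_pos {I : Type} [DecidableEq I] (Φ : ((I → Bool) → ℝ) → ℝ)
    (hadd : ∀ F G, Φ (fun z => F z + G z) = Φ F + Φ G) (hzero : Φ (fun _ => 0) = 0) (q : ℕ)
    (hc : ∀ S ζ, S.card ≤ q → 0 ≤ Φ (cube S ζ)) : ∀ (T : DT I) (S : Finset I) (ζ : I → Bool),
    S.card + T.depth ≤ q → 0 ≤ Φ (fun z => cube S ζ z * ind (!T.eval z))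
  | .leaf b, S, ζ, h => by
      cases b
      · simpa [DT.eval] using hc S ζ (by omega)
      · simp [DT.eval, hzero]
  | .node i l r, S, ζ, h => by
      simp only [DT.depth] at h
      by_cases hi : i ∈ S
      · have e : (fun z => cube S ζ z * ind (!(DT.node i l r).eval z)) =
            fun z => cube S ζ z * ind (!(if ζ i then r else l).eval z) := by
          funext z
          by_cases hz : z i = ζ i
          · simp only [DT.eval, hz]; split_ifs <;> rfl
          · have : cube S ζ z = 0 := prod_eq_zero hi (by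
              revert hz; cases z i <;> cases ζ i <;> simp)
            simp [this]
        rw [e]
        split_ifs
        · exact tree_pos Φ hadd hzero q hc r S ζ (by omega)
        · exact tree_pos Φ hadd hzero q hc l S ζ (by omega)
      · have e1 : ∀ b z, cube (insert i S) (Function.update ζ i b) z =
            (1 + sg b * sg (z i)) / 2 * cube S ζ z := by
          intro b z
          rw [cube, prod_insert hi, Function.update_self]
          congr 1
          exact prod_congr rfl fun y hy => by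
            rw [Function.update_of_ne (fun e => hi (by rw [← e]; exact hy))]
        have e : (fun z => cube S ζ z * ind (!(DT.node i l r).eval z)) = fun z =>
            cube (insert i S) (Function.update ζ i false) z * ind (!l.eval z) +
            cube (insert i S) (Function.update ζ i true) z * ind (!r.eval z) := by
          funext z
          simp only [e1, DT.eval]
          cases z i <;> simp
        rw [e, hadd]
        have hcard := card_insert_of_notMem hi
        exact add_nonneg (tree_pos Φ hadd hzero q hc l _ _ (by omega))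
          (tree_pos Φ hadd hzero q hc r _ _ (by omega))

lemma cube_unc {k : ℕ} (S : Finset (Fin (k + 1) × Vn n)) (ζ : Fin (k + 1) × Vn n → Bool)
    (z : Zb n k) : cube S ζ (unc z) =
      ∏ j, cb (univ.filter fun a => (j, a) ∈ S) (fun a => ζ (j, a)) (z j) := by
  simp only [cube, cb, prod_filter]
  rw [← Fintype.prod_prod_type' (fun j a => if (j, a) ∈ S then
    (1 + sg (ζ (j, a)) * sg (z j a)) / 2 else 1), ← prod_filter]
  simp [unc]

lemma av_cb (S : Finset (Vn n)) (ζ : Vn n → Bool) :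
    ∑ u, cb S ζ u = (1 / 2) ^ S.card * Fintype.card (Vn n → Bool) := by
  have e : ∀ u, cb S ζ u = ∏ a, if a ∈ S then (1 + sg (ζ a) * sg (u a)) / 2 else 1 := by
    intro u; rw [← prod_filter]; simp [cb]
  simp only [e]
  have := Finset.prod_univ_sum (fun _ : Vn n => (univ : Finset Bool))
    (fun a b => if a ∈ S then (1 + sg (ζ a) * sg b) / 2 else 1)
  rw [Fintype.piFinset_univ] at this
  rw [← this]
  have e2 : ∀ a, ∑ b : Bool, (if a ∈ S then (1 + sg (ζ a) * sg b) / 2 else 1) =
      (if a ∈ S then 1 / 2 else 1) * 2 := by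
    intro a; split_ifs <;> simp <;> ring
  simp only [e2, prod_mul_distrib, ← prod_filter]
  simp

lemma av_cube {k : ℕ} (S : Fin (k + 1) → Finset (Vn n)) (ζ : Zb n k) :
    av (fun z : Zb n k => ∏ j, cb (S j) (ζ j) (z j)) = ∏ j, (1 / 2) ^ (S j).card := by
  have := Finset.prod_univ_sum (fun _ : Fin (k + 1) => (univ : Finset (Vn n → Bool)))
    (fun j u => cb (S j) (ζ j) u)
  rw [Fintype.piFinset_univ] at this
  rw [av, ← this]
  simp only [av_cb, prod_mul_distrib, prod_const, card_univ, Fintype.card_fin]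
  rw [Fintype.card_fun (α := Fin (k + 1)), Fintype.card_fin]
  push_cast
  have : (0 : ℝ) < (Fintype.card (Vn n → Bool) : ℝ) ^ (k + 1) := by
    have : 0 < Fintype.card (Vn n → Bool) := Fintype.card_pos
    positivity
  field_simp

end Vale.Agent.P362
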