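import Vale.Agent.P362.Chain

/-! The decoding amplitude under the chain distribution, and the summary statement. -/

namespace Vale.Agent.P362

open Finset Matrix

variable {n : ℕ}

/-- the stage matrix `H D H` -/
noncomputable def Um (D : Vn n → Bool) : Matrix (Vn n) (Vn n) ℝ :=
  Hm n * diagonal (fun x => sg (D x)) * Hm n

lemma Um_orth (D : Vn n → Bool) : Orth (Um D) :=
  (Hm_orth.mul (Orth.diag fun _ => sg_mul_self _)).mul Hm_orth

lemma Um_apply (D : Vn n → Bool) (a b : Vn n) :
    Um D a b = (∑ x, hd a x * sg (D x) * hd x b) / 2 ^ n := by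
  simp only [Um, Matrix.mul_apply (M := Hm n * _), mul_diagonal, sum_div]
  refine sum_congr rfl fun x _ => ?_
  simp only [Hm, of_apply]
  have h := sqrt_sq_two_pow (n := n)
  have h' := (sqrt_two_pow_pos (n := n)).ne'
  generalize Real.sqrt (2 ^ n) = s at h h'
  rw [← h]; field_simp

lemma Um_symm (D : Vn n → Bool) (a b : Vn n) : Um D a b = Um D b a := by
  simp only [Um_apply]
  congr 1
  exact sum_congr rfl fun x _ => by rw [hd_comm a x, hd_comm x b]; ring

lemma Um_row (D : Vn n → Bool) (a : Vn n) : ∑ b, Um D a b * Um D b a = 1 := by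
  have := congrFun (congrFun (Um_orth D) a) a
  simp only [Matrix.mul_apply, transpose_apply, one_apply_eq] at this
  rw [← this]
  exact sum_congr rfl fun b _ => by rw [Um_symm D a b]

lemma Um_bil (D : Vn n → Bool) (a b : Vn n → ℝ) :
    ∑ x, ∑ y, a x * Um D y x * b y = ∑ x, sg (D x) * ((Hm n *ᵥ a) x * (Hm n *ᵥ b) x) := by
  have hs : ∀ x y, Hm n x y = Hm n y x := fun x y => by simp [Hm, hd_comm x y]
  simp only [Um, Matrix.mul_apply (M := Hm n * _), mul_diagonal, mulVec, dotProduct, mul_sum,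
    sum_mul]
  calc _ = ∑ y, ∑ x, ∑ w, a x * (Hm n y w * sg (D w) * Hm n w x) * b y := sum_comm
    _ = ∑ y, ∑ w, ∑ x, a x * (Hm n y w * sg (D w) * Hm n w x) * b y :=
        sum_congr rfl fun _ _ => sum_comm
    _ = ∑ w, ∑ y, ∑ x, a x * (Hm n y w * sg (D w) * Hm n w x) * b y := sum_comm
    _ = _ := sum_congr rfl fun w _ => sum_congr rfl fun y _ => sum_congr rfl fun x _ => by
        rw [hs y w]; ring

noncomputable def ph (D : Vn n → Bool) : (k : ℕ) → Zb n k → Vn n → ℝ
  | 0, z, a => sg (z 0 a)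
  | k + 1, z, a => sg (z 0 a) * ∑ b, Um D a b * ph D k (Fin.tail z) b

lemma ph_xh (D : Vn n → Bool) (v : Vn n → Bool) : ∀ (k : ℕ) (y : Zb n k) (b : Vn n),
    ph D k (xh v y) b = sg (v b) * ph D k y b
  | 0, y, b => by simp [ph, sg_xor]
  | k + 1, y, b => by
      have : Fin.tail (xh v y) = Fin.tail y := by funext j; simp [Fin.tail]
      simp only [ph, xh_zero, sg_xor, this]; ring

lemma sched_succ (D : Vn n → Bool) (k : ℕ) (z : Zb n (k + 1)) (t : ℕ) (ht : t < 2 * k + 1) :
    sched D (k + 1) z t = sched D k (Fin.tail z) t := by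
  simp only [sched]
  rw [blk, if_neg (by omega), if_neg (by omega)]
  cases blk k t <;> rfl

lemma Psi_ph (D : Vn n → Bool) : ∀ (k : ℕ) (z : Zb n k) (a : Vn n),
    sg (z 0 a) * Psi (sched D k z) (2 * k) a = (2 ^ n) ^ k * ph D k z a
  | 0, z, a => by simp [Psi, ph]
  | k + 1, z, a => by
      have e1 : Psi (sched D (k + 1) z) (2 * k + 1) = Psi (sched D k (Fin.tail z)) (2 * k + 1) :=
        Psi_congr _ _ _ fun s hs => sched_succ D k z s hs
      have e2 : sched D (k + 1) z (2 * k + 1) = D := by simp [sched, blk]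
      have e3 : sched D k (Fin.tail z) (2 * k) = Fin.tail z 0 := by simp [sched, blk_top]
      rw [show 2 * (k + 1) = 2 * k + 1 + 1 by ring, Psi]
      simp only [e1, e2]
      simp only [Psi, e3, Psi_ph D k, ph, Um_apply, mul_sum, sum_div, sum_mul]
      rw [sum_comm]
      refine sum_congr rfl fun b _ => sum_congr rfl fun x _ => ?_
      field_simp
      ring

noncomputable def ampl (D : Vn n → Bool) (k : ℕ) (z : Zb n k) : ℝ := (∑ b, ph D k z b) / 2 ^ n

lemma Psi_ampl (D : Vn n → Bool) (k : ℕ) (z : Zb n k) :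
    Psi (sched D k z) (2 * k + 1) (fun _ => false) = (2 ^ n) ^ (k + 1) * ampl D k z := by
  have e3 : sched D k z (2 * k) = z 0 := by simp [sched, blk_top]
  simp only [Psi, hd_zero, one_mul, e3, Psi_ph, ampl, ← mul_sum]
  field_simp
  ring

lemma ph_sq (D : Vn n → Bool) : ∀ (k : ℕ) (z : Zb n k), ∑ b, ph D k z b ^ 2 = 2 ^ n
  | 0, z => by simp [ph, sg_sq]
  | k + 1, z => by
      have := (Um_orth D).dot (ph D k (Fin.tail z)) (ph D k (Fin.tail z))
      simp only [dotProduct, ← sq, ph_sq D k, mulVec] at this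
      simpa only [ph, mul_pow, sg_sq, one_mul] using this

lemma abs_ampl (D : Vn n → Bool) (k : ℕ) (z : Zb n k) : |ampl D k z| ≤ 1 := by
  have h := sum_mul_sq_le_sq_mul_sq univ (fun _ => (1 : ℝ)) (ph D k z)
  simp only [one_mul, one_pow, sum_const, card_univ, card_Vn, nsmul_eq_mul, mul_one, ph_sq] at h
  push_cast at h
  rw [ampl, abs_div, abs_of_pos (by positivity : (0 : ℝ) < 2 ^ n), div_le_one (by positivity)]
  exact abs_le.mpr (abs_le_of_sq_le_sq' (by rw [sq ((2 : ℝ) ^ n)]; exact h) (by positivity))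

variable {κ κ' : (Vn n → Bool) → (Vn n → Bool) → ℝ}

lemma ch_ph (D : Vn n → Bool) {e : ℝ} (hm : ∀ a b, mom κ' {a} {b} = e * Um D b a) :
    ∀ (k : ℕ) (a : Vn n), ch κ' k (fun z => ph D k z a) = e ^ k
  | 0, a => by simp [ch, ph]
  | k + 1, a => by
      have h : ∀ u v : Vn n → Bool, ch κ' k (fun y => sg (u a) * ∑ b, Um D a b * ph D k (xh v y) b) =
          ∑ b, Um D a b * (sg (u a) * sg (v b)) * e ^ k := by
        intro u v
        have : (fun y => sg (u a) * ∑ b, Um D a b * ph D k (xh v y) b) =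
            fun y => ∑ b, (Um D a b * (sg (u a) * sg (v b))) * ph D k y b := by
          funext y
          rw [mul_sum]
          exact sum_congr rfl fun b _ => by rw [ph_xh]; ring
        rw [this, ch_sum]
        simp only [ch_smul, ch_ph D hm k]
      simp only [ch, ph, Fin.cons_zero, Fin.tail_cons, h]
      simp only [mul_sum]
      calc _ = ∑ b, Um D a b * mom κ' {a} {b} * e ^ k := by
            simp only [mom, chi, prod_singleton, mul_sum, sum_mul]
            rw [sum_comm (s := (univ : Finset (Vn n)))]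
            refine sum_congr rfl fun u _ => ?_
            rw [sum_comm (s := (univ : Finset (Vn n)))]
            exact sum_congr rfl fun v _ => sum_congr rfl fun b _ => by ring
        _ = e ^ (k + 1) * ∑ b, Um D a b * Um D b a := by
            rw [mul_sum]
            exact sum_congr rfl fun b _ => by rw [hm]; ring
        _ = _ := by rw [Um_row, mul_one]

theorem chain_main (D : Vn n → Bool) {q : ℕ} {ρ e τ : ℝ} (hρ : 0 ≤ ρ) (he0 : 0 ≤ e) (he1 : e ≤ 1)
    (hD : ∀ (a b : Vn n → ℝ) (S T : Finset (Vn n)), S.card ≤ q → T.card ≤ q →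
      (∀ x, x ∉ S → a x = 0) → (∀ x, x ∉ T → b x = 0) → ∑ x, a x ^ 2 ≤ 1 → ∑ x, b x ^ 2 ≤ 1 →
      |∑ x, sg (D x) * ((Hm n *ᵥ a) x * (Hm n *ᵥ b) x)| ≤ ρ)
    (k0 : ∀ u v, 0 ≤ κ u v) (k1 : ∑ u, ∑ v, κ u v = 1) (kτ : ∑ u, ∑ v, |κ u v - κ' u v| ≤ τ)
    (h1 : mom κ' ∅ ∅ = 1) (h0 : ∀ B, B ≠ ∅ → mom κ' ∅ B = 0)
    (hrec : ∀ A B a, a ∈ A →
      mom κ' A B = e * ∑ b ∈ B, Um D b a * mom κ' (A.erase a) (B.erase b))
    (k : ℕ) (hq : q * ρ ^ k ≤ 1 / 2) :
    ∃ Dn : (Zb n k → ℝ) → ℝ, IsP Dn ∧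
      (∀ T : DT (Fin (k + 1) × Vn n), T.depth ≤ q → av (fun z => ind (!T.eval (unc z))) -
        (2 * (q * ρ ^ k) + ((1 + τ) ^ k - 1)) ≤ Dn (fun z => ind (!T.eval (unc z)))) ∧
      ∀ β : ℝ, 0 ≤ β → e ^ k - ((1 + τ) ^ k - 1) - β ≤ Dn (fun z =>
        if β * (2 ^ n) ^ (k + 1) ≤ Psi (sched D k z) (2 * k + 1) (fun _ => false) then 1 else 0) := by
  have hP := ch_isP k0 k1 k
  have hrec' : ∀ A B a, a ∈ A →
      mom κ' A B = ∑ b ∈ B, (e * Um D b a) * mom κ' (A.erase a) (B.erase b) := by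
    intro A B a ha
    rw [hrec A B a ha, mul_sum]
    exact sum_congr rfl fun _ _ => by ring
  have hW : ∀ S T : Finset (Vn n), S.card ≤ q → T.card ≤ q → ∀ g : Vn n → ℝ,
      ∑ a ∈ S, (∑ b ∈ T, (e * Um D b a) * g b) ^ 2 ≤ ρ ^ 2 * ∑ b ∈ T, g b ^ 2 := by
    intro S T hS hT
    refine op_of_bil (fun b a => e * Um D b a) S T ρ fun a b ha hb ha1 hb1 => ?_
    have h2 := hD a b S T hS hT ha hb ha1 hb1
    rw [← Um_bil] at h2
    have : ∑ x, ∑ y, a x * (e * Um D y x) * b y = e * ∑ x, ∑ y, a x * Um D y x * b y := by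
      simp only [mul_sum]
      exact sum_congr rfl fun _ _ => sum_congr rfl fun _ _ => by ring
    rw [this, abs_mul, abs_of_nonneg he0]
    nlinarith [abs_nonneg (∑ x, ∑ y, a x * Um D y x * b y)]
  refine ⟨ch κ k, hP, fun T hT => ?_, fun β hβ => ?_⟩
  · have h2 := tree_pos (I := Fin (k + 1) × Vn n) (fun F => ch κ' k (fun z => F (unc z)) -
        (1 - 2 * (q * ρ ^ k)) * av (fun z : Zb n k => F (unc z)))
      (fun F G => by simp only [ch_add, av_isP.add]; ring)
      (by
        have := ch_smul (κ := κ') k 0 (fun _ => 0)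
        simp only [mul_zero, zero_mul] at this
        simp only [this, av_isP.const]; simp) q (fun S ζ hS => by
        simp only [cube_unc]
        rw [av_cube (fun j => univ.filter fun a => (j, a) ∈ S) (fun j a => ζ (j, a)), sub_nonneg]
        refine cube_bound h1 h0 hrec' hW hρ k hq _ (fun j a => ζ (j, a)) fun j => ?_
        refine le_trans ?_ hS
        exact card_le_card_of_injOn (fun a => (j, a)) (fun a ha => by simpa using ha)
          fun a _ b _ h => (Prod.ext_iff.mp h).2) T ∅ (fun _ => false) (by simpa using hT)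
    simp only [cube, prod_empty, one_mul] at h2
    have h3 := ch_close k0 k1 kτ k (fun z => ind (!T.eval (unc z))) fun z => by
      rw [abs_of_nonneg (ind_nonneg _)]; exact ind_le_one _
    have h4 := av_isP.le_const (fun z : Zb n k => ind (!T.eval (unc z))) 1 fun z => ind_le_one _
    have h5 : 0 ≤ q * ρ ^ k := by positivity
    nlinarith [(abs_le.mp h3).1]
  · have h2 : ch κ' k (ampl D k) = e ^ k := by
      have : ampl D k = fun z => (1 / 2 ^ n) * ∑ b, ph D k z b := by
        funext z; rw [ampl]; ring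
      rw [this, ch_smul, ch_sum]
      have hm : ∀ a b, mom κ' {a} {b} = e * Um D b a := fun a b => by
        rw [hrec {a} {b} a (by simp)]; simp [h1]
      simp only [ch_ph D hm, sum_const, card_univ, card_Vn, nsmul_eq_mul]
      push_cast; field_simp
    have h3 := ch_close k0 k1 kτ k (ampl D k) (abs_ampl D k)
    have h4 := hP.mono (ampl D k) (fun z => β + 1 * (if β * (2 ^ n) ^ (k + 1) ≤
        Psi (sched D k z) (2 * k + 1) (fun _ => false) then 1 else 0)) fun z => by
      split_ifs with h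
      · linarith [(abs_le.mp (abs_ampl D k z)).2]
      · rw [Psi_ampl, not_le, mul_comm β] at h
        have := lt_of_mul_lt_mul_left h (by positivity)
        linarith
    rw [hP.affine] at h4
    linarith [(abs_le.mp h3).1]

end Vale.Agent.P362
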