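import Mathlib

/-! Query complexity of total Boolean functions: randomized and quantum bounded-error models. -/

namespace Vale.Agent.P362

open Matrix

/-- Deterministic decision trees querying bits indexed by `ι`. -/
inductive DT (ι : Type) : Type
  | leaf (b : Bool) : DT ι
  | node (i : ι) (l r : DT ι) : DT ι

/-- The answer of a decision tree on input `x`. -/
def DT.eval {ι : Type} : DT ι → (ι → Bool) → Bool
  | .leaf b, _ => b
  | .node i l r, x => if x i then r.eval x else l.eval x

/-- The number of queries a decision tree makes on input `x`. -/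
def DT.cost {ι : Type} : DT ι → (ι → Bool) → ℕ
  | .leaf _, _ => 0
  | .node i l r, x => (if x i then r.cost x else l.cost x) + 1

/-- A randomized algorithm (a probability distribution `w` on finitely many decision trees) that
makes at most `q` queries on every input and every coin outcome, and outputs `f x` with
probability at least `2/3` on every input `x`. -/
def RAlg {n : ℕ} (f : (Fin n → Bool) → Bool) (q : ℕ) : Prop :=
  ∃ (m : ℕ) (w : Fin m → ℝ) (T : Fin m → DT (Fin n)),
    (∀ j, 0 ≤ w j) ∧ ∑ j, w j = 1 ∧ (∀ j x, (T j).cost x ≤ q) ∧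
    ∀ x, (2 / 3 : ℝ) ≤ ∑ j, if (T j).eval x = f x then w j else 0

/-- Bounded-error randomized query complexity. -/
noncomputable def R {n : ℕ} (f : (Fin n → Bool) → Bool) : ℕ := sInf {q | RAlg f q}

/-- The query unitary `O_x |i, b, z> = |i, b xor x_i, z>` acting on amplitude vectors. -/
def oracle {n : ℕ} {W : Type} (x : Fin n → Bool) (ψ : Fin n × Bool × W → ℂ) :
    Fin n × Bool × W → ℂ :=
  fun s => ψ (s.1, xor s.2.1 (x s.1), s.2.2)

/-- The state `U_t O_x ⋯ U_1 O_x U_0 |s0>` after `t` queries. -/
noncomputable def run {n : ℕ} {W : Type} [Fintype W] [DecidableEq W]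
    (U : ℕ → Matrix (Fin n × Bool × W) (Fin n × Bool × W) ℂ) (s0 : Fin n × Bool × W)
    (x : Fin n → Bool) : ℕ → (Fin n × Bool × W → ℂ)
  | 0 => U 0 *ᵥ Pi.single s0 1
  | t + 1 => U (t + 1) *ᵥ oracle x (run U s0 x t)

/-- A quantum algorithm with `T` queries (finite workspace `W`, input-independent unitaries,
final measurement in the computational basis followed by the output map `out`) that outputs `f x`
with probability at least `2/3` on every input `x`. -/
def QAlg {n : ℕ} (f : (Fin n → Bool) → Bool) (T : ℕ) : Prop :=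
  ∃ (W : Type) (_ : Fintype W) (_ : DecidableEq W) (s0 : Fin n × Bool × W)
    (U : ℕ → Matrix (Fin n × Bool × W) (Fin n × Bool × W) ℂ) (out : Fin n × Bool × W → Bool),
    (∀ t, U t ∈ Matrix.unitaryGroup (Fin n × Bool × W) ℂ) ∧
    ∀ x, (2 / 3 : ℝ) ≤ ∑ s, if out s = f x then ‖run U s0 x T s‖ ^ 2 else 0

/-- Bounded-error quantum query complexity. -/
noncomputable def Q {n : ℕ} (f : (Fin n → Bool) → Bool) : ℕ := sInf {T | QAlg f T}

/-- The optimal exponent `α` with `R f ≤ C (1 + Q f) ^ α` for all total Boolean functions. -/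
noncomputable def alphaTot : ℝ :=
  sInf {α : ℝ | 0 ≤ α ∧ ∃ C : ℝ, ∀ n : ℕ, 1 ≤ n → ∀ f : (Fin n → Bool) → Bool,
    (R f : ℝ) ≤ C * (1 + (Q f : ℝ)) ^ α}

end Vale.Agent.P362
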