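import Vale.Agent.P362.Samp
import Vale.Agent.P362.Defs

/-! From real phase-query circuits to the standard quantum query model. -/

namespace Vale.Agent.P362

open Matrix

lemma Samp.comap {ι ι' Ω : Type} (e : ι → ι') {T : ℕ} {E : (ι → Bool) → (Ω → ℝ) → ℝ}
    (h : Samp T E) : Samp T (fun (y : ι' → Bool) φ => E (y ∘ e) φ) := by
  obtain ⟨H, _, _, A, ψ, out, hA, hψ, hE⟩ := h
  exact ⟨H, _, _, _, ψ, out, hA.comap e, hψ, fun y φ => hE _ φ⟩

section
variable {n : ℕ} {H : Type} [Fintype H] [DecidableEq H]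

def oracleR (x : Fin n → Bool) (ψ : Fin n × Bool × H → ℝ) : Fin n × Bool × H → ℝ :=
  fun s => ψ (s.1, xor s.2.1 (x s.1), s.2.2)

noncomputable def runR (U : ℕ → Matrix (Fin n × Bool × H) (Fin n × Bool × H) ℝ)
    (s0 : Fin n × Bool × H) (x : Fin n → Bool) : ℕ → (Fin n × Bool × H → ℝ)
  | 0 => U 0 *ᵥ Pi.single s0 1
  | t + 1 => U (t + 1) *ᵥ oracleR x (runR U s0 x t)

lemma map_mulVec_ofReal {S : Type} [Fintype S] (M : Matrix S S ℝ) (v : S → ℝ) :
    (M.map (fun r : ℝ => (r : ℂ))) *ᵥ (fun s => (v s : ℂ)) = fun s => (((M *ᵥ v) s : ℝ) : ℂ) := by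
  funext s
  simp [mulVec, dotProduct]

lemma run_ofReal (U : ℕ → Matrix (Fin n × Bool × H) (Fin n × Bool × H) ℝ)
    (s0 : Fin n × Bool × H) (x : Fin n → Bool) : ∀ t,
    run (fun t => (U t).map (fun r : ℝ => (r : ℂ))) s0 x t = fun s => ((runR U s0 x t s : ℝ) : ℂ)
  | 0 => by
      rw [run, runR, ← map_mulVec_ofReal]
      congr 1
      funext s
      by_cases h : s = s0
      · subst h; simp
      · simp [Pi.single_apply, h]
  | t + 1 => by
      rw [run, runR, run_ofReal U s0 x t, ← map_mulVec_ofReal]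
      rfl

lemma runR_congr (U U' : ℕ → Matrix (Fin n × Bool × H) (Fin n × Bool × H) ℝ)
    (s0 : Fin n × Bool × H) (x : Fin n → Bool) : ∀ t, (∀ k ≤ t, U k = U' k) →
    runR U s0 x t = runR U' s0 x t
  | 0, h => by rw [runR, runR, h 0 le_rfl]
  | t + 1, h => by
      rw [runR, runR, h (t + 1) le_rfl, runR_congr U U' s0 x t fun k hk => h k (by omega)]

def pv (a : H → Fin n × Bool → ℝ) (v : H → ℝ) : Fin n × Bool × H → ℝ :=
  fun s => a s.2.2 (s.1, s.2.1) * v s.2.2

def e1 (n : ℕ) (H : Type) : (Fin n × Bool × H) ≃ H × (Fin n × Bool) :=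
  (Equiv.prodAssoc _ _ _).symm.trans (Equiv.prodComm _ _)

def e2 (n : ℕ) (H : Type) : (Fin n × Bool × H) ≃ (Fin n × Bool) × H :=
  (Equiv.prodAssoc _ _ _).symm

noncomputable def lift1 (U : Matrix H H ℝ) : Matrix (Fin n × Bool × H) (Fin n × Bool × H) ℝ :=
  (blockDiagonal fun _ : Fin n × Bool => U).submatrix (e1 n H) (e1 n H)

noncomputable def lift2 (V : H → Matrix (Fin n × Bool) (Fin n × Bool) ℝ) :
    Matrix (Fin n × Bool × H) (Fin n × Bool × H) ℝ :=
  (blockDiagonal V).submatrix (e2 n H) (e2 n H)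

lemma lift1_pv (U : Matrix H H ℝ) (a : Fin n × Bool → ℝ) (v : H → ℝ) :
    lift1 U *ᵥ pv (fun _ => a) v = pv (fun _ => a) (U *ᵥ v) := by
  funext s
  simp only [lift1, submatrix_mulVec_equiv, Function.comp, block_mulVec]
  simp only [mulVec, dotProduct, pv, Finset.mul_sum]
  refine Finset.sum_congr rfl fun h _ => ?_
  simp [e1]; ring

lemma lift2_pv (V : H → Matrix (Fin n × Bool) (Fin n × Bool) ℝ) (a : H → Fin n × Bool → ℝ)
    (v : H → ℝ) : lift2 V *ᵥ pv a v = pv (fun h => V h *ᵥ a h) v := by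
  funext s
  simp only [lift2, submatrix_mulVec_equiv, Function.comp, block_mulVec]
  simp only [mulVec, dotProduct, pv, Finset.sum_mul]
  refine Finset.sum_congr rfl fun h _ => ?_
  simp [e2]; ring

/-- the query register state that turns a bit query into a phase query -/
noncomputable def tau (i0 : Fin n) (o : Option (Fin n)) : Fin n × Bool → ℝ := fun s =>
  match o with
  | none => if s.1 = i0 then 1 / Real.sqrt 2 else 0
  | some i => if s.1 = i then sg s.2 / Real.sqrt 2 else 0

lemma tau_dot (i0 : Fin n) (o : Option (Fin n)) : tau i0 o ⬝ᵥ tau i0 o = 1 := by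
  have h2 : Real.sqrt 2 * Real.sqrt 2 = 2 := Real.mul_self_sqrt (by norm_num)
  have h3 : (Real.sqrt 2)⁻¹ * (Real.sqrt 2)⁻¹ = 1 / 2 := by
    rw [← mul_inv, h2]; norm_num
  cases o with
  | none =>
    simp only [dotProduct, tau, Fintype.sum_prod_type]
    rw [Finset.sum_eq_single i0]
    · simp [h3]
    · intro j _ hj; simp [hj]
    · simp
  | some i =>
    simp only [dotProduct, tau, Fintype.sum_prod_type]
    rw [Finset.sum_eq_single i]
    · simp [div_eq_mul_inv, h3]; norm_num
    · intro j _ hj; simp [hj]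
    · simp

lemma oracle_tau (i0 : Fin n) (ad : H → Option (Fin n)) (x : Fin n → Bool) (v : H → ℝ) :
    oracleR x (pv (fun h => tau i0 (ad h)) v) =
      pv (fun h => tau i0 (ad h)) (diagonal (phase ad x) *ᵥ v) := by
  funext s
  obtain ⟨i, b, h⟩ := s
  simp only [oracleR, pv, mulVec_diagonal, phase, tau]
  cases ad h with
  | none => simp
  | some j =>
    simp only []
    split_ifs with e
    · subst e; rw [sg_xor]; ring
    · simp

lemma exists_runR (i0 : Fin n) (s0 : Fin n × Bool × H) (ψ : H → ℝ) (hψ : ψ ⬝ᵥ ψ = 1) :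
    ∀ {T : ℕ} {A : (Fin n → Bool) → Matrix H H ℝ}, QU T A →
    ∀ F : Matrix (Fin n × Bool × H) (Fin n × Bool × H) ℝ, Orth F →
    ∃ U : ℕ → Matrix (Fin n × Bool × H) (Fin n × Bool × H) ℝ, (∀ t, Orth (U t)) ∧
      ∀ x, runR U s0 x T = F *ᵥ pv (fun _ => Pi.single (i0, false) 1) (A x *ᵥ ψ)
  | 0, _, ⟨V, hV, h⟩, F, hF => by
      have h1 : (Pi.single s0 1 : Fin n × Bool × H → ℝ) ⬝ᵥ Pi.single s0 1 = 1 := by simp
      have h2 : pv (fun _ => Pi.single (i0, false) 1) (V *ᵥ ψ) ⬝ᵥ
          pv (fun _ => Pi.single (i0, false) (1 : ℝ)) (V *ᵥ ψ) = 1 := by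
        have := hV.dot ψ ψ
        rw [hψ] at this
        refine Eq.trans ?_ this
        simp only [dotProduct, pv, Fintype.sum_prod_type]
        rw [Finset.sum_eq_single i0]
        · simp [Pi.single_apply]
        · intro j _ hj; simp [Pi.single_apply, hj]
        · simp
      obtain ⟨M, hM, hMv⟩ := exists_orth_map _ _ h1 h2
      refine ⟨fun _ => F * M, fun _ => hF.mul hM, fun x => ?_⟩
      rw [runR, ← mulVec_mulVec, hMv, h]
  | T + 1, _, ⟨B, ad, V, hV, hB, h⟩, F, hF => by
      have h1 : (Pi.single (i0, false) 1 : Fin n × Bool → ℝ) ⬝ᵥ Pi.single (i0, false) 1 = 1 := by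
        simp
      choose P hP hPv using fun h : H => exists_orth_map _ _ h1 (tau_dot i0 (ad h))
      have hL2 : Orth (lift2 P) := (Orth.block hP).sub _
      have hL1 : Orth (lift1 (n := n) V) := (Orth.block fun _ => hV).sub _
      obtain ⟨U, hU, hrun⟩ := exists_runR i0 s0 ψ hψ hB (lift2 P) hL2
      refine ⟨Function.update U (T + 1) (F * lift1 V * (lift2 P)ᵀ), fun t => ?_, fun x => ?_⟩
      · by_cases ht : t = T + 1
        · subst ht; rw [Function.update_self]; exact (hF.mul hL1).mul hL2.tr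
        · rw [Function.update_of_ne ht]; exact hU t
      · rw [runR, Function.update_self,
          runR_congr _ U s0 x T (fun k hk => Function.update_of_ne (by omega) _ _), hrun,
          lift2_pv]
        simp only [hPv]
        rw [oracle_tau]
        have : pv (fun h => tau i0 (ad h)) (diagonal (phase ad x) *ᵥ B x *ᵥ ψ) =
            lift2 P *ᵥ pv (fun _ => Pi.single (i0, false) 1) (diagonal (phase ad x) *ᵥ B x *ᵥ ψ) := by
          rw [lift2_pv]; simp only [hPv]
        rw [this, mulVec_mulVec, Matrix.mul_assoc, hL2, Matrix.mul_one, ← mulVec_mulVec,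
          lift1_pv, h]
        simp only [mulVec_mulVec, Matrix.mul_assoc]
end

theorem Samp.toQAlg {n : ℕ} (hn : 0 < n) (f : (Fin n → Bool) → Bool) {T : ℕ}
    {E : (Fin n → Bool) → (Bool → ℝ) → ℝ} (hE : Samp T E)
    (h : ∀ x, (2 / 3 : ℝ) ≤ E x (fun b => if b = f x then 1 else 0)) : QAlg f T := by
  obtain ⟨H, _, _, A, ψ, out, hA, hψ, hE⟩ := hE
  have hne : Nonempty H := by
    by_contra h
    rw [not_nonempty_iff] at h
    simp [dotProduct] at hψ
  obtain ⟨h0⟩ := hne
  let i0 : Fin n := ⟨0, hn⟩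
  obtain ⟨U, hU, hrun⟩ := exists_runR i0 (i0, false, h0) ψ hψ hA 1 Orth.one
  refine ⟨H, inferInstance, inferInstance, (i0, false, h0),
    fun t => (U t).map (fun r : ℝ => (r : ℂ)), fun s => out s.2.2, fun t => ?_, fun x => ?_⟩
  · rw [mem_unitaryGroup_iff']
    have := hU t
    unfold Orth at this
    ext a b
    have h2 := congrFun (congrFun this a) b
    simp only [Matrix.mul_apply, transpose_apply] at h2
    simp only [Matrix.mul_apply, star_apply, map_apply, Complex.star_def, Complex.conj_ofReal]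
    rw [one_apply] at h2 ⊢
    split_ifs at h2 ⊢ <;> exact_mod_cast h2
  · refine (h x).trans (le_of_eq ?_)
    rw [hE, run_ofReal, hrun, one_mulVec]
    simp only [Fintype.sum_prod_type, pv, Complex.norm_real, Real.norm_eq_abs, sq_abs]
    rw [Finset.sum_eq_single i0]
    · simp [Pi.single_apply]
    · intro j _ hj; simp [Pi.single_apply, hj]
    · simp

end Vale.Agent.P362
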