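import Vale.Agent.P362.Greedy

/-! Existence of signs `D` such that all small submatrices of `H D H` have small norm. -/

namespace Vale.Agent.P362

open Finset Matrix

def clp (θ y : ℝ) : ℝ := max (-θ) (min θ y)

lemma abs_clp {θ : ℝ} (h : 0 ≤ θ) (y : ℝ) : |clp θ y| ≤ θ := by
  unfold clp
  refine abs_le.mpr ⟨le_max_left _ _, max_le (by linarith) (min_le_left _ _)⟩

lemma clp_eq {θ y : ℝ} (h : |y| ≤ θ) : clp θ y = y := by
  have := abs_le.mp h
  unfold clp
  rw [min_eq_right this.2, max_eq_right this.1]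

lemma clp_lip (θ y y' : ℝ) : |clp θ y - clp θ y'| ≤ |y - y'| := by
  unfold clp
  refine (abs_max_sub_max_le_max _ _ _ _).trans (max_le (by simp) ?_)
  refine (abs_min_sub_min_le_max _ _ _ _).trans (max_le (by simp) le_rfl)

lemma clp_prod_lip {θ u v w v' w' : ℝ} (h : 0 ≤ θ) (hv : |v - v'| ≤ u) (hw : |w - w'| ≤ u) :
    |clp θ v * clp θ w - clp θ v' * clp θ w'| ≤ 2 * θ * u := by
  have e : clp θ v * clp θ w - clp θ v' * clp θ w' =
      clp θ v * (clp θ w - clp θ w') + (clp θ v - clp θ v') * clp θ w' := by ring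
  rw [e]
  refine (abs_add_le _ _).trans ?_
  rw [abs_mul, abs_mul]
  have a1 := mul_le_mul (abs_clp h v) ((clp_lip θ w w').trans hw) (abs_nonneg _) h
  have a2 := mul_le_mul ((clp_lip θ v v').trans hv) (abs_clp h w') (abs_nonneg _)
    ((abs_nonneg _).trans hv)
  linarith

def lev (θ' θ v w : ℝ) : ℝ := clp θ v * clp θ w - clp θ' v * clp θ' w

lemma level_bound {V : Type} [Fintype V] [DecidableEq V] {θ' θ u t : ℝ} (h0 : 0 ≤ θ')
    (h1 : θ' ≤ θ) (v w v' w' : V → ℝ) (hv : ∀ x, |v x - v' x| ≤ u) (hw : ∀ x, |w x - w' x| ≤ u)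
    (hu : 0 ≤ u) (X : Finset V) (hX : (X.card : ℝ) ≤ t)
    (hz : ∀ x, x ∉ X → lev θ' θ (v x) (w x) = 0 ∧ lev θ' θ (v' x) (w' x) = 0) :
    ∑ x, |lev θ' θ (v x) (w x) - lev θ' θ (v' x) (w' x)| ≤ t * (4 * θ * u) ∧
      ∑ x, lev θ' θ (v' x) (w' x) ^ 2 ≤ t * (4 * θ ^ 4) := by
  have hθ : 0 ≤ θ := h0.trans h1
  constructor
  · rw [← sum_subset (subset_univ X) fun x _ hx => by rw [(hz x hx).1, (hz x hx).2]; simp]
    refine (sum_le_card_nsmul _ _ (4 * θ * u) fun x _ => ?_).trans ?_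
    · have e : lev θ' θ (v x) (w x) - lev θ' θ (v' x) (w' x) =
          (clp θ (v x) * clp θ (w x) - clp θ (v' x) * clp θ (w' x)) -
          (clp θ' (v x) * clp θ' (w x) - clp θ' (v' x) * clp θ' (w' x)) := by unfold lev; ring
      rw [e]
      refine (abs_sub _ _).trans ?_
      have a1 := clp_prod_lip hθ (hv x) (hw x)
      have a2 := clp_prod_lip h0 (hv x) (hw x)
      nlinarith
    · rw [nsmul_eq_mul]; exact mul_le_mul_of_nonneg_right hX (by positivity)
  · rw [← sum_subset (subset_univ X) fun x _ hx => by rw [(hz x hx).2]; simp]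
    refine (sum_le_card_nsmul _ _ (4 * θ ^ 4) fun x _ => ?_).trans ?_
    · have a1 : |lev θ' θ (v' x) (w' x)| ≤ 2 * θ ^ 2 := by
        unfold lev
        refine (abs_sub _ _).trans ?_
        rw [abs_mul, abs_mul]
        have b1 := mul_le_mul (abs_clp hθ (v' x)) (abs_clp hθ (w' x)) (abs_nonneg _) hθ
        have b2 := mul_le_mul ((abs_clp h0 (v' x)).trans h1) ((abs_clp h0 (w' x)).trans h1)
          (abs_nonneg _) hθ
        nlinarith
      have := pow_le_pow_left₀ (abs_nonneg _) a1 2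
      rw [sq_abs] at this
      nlinarith
    · rw [nsmul_eq_mul]; exact mul_le_mul_of_nonneg_right hX (by positivity)

lemma card_big {V : Type} [Fintype V] (v : V → ℝ) (hv : ∑ x, v x ^ 2 ≤ 1) {c : ℝ} (hc : 0 < c) :
    ((univ.filter fun x => c < |v x|).card : ℝ) ≤ 1 / c ^ 2 := by
  rw [le_div_iff₀ (by positivity)]
  refine le_trans ?_ ((sum_le_sum_of_subset_of_nonneg (filter_subset (fun x => c < |v x|) univ)
    fun _ _ _ => sq_nonneg _).trans hv)
  rw [← nsmul_eq_mul]
  refine card_nsmul_le_sum _ _ _ fun x hx => ?_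
  rw [← sq_abs (v x)]
  exact pow_le_pow_left₀ hc.le (mem_filter.mp hx).2.le 2

theorem exists_good_signs {V : Type} [Fintype V] [DecidableEq V] (H : Matrix V V ℝ)
    (hH : Hᵀ * H = 1) (hent : ∀ x a, (H x a) ^ 2 ≤ 1 / (Fintype.card V : ℝ))
    (Λ ℓ : ℝ) (J q : ℕ) (hΛ : 2 ≤ Λ) (hq : (q : ℝ) = Λ ^ (2 * J))
    (hℓ1 : Real.log (2 * Fintype.card V + 1) ≤ ℓ) (hℓ2 : Real.log (2 * (J + 1)) ≤ ℓ) (hℓ3 : 1 ≤ ℓ)
    (hN : 2 ^ 30 * Λ ^ 10 * q * ℓ ^ 2 ≤ Fintype.card V) :
    ∃ D : V → Bool, ∀ (a b : V → ℝ) (S T : Finset V), S.card ≤ q → T.card ≤ q →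
      (∀ x, x ∉ S → a x = 0) → (∀ x, x ∉ T → b x = 0) →
      ∑ x, a x ^ 2 ≤ 1 → ∑ x, b x ^ 2 ≤ 1 →
      |∑ x, sg (D x) * ((H *ᵥ a) x * (H *ᵥ b) x)| ≤ 2 * (J + 1) / Λ := by
  have hΛ0 : 0 < Λ := by linarith
  have hq0 : (0 : ℝ) < q := by rw [hq]; positivity
  have hq1 : 0 < q := by exact_mod_cast hq0
  set N : ℝ := (Fintype.card V : ℝ) with hNdef
  have hN0 : 0 < N := lt_of_lt_of_le (by positivity) hN
  have sN := Real.sqrt_pos.mpr hN0
  let θ : ℕ → ℝ := fun j => Λ ^ j / Real.sqrt N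
  have hθ0 : ∀ j, 0 < θ j := fun j => by positivity
  have hθsq : ∀ j, θ j ^ 2 = Λ ^ (2 * j) / N := fun j => by
    simp only [θ, div_pow, Real.sq_sqrt hN0.le, ← pow_mul, mul_comm]
  have hb : θ J ^ 2 = q / N := by rw [hθsq, hq]
  have hθle : ∀ j ≤ J, θ j ≤ θ J := fun j hj =>
    div_le_div_of_nonneg_right (pow_le_pow_right₀ (by linarith) hj) sN.le
  let lo : ℕ → ℝ := fun j => if j = 0 then 0 else θ (j - 1)
  let u : ℕ → ℝ := fun j => θ j / (32 * Λ ^ 3)
  have hu0 : ∀ j, 0 < u j := fun j => by have := hθ0 j; positivity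
  let m : ℕ → ℕ := fun j => ⌈8 * ℓ * θ J ^ 2 / u j ^ 2⌉₊
  have hm0 : ∀ j, 0 < m j := fun j => Nat.ceil_pos.mpr (by
    have := hu0 j; have := hθ0 J; positivity)
  have hm1 : ∀ j, 8 * ℓ * θ J ^ 2 ≤ m j * u j ^ 2 := fun j => by
    rw [← div_le_iff₀ (by have := hu0 j; positivity)]; exact Nat.le_ceil _
  have hm2 : ∀ j, (m j : ℝ) * θ j ^ 2 ≤ 8192 * ℓ * θ J ^ 2 * Λ ^ 6 + θ j ^ 2 := fun j => by
    have h1 : (m j : ℝ) ≤ 8 * ℓ * θ J ^ 2 / u j ^ 2 + 1 := (Nat.ceil_lt_add_one (by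
      have := hu0 j; have := hθ0 J; positivity)).le
    refine (mul_le_mul_of_nonneg_right h1 (sq_nonneg _)).trans (le_of_eq ?_)
    have := (hθ0 j).ne'
    simp only [u]; field_simp; ring
  let E : Type := Σ j : Fin (J + 1),
    (Fin (m j) → Option (V × Bool)) × (Fin (m j) → Option (V × Bool))
  let raw : E → V → ℝ := fun e x => lev (lo e.1) (θ e.1) (apx H q e.2.1 x) (apx H q e.2.2 x)
  let Bb : E → ℝ := fun e => 32 * Λ ^ 2 * θ e.1 ^ 2
  let coef : E → V → ℝ := fun e x => if ∑ y, raw e y ^ 2 ≤ Bb e then raw e x else 0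
  obtain ⟨D, hD⟩ := greedy' (σ := V) (E := E) (C := Bool) (fun _ _ => 1 / 2) (fun _ _ => by norm_num)
    (fun _ => by simp) (fun x γ e => sg γ * coef e x) (fun x e => |coef e x|)
    (fun x γ e => by rw [abs_mul, abs_sg, one_mul]) (fun x e => by simp) univ Bb
    (fun e => ℓ * (1 + 2 * m e.1)) (fun _ => 1 / Λ)
    (fun e => by
      simp only [sq_abs, coef]
      split_ifs with h
      · exact h
      · have := hθ0 e.1
        simp only [ne_eq, OfNat.ofNat_ne_zero, not_false_eq_true, zero_pow, sum_const_zero, Bb]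
        positivity)
    (fun e => by have := hθ0 e.1; simp only [Bb]; positivity) (fun _ => by positivity)
    (by
      have e1 : 2 * N + 1 ≤ Real.exp ℓ := by
        rw [← Real.log_le_iff_le_exp (by positivity)]; exact hℓ1
      have e2 : 2 * ((J : ℝ) + 1) ≤ Real.exp ℓ := by
        rw [← Real.log_le_iff_le_exp (by positivity)]; exact hℓ2
      have e3 : ∀ j : Fin (J + 1), ∑ _y : (Fin (m j) → Option (V × Bool)) ×
          (Fin (m j) → Option (V × Bool)), Real.exp (-(ℓ * (1 + 2 * m j))) ≤ Real.exp (-ℓ) := by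
        intro j
        simp only [sum_const, card_univ, Fintype.card_prod, Fintype.card_fun, Fintype.card_option,
          Fintype.card_bool, Fintype.card_fin, nsmul_eq_mul]
        push_cast
        rw [← hNdef, ← pow_add]
        have e4 : (N * 2 + 1) ^ (m j + m j) ≤ Real.exp ℓ ^ (m j + m j) :=
          pow_le_pow_left₀ (by positivity) (by linarith) _
        refine (mul_le_mul_of_nonneg_right e4 (Real.exp_pos _).le).trans (le_of_eq ?_)
        rw [← Real.exp_nat_mul, ← Real.exp_add]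
        congr 1; push_cast; ring
      simp only [E, Fintype.sum_sigma]
      refine (mul_le_mul_of_nonneg_left (sum_le_sum fun j _ => e3 j) (by norm_num)).trans ?_
      simp only [sum_const, card_univ, Fintype.card_fin, nsmul_eq_mul]
      rw [Real.exp_neg, ← mul_assoc, ← div_eq_mul_inv, div_le_one (Real.exp_pos ℓ)]
      push_cast; linarith)
    (fun e => by
      have h1 := hm2 e.1
      have h2 : θ e.1 ^ 2 ≤ θ J ^ 2 :=
        pow_le_pow_left₀ (hθ0 _).le (hθle _ (by have := e.1.2; omega)) 2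
      have h3 : 1 ≤ ℓ * Λ ^ 6 := one_le_mul_of_one_le_of_one_le hℓ3 (one_le_pow₀ (by linarith))
      have h4 : (1 + 2 * (m e.1 : ℝ)) * θ e.1 ^ 2 ≤ 2 ^ 15 * ℓ * θ J ^ 2 * Λ ^ 6 := by
        nlinarith [sq_nonneg (θ J)]
      have h5 : 2 ^ 30 * Λ ^ 10 * θ J ^ 2 * ℓ ^ 2 ≤ 1 := by
        rw [hb, show 2 ^ 30 * Λ ^ 10 * (q / N) * ℓ ^ 2 = 2 ^ 30 * Λ ^ 10 * q * ℓ ^ 2 / N by ring,
          div_le_one hN0]
        exact hN
      simp only [Bb]
      rw [div_pow 1 Λ, one_pow, le_div_iff₀ (by positivity)]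
      have h6 := mul_le_mul_of_nonneg_left h4 (by positivity : 0 ≤ 64 * ℓ * Λ ^ 4)
      have h7 : 0 ≤ Λ ^ 10 * θ J ^ 2 * ℓ ^ 2 := by positivity
      nlinarith)
  refine ⟨D, fun a b S T hS hT ha hb' ha1 hb1 => ?_⟩
  obtain ⟨va, ma⟩ := maurey H hent hq1 (hθ0 J) hb a S hS ha ha1
  obtain ⟨vb, mb⟩ := maurey H hent hq1 (hθ0 J) hb b T hT hb' hb1
  have hn : ∀ a : V → ℝ, ∑ x, (H *ᵥ a) x ^ 2 = ∑ x, a x ^ 2 := by
    intro a
    have : (H *ᵥ a) ⬝ᵥ (H *ᵥ a) = a ⬝ᵥ a := by
      rw [dotProduct_mulVec, ← mulVec_transpose, mulVec_mulVec, hH, one_mulVec]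
    simpa only [dotProduct, sq] using this
  have nv := (hn a).le.trans ha1
  have nw := (hn b).le.trans hb1
  set v := H *ᵥ a
  set w := H *ᵥ b
  have htel : ∀ x, v x * w x = ∑ j ∈ range (J + 1), lev (lo j) (θ j) (v x) (w x) := by
    intro x
    have : ∀ K, ∑ j ∈ range (K + 1), lev (lo j) (θ j) (v x) (w x) =
        clp (θ K) (v x) * clp (θ K) (w x) := by
      intro K
      induction K with
      | zero =>
        have : clp 0 (v x) = 0 := abs_nonpos_iff.mp (abs_clp le_rfl _)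
        simp [lev, lo, this]
      | succ K ih => rw [sum_range_succ, ih]; simp [lev, lo]
    rw [this, clp_eq (va x), clp_eq (vb x)]
  have hlev : ∀ j ∈ range (J + 1),
      |∑ x, sg (D x) * lev (lo j) (θ j) (v x) (w x)| ≤ 2 / Λ := by
    intro j hj
    have hj' : j < J + 1 := mem_range.mp hj
    obtain ⟨c, hc⟩ := ma ℓ (u j) (m j) hℓ1 (hu0 j) (hm0 j) (hm1 j)
    obtain ⟨c', hc'⟩ := mb ℓ (u j) (m j) hℓ1 (hu0 j) (hm0 j) (hm1 j)
    have hθj := hθ0 j
    have hX : ∃ X : Finset V, (X.card : ℝ) ≤ 8 * Λ ^ 2 / θ j ^ 2 ∧ 0 ≤ lo j ∧ lo j ≤ θ j ∧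
        ∀ x, x ∉ X → lev (lo j) (θ j) (v x) (w x) = 0 ∧
          lev (lo j) (θ j) (apx H q c x) (apx H q c' x) = 0 := by
      rcases Nat.eq_zero_or_pos j with h0 | h0
      · refine ⟨univ, ?_, by simp [lo, h0], by simp [lo, h0, (hθ0 0).le], by simp⟩
        rw [card_univ, ← hNdef, hθsq, h0, le_div_iff₀ (by positivity)]
        simp only [mul_zero, pow_zero, mul_one_div_cancel hN0.ne']
        nlinarith
      · have e1 : lo j = θ j / Λ := by
          simp only [lo, θ]
          rw [if_neg (by omega), show Λ ^ j = Λ ^ (j - 1) * Λ by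
            rw [← pow_succ]; congr 1; omega]
          field_simp
        have e2 : lo j ≤ θ j := by
          rw [e1]; exact div_le_self hθj.le (by linarith)
        have e3 : u j ≤ lo j / 2 := by
          rw [e1]
          simp only [u]
          rw [div_div (θ j) Λ 2]
          refine div_le_div_of_nonneg_left hθj.le (by positivity) ?_
          nlinarith [pow_pos hΛ0 2, pow_pos hΛ0 3]
        have e4 : 0 < lo j := by rw [e1]; positivity
        refine ⟨(univ.filter fun x => lo j / 2 < |v x|) ∪ (univ.filter fun x => lo j / 2 < |w x|),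
          ?_, e4.le, e2, fun x hx => ?_⟩
        · have a1 := card_big v nv (c := lo j / 2) (by positivity)
          have a2 := card_big w nw (c := lo j / 2) (by positivity)
          have a3 : (((univ.filter fun x => lo j / 2 < |v x|) ∪
              (univ.filter fun x => lo j / 2 < |w x|)).card : ℝ) ≤
              (univ.filter fun x => lo j / 2 < |v x|).card +
              (univ.filter fun x => lo j / 2 < |w x|).card := by
            exact_mod_cast card_union_le _ _
          refine a3.trans ((add_le_add a1 a2).trans (le_of_eq ?_))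
          rw [e1]; field_simp; ring
        · simp only [mem_union, mem_filter, mem_univ, true_and, not_or, not_lt] at hx
          have b1 : |apx H q c x| ≤ lo j := by
            have := abs_sub_abs_le_abs_sub (apx H q c x) (v x)
            rw [abs_sub_comm] at this
            linarith [hc x, hx.1]
          have b2 : |apx H q c' x| ≤ lo j := by
            have := abs_sub_abs_le_abs_sub (apx H q c' x) (w x)
            rw [abs_sub_comm] at this
            linarith [hc' x, hx.2]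
          have b3 : |v x| ≤ lo j := by linarith [hx.1]
          have b4 : |w x| ≤ lo j := by linarith [hx.2]
          simp only [lev, clp_eq b1, clp_eq b2, clp_eq b3, clp_eq b4, clp_eq (b1.trans e2),
            clp_eq (b2.trans e2), clp_eq (b3.trans e2), clp_eq (b4.trans e2), sub_self, and_self]
    obtain ⟨X, hX1, hX2, hX3, hX4⟩ := hX
    obtain ⟨l1, l2⟩ := level_bound hX2 hX3 v w (apx H q c) (apx H q c') hc hc' (hu0 j).le X hX1 hX4
    have l3 : 8 * Λ ^ 2 / θ j ^ 2 * (4 * θ j * u j) = 1 / Λ := by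
      simp only [u]; field_simp; ring
    have l4 : 8 * Λ ^ 2 / θ j ^ 2 * (4 * θ j ^ 4) = 32 * Λ ^ 2 * θ j ^ 2 := by
      field_simp; ring
    rw [l3] at l1
    rw [l4] at l2
    have l5 := hD ⟨⟨j, hj'⟩, c, c'⟩
    simp only [coef, raw, Bb, if_pos l2] at l5
    have e : ∑ x, sg (D x) * lev (lo j) (θ j) (v x) (w x) =
        ∑ x, sg (D x) * (lev (lo j) (θ j) (v x) (w x) -
          lev (lo j) (θ j) (apx H q c x) (apx H q c' x)) +
        ∑ x, sg (D x) * lev (lo j) (θ j) (apx H q c x) (apx H q c' x) := by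
      rw [← sum_add_distrib]; exact sum_congr rfl fun _ _ => by ring
    rw [e]
    refine (abs_add_le _ _).trans ?_
    have l6 := (abs_sum_le_sum_abs (fun x => sg (D x) * (lev (lo j) (θ j) (v x) (w x) -
      lev (lo j) (θ j) (apx H q c x) (apx H q c' x))) univ)
    simp only [abs_mul, abs_sg, one_mul] at l6
    have : 2 / Λ = 1 / Λ + 1 / Λ := by ring
    linarith
  simp only [htel, mul_sum]
  rw [sum_comm]
  refine (abs_sum_le_sum_abs _ _).trans ((sum_le_sum hlev).trans (le_of_eq ?_))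
  simp only [sum_const, card_range, nsmul_eq_mul]
  push_cast; ring

end Vale.Agent.P362
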