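import Vale.Agent.P362.Sg

/-! A derandomized Hoeffding bound and Maurey's empirical approximation. -/

namespace Vale.Agent.P362

open Finset Matrix

lemma exp_avg {C : Type} [Fintype C] (p y : C → ℝ) (hp0 : ∀ c, 0 ≤ p c) (hp1 : ∑ c, p c = 1)
    (b t : ℝ) (hy : ∀ c, |y c| ≤ b) (hm : ∑ c, p c * y c = 0) :
    ∑ c, p c * Real.exp (t * y c) ≤ Real.exp (t ^ 2 * b ^ 2 / 2) := by
  have hne : Nonempty C := by
    by_contra h
    rw [not_nonempty_iff] at h
    simp at hp1
  obtain ⟨c0⟩ := hne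
  have hb : 0 ≤ b := (abs_nonneg _).trans (hy c0)
  rcases hb.eq_or_lt with h0 | h0
  · have : ∀ c, y c = 0 := fun c => abs_nonpos_iff.mp (h0 ▸ hy c)
    simp [this, hp1, ← h0]
  have h1 : ∀ c, Real.exp (t * y c) ≤ Real.cosh (t * b) + y c * (Real.sinh (t * b) / b) := by
    intro c
    have h2 := abs_le.mp (hy c)
    have := convexOn_exp.2 (Set.mem_univ (t * b)) (Set.mem_univ (-(t * b)))
      (show 0 ≤ (b + y c) / (2 * b) from div_nonneg (by linarith) (by linarith))
      (show 0 ≤ (b - y c) / (2 * b) from div_nonneg (by linarith) (by linarith))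
      (by field_simp; ring)
    simp only [smul_eq_mul] at this
    have e : (b + y c) / (2 * b) * (t * b) + (b - y c) / (2 * b) * -(t * b) = t * y c := by
      field_simp; ring
    rw [e] at this
    refine this.trans (le_of_eq ?_)
    rw [Real.cosh_eq, Real.sinh_eq]; field_simp; ring
  calc _ ≤ ∑ c, p c * (Real.cosh (t * b) + y c * (Real.sinh (t * b) / b)) :=
        sum_le_sum fun c _ => mul_le_mul_of_nonneg_left (h1 c) (hp0 c)
    _ = Real.cosh (t * b) := by
        simp only [mul_add, sum_add_distrib, ← sum_mul, hp1, ← mul_assoc, hm]; ring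
    _ ≤ _ := by
        have := Real.cosh_le_exp_half_sq (t * b)
        rwa [mul_pow] at this

lemma cosh_avg {C : Type} [Fintype C] (p y : C → ℝ) (hp0 : ∀ c, 0 ≤ p c) (hp1 : ∑ c, p c = 1)
    (b t S : ℝ) (hy : ∀ c, |y c| ≤ b) (hm : ∑ c, p c * y c = 0) :
    ∑ c, p c * Real.cosh (t * (y c + S)) ≤ Real.cosh (t * S) * Real.exp (t ^ 2 * b ^ 2 / 2) := by
  have h1 := exp_avg p y hp0 hp1 b t hy hm
  have h2 := exp_avg p y hp0 hp1 b (-t) hy hm
  rw [neg_sq] at h2
  have e : ∑ c, p c * Real.cosh (t * (y c + S)) =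
      Real.exp (t * S) / 2 * ∑ c, p c * Real.exp (t * y c) +
        Real.exp (-(t * S)) / 2 * ∑ c, p c * Real.exp (-t * y c) := by
    rw [mul_sum, mul_sum, ← sum_add_distrib]
    refine sum_congr rfl fun c _ => ?_
    rw [Real.cosh_eq, show t * (y c + S) = t * S + t * y c by ring, neg_add, Real.exp_add,
      Real.exp_add, neg_mul]
    ring
  rw [e, Real.cosh_eq]
  have a1 := mul_le_mul_of_nonneg_left h1 (by positivity : 0 ≤ Real.exp (t * S) / 2)
  have a2 := mul_le_mul_of_nonneg_left h2 (by positivity : 0 ≤ Real.exp (-(t * S)) / 2)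
  linarith

section
variable {E C σ : Type} [Fintype E] [Fintype C] [Nonempty C] [DecidableEq σ]
  (p : σ → C → ℝ) (hp0 : ∀ s c, 0 ≤ p s c) (hp1 : ∀ s, ∑ c, p s c = 1)
  (Δ : σ → C → E → ℝ) (bd : σ → E → ℝ) (hΔ : ∀ s c e, |Δ s c e| ≤ bd s e)
  (hm : ∀ s e, ∑ c, p s c * Δ s c e = 0)
include hp0 hp1 hΔ hm

lemma greedy (om t : E → ℝ) (hom : ∀ e, 0 ≤ om e) (s : Finset σ) :
    ∃ c : σ → C, ∑ e, om e * (Real.cosh (t e * ∑ x ∈ s, Δ x (c x) e) *
      Real.exp (-(t e ^ 2 * (∑ x ∈ s, bd x e ^ 2) / 2))) ≤ ∑ e, om e := by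
  induction s using Finset.induction_on with
  | empty => exact ⟨fun _ => Classical.arbitrary C, by simp⟩
  | insert x s hx ih =>
    obtain ⟨c, hc⟩ := ih
    let f : C → ℝ := fun γ => ∑ e, om e * (Real.cosh (t e * (Δ x γ e + ∑ y ∈ s, Δ y (c y) e)) *
      Real.exp (-(t e ^ 2 * (bd x e ^ 2 + ∑ y ∈ s, bd y e ^ 2) / 2)))
    have h1 : ∑ γ, p x γ * f γ ≤ ∑ e, om e := by
      refine le_trans ?_ hc
      simp only [f, mul_sum]
      rw [sum_comm]
      refine sum_le_sum fun e _ => ?_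
      have h2 := cosh_avg (p x) (fun γ => Δ x γ e) (hp0 x) (hp1 x) (bd x e) (t e)
        (∑ y ∈ s, Δ y (c y) e) (fun γ => hΔ x γ e) (hm x e)
      have h3 := mul_le_mul_of_nonneg_left h2 (mul_nonneg (hom e)
        (Real.exp_pos (-(t e ^ 2 * (bd x e ^ 2 + ∑ y ∈ s, bd y e ^ 2) / 2))).le)
      rw [mul_sum] at h3
      refine le_trans (le_of_eq (sum_congr rfl fun γ _ => by ring)) (h3.trans (le_of_eq ?_))
      simp only [← mul_sum]
      rw [show -(t e ^ 2 * (∑ y ∈ s, bd y e ^ 2) / 2) =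
        -(t e ^ 2 * (bd x e ^ 2 + ∑ y ∈ s, bd y e ^ 2) / 2) + t e ^ 2 * bd x e ^ 2 / 2 by ring,
        Real.exp_add]
      ring
    obtain ⟨γ, -, hγ⟩ := exists_min_image univ f univ_nonempty
    have h2 : f γ ≤ ∑ γ', p x γ' * f γ' := by
      calc f γ = ∑ γ', p x γ' * f γ := by rw [← sum_mul, hp1, one_mul]
        _ ≤ _ := sum_le_sum fun γ' _ => mul_le_mul_of_nonneg_left (hγ γ' (mem_univ _)) (hp0 x γ')
    refine ⟨Function.update c x γ, le_trans (le_of_eq ?_) (h2.trans h1)⟩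
    refine sum_congr rfl fun e _ => ?_
    rw [sum_insert hx, sum_insert hx, Function.update_self,
      sum_congr rfl fun y hy => by rw [Function.update_of_ne (fun e => hx (by rw [← e]; exact hy))]]

lemma greedy' (s : Finset σ) (Bb L lam : E → ℝ) (hB : ∀ e, ∑ x ∈ s, bd x e ^ 2 ≤ Bb e)
    (hBb : ∀ e, 0 < Bb e) (hlam : ∀ e, 0 < lam e) (hL : 2 * ∑ e, Real.exp (-L e) ≤ 1)
    (hLB : ∀ e, 2 * L e * Bb e ≤ lam e ^ 2) :
    ∃ c : σ → C, ∀ e, |∑ x ∈ s, Δ x (c x) e| ≤ lam e := by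
  obtain ⟨c, hc⟩ := greedy p hp0 hp1 Δ bd hΔ hm (fun e => Real.exp (-L e))
    (fun e => lam e / Bb e) (fun e => (Real.exp_pos _).le) s
  refine ⟨c, fun e => ?_⟩
  have h1 := (single_le_sum (f := fun e => Real.exp (-L e) *
    (Real.cosh (lam e / Bb e * ∑ x ∈ s, Δ x (c x) e) *
      Real.exp (-((lam e / Bb e) ^ 2 * (∑ x ∈ s, bd x e ^ 2) / 2))))
    (fun e _ => by have := Real.cosh_pos (lam e / Bb e * ∑ x ∈ s, Δ x (c x) e); positivity)
    (mem_univ e)).trans hc
  set S := ∑ x ∈ s, Δ x (c x) e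
  set t := lam e / Bb e with ht
  have ht0 : 0 < t := div_pos (hlam e) (hBb e)
  have h2 : Real.exp (t * |S|) / 2 ≤ Real.cosh (t * S) := by
    rw [← Real.cosh_abs, abs_mul, abs_of_pos ht0, Real.cosh_eq]
    linarith [Real.exp_pos (-(t * |S|))]
  have h3 : Real.exp (-L e + t * |S| + -(t ^ 2 * (∑ x ∈ s, bd x e ^ 2) / 2)) ≤ 1 := by
    rw [Real.exp_add, Real.exp_add]
    have := mul_le_mul_of_nonneg_left (mul_le_mul_of_nonneg_right h2
      (Real.exp_pos (-(t ^ 2 * (∑ x ∈ s, bd x e ^ 2) / 2))).le) (Real.exp_pos (-L e)).le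
    linarith
  rw [Real.exp_le_one_iff] at h3
  have h4 : t ^ 2 * (∑ x ∈ s, bd x e ^ 2) ≤ t * lam e := by
    calc _ ≤ t ^ 2 * Bb e := mul_le_mul_of_nonneg_left (hB e) (sq_nonneg _)
      _ = _ := by rw [ht]; have := (hBb e).ne'; field_simp
  have h5 : 2 * L e ≤ t * lam e := by
    rw [ht, div_mul_eq_mul_div, le_div_iff₀ (hBb e), ← sq]; exact hLB e
  exact le_of_mul_le_mul_left (by linarith) ht0
end

variable {V : Type} [Fintype V] [DecidableEq V]

noncomputable def atom (H : Matrix V V ℝ) (q : ℕ) : Option (V × Bool) → V → ℝ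
  | none, _ => 0
  | some (i, s), x => Real.sqrt q * sg s * H x i

noncomputable def apx (H : Matrix V V ℝ) (q : ℕ) {m : ℕ} (c : Fin m → Option (V × Bool))
    (x : V) : ℝ := (∑ j, atom H q (c j) x) / m

lemma maurey (H : Matrix V V ℝ) (hent : ∀ x a, (H x a) ^ 2 ≤ 1 / (Fintype.card V : ℝ))
    {q : ℕ} (hq : 0 < q) {b0 : ℝ} (hb0 : 0 < b0) (hb : b0 ^ 2 = q / Fintype.card V)
    (a : V → ℝ) (S : Finset V) (hS : S.card ≤ q) (ha : ∀ x, x ∉ S → a x = 0)
    (ha1 : ∑ x, a x ^ 2 ≤ 1) :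
    (∀ x, |(H *ᵥ a) x| ≤ b0) ∧ ∀ (l u : ℝ) (m : ℕ), Real.log (2 * Fintype.card V + 1) ≤ l →
      0 < u → 0 < m → 8 * l * b0 ^ 2 ≤ m * u ^ 2 →
      ∃ c : Fin m → Option (V × Bool), ∀ x, |(H *ᵥ a) x - apx H q c x| ≤ u := by
  have hq' : (0 : ℝ) < q := by exact_mod_cast hq
  have sq0 := Real.sqrt_pos.mpr hq'
  have hl1 : ∑ i, |a i| ≤ Real.sqrt q := by
    refine Real.le_sqrt_of_sq_le ?_
    have e : ∑ i, |a i| = ∑ i ∈ S, 1 * |a i| := by
      simp only [one_mul]
      exact (sum_subset (subset_univ S) fun x _ hx => by simp [ha x hx]).symm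
    rw [e]
    refine (sum_mul_sq_le_sq_mul_sq _ _ _).trans ?_
    simp only [one_pow, sum_const, nsmul_eq_mul, mul_one, sq_abs]
    have h1 : ∑ i ∈ S, a i ^ 2 ≤ 1 :=
      (sum_le_sum_of_subset_of_nonneg (subset_univ S) fun _ _ _ => sq_nonneg _).trans ha1
    have h2 : (S.card : ℝ) ≤ q := by exact_mod_cast hS
    nlinarith [sum_nonneg fun i (_ : i ∈ S) => sq_nonneg (a i)]
  let p : Option (V × Bool) → ℝ := fun c => match c with
    | none => 1 - (∑ i, |a i|) / Real.sqrt q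
    | some (i, s) => if s = decide (a i < 0) then |a i| / Real.sqrt q else 0
  have hp0 : ∀ c, 0 ≤ p c := by
    rintro (_ | ⟨i, s⟩)
    · simp only [p, sub_nonneg]; exact (div_le_one sq0).mpr hl1
    · simp only [p]; split_ifs <;> positivity
  have hp1 : ∑ c, p c = 1 := by
    have : ∀ i, ∑ s : Bool, (if s = decide (a i < 0) then |a i| / Real.sqrt q else 0) =
        |a i| / Real.sqrt q := fun i => by rw [sum_ite_eq']; simp
    simp only [p, Fintype.sum_option, Fintype.sum_prod_type, this, sum_div]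
    ring
  have hat : ∀ c x, |atom H q c x| ≤ b0 := by
    rintro (_ | ⟨i, s⟩) x
    · simpa [atom] using hb0.le
    · refine abs_le_of_sq_le_sq' ?_ hb0.le |> abs_le.mpr
      simp only [atom, mul_pow, sg_sq, Real.sq_sqrt hq'.le, mul_one, hb]
      have := mul_le_mul_of_nonneg_left (hent x i) hq'.le
      rwa [mul_one_div] at this
  have hmean : ∀ x, ∑ c, p c * atom H q c x = (H *ᵥ a) x := by
    intro x
    simp only [p, atom, Fintype.sum_option, Fintype.sum_prod_type, mul_zero, zero_add, ite_mul,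
      zero_mul, sum_ite_eq', mem_univ, if_true, mulVec, dotProduct]
    refine sum_congr rfl fun i _ => ?_
    have : |a i| * sg (decide (a i < 0)) = a i := by
      by_cases h : a i < 0
      · simp [h, abs_of_neg h]
      · simp [h, abs_of_nonneg (not_lt.mp h)]
    refine (sum_ite_eq' univ (decide (a i < 0))
      (fun s => |a i| / Real.sqrt q * (Real.sqrt q * sg s * H x i))).trans ?_
    rw [if_pos (mem_univ _)]
    generalize H x i = y
    calc _ = y * (|a i| * sg (decide (a i < 0))) := by field_simp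
      _ = _ := by rw [this]
  have hv : ∀ x, |(H *ᵥ a) x| ≤ b0 := by
    intro x
    rw [← hmean]
    refine (abs_sum_le_sum_abs _ _).trans ?_
    calc _ ≤ ∑ c, p c * b0 := sum_le_sum fun c _ => by
          rw [abs_mul, abs_of_nonneg (hp0 c)]
          exact mul_le_mul_of_nonneg_left (hat c x) (hp0 c)
      _ = b0 := by rw [← sum_mul, hp1, one_mul]
  refine ⟨hv, fun l u m hl hu hm hmu => ?_⟩
  have hm' : (0 : ℝ) < m := by exact_mod_cast hm
  obtain ⟨c, hc⟩ := greedy' (σ := Fin m) (E := V) (fun _ => p) (fun _ => hp0) (fun _ => hp1)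
    (fun _ c x => atom H q c x - (H *ᵥ a) x) (fun _ _ => 2 * b0)
    (fun _ c x => (abs_sub _ _).trans (by linarith [hat c x, hv x]))
    (fun _ x => by simp only [mul_sub, sum_sub_distrib, hmean, ← sum_mul, hp1]; ring) univ
    (fun _ => m * (2 * b0) ^ 2) (fun _ => l) (fun _ => m * u) (fun _ => by simp)
    (fun _ => by positivity) (fun _ => by positivity) (by
      simp only [sum_const, card_univ, nsmul_eq_mul]
      have h1 : 2 * (Fintype.card V : ℝ) + 1 ≤ Real.exp l := by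
        rw [← Real.log_le_iff_le_exp (by positivity)]; exact hl
      rw [Real.exp_neg, ← mul_assoc, ← div_eq_mul_inv, div_le_one (Real.exp_pos l)]
      linarith) (fun _ => by nlinarith)
  refine ⟨c, fun x => ?_⟩
  have := hc x
  simp only [sum_sub_distrib, sum_const, card_univ, Fintype.card_fin, nsmul_eq_mul] at this
  rw [apx, abs_sub_comm, show (∑ j, atom H q (c j) x) / m - (H *ᵥ a) x =
    (∑ j, atom H q (c j) x - m * (H *ᵥ a) x) / m by field_simp, abs_div, abs_of_pos hm',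
    div_le_iff₀ hm']
  linarith

end Vale.Agent.P362
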