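import Vale.Agent.P362.Search

/-! The Walsh-Hadamard transform, its butterfly layers, and the decoding circuit. -/

namespace Vale.Agent.P362

open Matrix

abbrev Vn (n : ℕ) : Type := Fin n → Bool

lemma card_Vn (n : ℕ) : Fintype.card (Vn n) = 2 ^ n := by simp

variable {n : ℕ}

/-- unnormalized Hadamard entry -/
noncomputable def hd (a b : Vn n) : ℝ := ∏ j, sg (a j && b j)

/-- the transform along the first `i` coordinates -/
noncomputable def ker (i : ℕ) (a b : Vn n) : ℝ :=
  ∏ j : Fin n, if (j : ℕ) < i then sg (a j && b j) else (if a j = b j then 1 else 0)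

lemma ker_zero (a b : Vn n) : ker 0 a b = if a = b then 1 else 0 := by
  simp only [ker, Nat.not_lt_zero, if_false]
  by_cases h : a = b
  · simp [h]
  · rw [if_neg h]
    obtain ⟨j, hj⟩ := Function.ne_iff.mp h
    exact Finset.prod_eq_zero (Finset.mem_univ j) (by simp [hj])

lemma ker_full (a b : Vn n) : ker n a b = hd a b := by
  simp [ker, hd]

lemma ker_succ (i : Fin n) (a b : Vn n) :
    ker (i + 1) a b = ker i (Function.update a i false) b +
      sg (a i) * ker i (Function.update a i true) b := by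
  unfold ker
  rw [← Finset.mul_prod_erase _ _ (Finset.mem_univ i),
    ← Finset.mul_prod_erase _ _ (Finset.mem_univ i),
    ← Finset.mul_prod_erase _ _ (Finset.mem_univ i)]
  have h : ∀ c : Bool, ∏ j ∈ Finset.univ.erase i, (if (j : ℕ) < i then
      sg (Function.update a i c j && b j) else (if Function.update a i c j = b j then (1 : ℝ) else 0))
      = ∏ j ∈ Finset.univ.erase i, (if (j : ℕ) < i + 1 then sg (a j && b j)
        else (if a j = b j then (1 : ℝ) else 0)) := by
    intro c
    refine Finset.prod_congr rfl fun j hj => ?_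
    have hj' : j ≠ i := Finset.ne_of_mem_erase hj
    have : (j : ℕ) ≠ i := fun e => hj' (Fin.ext e)
    rw [Function.update_of_ne hj']
    by_cases hl : (j : ℕ) < i
    · rw [if_pos hl, if_pos (by omega)]
    · rw [if_neg hl, if_neg (by omega : ¬ (j : ℕ) < i + 1)]
  rw [h, h]
  simp only [Nat.lt_succ_self, if_true, lt_irrefl, if_false, Function.update_self]
  cases a i <;> cases b i <;> simp

lemma hd_comm (a b : Vn n) : hd a b = hd b a := by
  simp only [hd, Bool.and_comm]

lemma hd_sq (a b : Vn n) : hd a b ^ 2 = 1 := by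
  simp only [hd, ← Finset.prod_pow, sg_sq, Finset.prod_const_one]

lemma hd_zero (b : Vn n) : hd (fun _ => false) b = 1 := by simp [hd]

lemma hd_orth (a c : Vn n) : ∑ b, hd b a * hd b c = if a = c then (2 : ℝ) ^ n else 0 := by
  have : ∑ b : Vn n, hd b a * hd b c = ∏ j : Fin n, ∑ β : Bool, sg (β && a j) * sg (β && c j) := by
    rw [Finset.prod_univ_sum]
    simp only [hd, ← Finset.prod_mul_distrib, Fintype.piFinset_univ]
  rw [this]
  by_cases h : a = c
  · subst h
    simp only [sg_mul_self, if_true]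
    simp
  · rw [if_neg h]
    obtain ⟨j, hj⟩ := Function.ne_iff.mp h
    refine Finset.prod_eq_zero (Finset.mem_univ j) ?_
    revert hj
    cases a j <;> cases c j <;> simp

/-- the sign bit of a Hadamard entry -/
noncomputable def hb (a b : Vn n) : Bool := decide (hd a b = -1)

lemma sg_hb (a b : Vn n) : sg (hb a b) = hd a b := by
  have := hd_sq a b
  have h2 : (hd a b - 1) * (hd a b + 1) = 0 := by nlinarith
  unfold hb
  by_cases h : hd a b = -1
  · simp [h]
  · rw [decide_eq_false h]
    rcases mul_eq_zero.mp h2 with h3 | h3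
    · simp; linarith
    · exact absurd (by linarith) h

/-- normalized Hadamard matrix -/
noncomputable def Hm (n : ℕ) : Matrix (Vn n) (Vn n) ℝ := of fun a b => hd a b / Real.sqrt (2 ^ n)

lemma sqrt_sq_two_pow : Real.sqrt (2 ^ n) * Real.sqrt (2 ^ n) = 2 ^ n :=
  Real.mul_self_sqrt (by positivity)

lemma sqrt_two_pow_pos : 0 < Real.sqrt (2 ^ n) := Real.sqrt_pos.mpr (by positivity)

lemma Hm_orth : Orth (Hm n) := by
  ext a c
  simp only [Matrix.mul_apply, transpose_apply, Hm, of_apply, div_mul_div_comm, sqrt_sq_two_pow,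
    ← Finset.sum_div, hd_orth, one_apply]
  split_ifs
  · field_simp
  · simp

lemma Hm_tr : (Hm n)ᵀ = Hm n := by
  ext a b; simp [Hm, hd_comm a b]

lemma Hm_sq (a b : Vn n) : Hm n a b ^ 2 = 1 / (2 : ℝ) ^ n := by
  simp only [Hm, of_apply, div_pow, hd_sq]
  rw [sq, sqrt_sq_two_pow]

/-- unnormalized amplitudes of the circuit with sign layers `σ` -/
noncomputable def Psi (σ : ℕ → Vn n → Bool) : ℕ → Vn n → ℝ
  | 0 => fun _ => 1
  | t + 1 => fun a => ∑ b, hd a b * (sg (σ t b) * Psi σ t b)

lemma Psi_congr (σ σ' : ℕ → Vn n → Bool) : ∀ t, (∀ s < t, σ s = σ' s) → Psi σ t = Psi σ' t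
  | 0, _ => rfl
  | t + 1, h => by
      funext a
      simp only [Psi, h t (by omega), Psi_congr σ σ' t fun s hs => h s (by omega)]

variable {ι : Type}

def sig (ad : Vn n → Option ι) (δ : Vn n → Bool) (x : ι → Bool) (a : Vn n) : Bool :=
  match ad a with
  | none => δ a
  | some i => x i

lemma forr_QU (ad : ℕ → Vn n → Option ι) (δ : Vn n → Bool) : ∀ K : ℕ,
    ∃ A : (ι → Bool) → Matrix (Vn n) (Vn n) ℝ, QU K A ∧ ∀ x,
      A x *ᵥ (fun _ => 1 / Real.sqrt (2 ^ n)) =
        fun a => Psi (fun t => sig (ad t) δ x) K a / Real.sqrt (2 ^ n) ^ (K + 1)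
  | 0 => ⟨fun _ => 1, QU.const Orth.one, fun x => by simp [Psi]⟩
  | K + 1 => by
      obtain ⟨A, hA, h⟩ := forr_QU ad δ K
      let d : Vn n → ℝ := fun a => match ad K a with | none => sg (δ a) | some _ => 1
      have hd' : Orth (diagonal d) := Orth.diag fun a => by
        simp only [d]; cases ad K a <;> simp [sg_mul_self]
      refine ⟨fun x => Hm n * diagonal d * diagonal (phase (ad K) x) * A x,
        ⟨A, ad K, _, Hm_orth.mul hd', hA, fun _ => rfl⟩, fun x => ?_⟩
      simp only [← mulVec_mulVec, h]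
      funext a
      simp only [Psi, Finset.sum_div]
      rw [mulVec]
      simp only [dotProduct, mulVec_diagonal, Hm, of_apply]
      refine Finset.sum_congr rfl fun b _ => ?_
      have : sg (sig (ad K) δ x b) = d b * phase (ad K) x b := by
        simp only [sig, d, phase]; cases ad K b <;> simp
      rw [this]
      have := (sqrt_two_pow_pos (n := n)).ne'
      field_simp
      ring

lemma forr_samp (ad : ℕ → Vn n → Option ι) (δ : Vn n → Bool) (K : ℕ) :
    Samp K (fun x (φ : Vn n → ℝ) =>
      ∑ p, Psi (fun t => sig (ad t) δ x) K p ^ 2 / (2 ^ n) ^ (K + 1) * φ p) := by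
  obtain ⟨A, hA, h⟩ := forr_QU ad δ K
  refine ⟨Vn n, inferInstance, inferInstance, A, fun _ => 1 / Real.sqrt (2 ^ n), id, hA, ?_,
    fun x φ => ?_⟩
  · simp only [dotProduct, div_mul_div_comm, sqrt_sq_two_pow]
    simp
  · simp only [h, id, div_pow]
    refine Finset.sum_congr rfl fun p _ => ?_
    rw [sq (Real.sqrt _ ^ _), ← mul_pow, sqrt_sq_two_pow]

end Vale.Agent.P362
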