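import Vale.Agent.P362.KernelA

/-! The Gaussian rounding kernel (part K). -/

namespace Vale.Agent.P362

open MeasureTheory ProbabilityTheory MvPolynomial Matrix

namespace Ker

variable {V : Type} [Fintype V] [DecidableEq V]

omit [Fintype V] in
lemma pderiv_prod (a : V) (f : V → MvPolynomial V ℝ) (s : Finset V) :
    pderiv a (∏ i ∈ s, f i) = ∑ i ∈ s, pderiv a (f i) * ∏ j ∈ s.erase i, f j := by
  induction s using Finset.induction_on with
  | empty => simp
  | insert b s hb ih =>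
    rw [Finset.prod_insert hb, Finset.sum_insert hb, pderiv_mul, ih, Finset.erase_insert hb,
      Finset.mul_sum]
    congr 1
    refine Finset.sum_congr rfl (fun i hi => ?_)
    have hne : b ≠ i := fun h => hb (h ▸ hi)
    rw [Finset.erase_insert_of_ne hne, Finset.prod_insert (fun h => hb (Finset.mem_of_mem_erase h))]
    ring

/-- the coordinate `b` of `U x` as a polynomial -/
noncomputable def lin (U : Matrix V V ℝ) (b : V) : MvPolynomial V ℝ := ∑ a, C (U b a) * X a

omit [DecidableEq V] in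
lemma eval_lin (U : Matrix V V ℝ) (b : V) (x : V → ℝ) : eval x (lin U b) = (U *ᵥ x) b := by
  simp [lin, mulVec, dotProduct]

lemma pderiv_lin (U : Matrix V V ℝ) (b a : V) : pderiv a (lin U b) = C (U b a) := by
  simp only [lin, map_sum, pderiv_C_mul, pderiv_X]
  rw [Finset.sum_eq_single a]
  · simp
  · intro c _ hc; simp [Pi.single_eq_of_ne hc]
  · simp

/-- mixed monomial -/
noncomputable def QQ (U : Matrix V V ℝ) (A B : Finset V) : MvPolynomial V ℝ :=
  (∏ a ∈ A, X a) * ∏ b ∈ B, lin U b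

omit [DecidableEq V] in
lemma EE_C_mul (c : ℝ) (P : MvPolynomial V ℝ) : EE (C c * P) = c * EE P := by
  rw [C_mul', map_smul, smul_eq_mul]

lemma EE_pderiv_QQ (U : Matrix V V ℝ) (A B : Finset V) {a : V} (ha : a ∉ A) :
    EE (pderiv a (QQ U A B)) = ∑ b ∈ B, U b a * EE (QQ U A (B.erase b)) := by
  have h0 : pderiv a (∏ c ∈ A, (X c : MvPolynomial V ℝ)) = 0 := by
    rw [pderiv_prod]
    refine Finset.sum_eq_zero (fun c hc => ?_)
    have hne : c ≠ a := fun h => ha (h ▸ hc)
    rw [pderiv_X_of_ne hne, zero_mul]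
  rw [QQ, pderiv_mul, h0, zero_mul, zero_add, pderiv_prod, Finset.mul_sum, map_sum]
  refine Finset.sum_congr rfl (fun b _ => ?_)
  rw [pderiv_lin, ← EE_C_mul, QQ]
  congr 1
  ring

lemma EE_QQ_rec (U : Matrix V V ℝ) (A B : Finset V) {a : V} (ha : a ∈ A) :
    EE (QQ U A B) = ∑ b ∈ B, U b a * EE (QQ U (A.erase a) (B.erase b)) := by
  rw [← EE_pderiv_QQ U _ B (Finset.notMem_erase a A), ← stein, QQ, QQ,
    ← Finset.mul_prod_erase _ _ ha, mul_assoc]

lemma EE_QQ_empty {U : Matrix V V ℝ} (hU : U * Uᵀ = 1) {B : Finset V} (hB : B ≠ ∅) :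
    EE (QQ U ∅ B) = 0 := by
  obtain ⟨b, hb⟩ := Finset.nonempty_iff_ne_empty.2 hB
  have e : QQ U ∅ B = ∑ a, C (U b a) * (X a * QQ U ∅ (B.erase b)) := by
    rw [QQ, QQ, ← Finset.mul_prod_erase _ _ hb]
    conv_lhs => rw [lin, Finset.sum_mul]
    simp [mul_assoc]
  rw [e, map_sum]
  simp_rw [EE_C_mul, stein, EE_pderiv_QQ U ∅ _ (Finset.notMem_empty _), Finset.mul_sum]
  rw [Finset.sum_comm]
  refine Finset.sum_eq_zero (fun c hc => ?_)
  simp_rw [← mul_assoc]
  rw [← Finset.sum_mul]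
  have : ∑ a, U b a * U c a = 0 := by
    have := congrFun (congrFun hU b) c
    rw [Matrix.one_apply_ne (Finset.ne_of_mem_erase hc).symm] at this
    simpa [Matrix.mul_apply] using this
  rw [this, zero_mul]

/-- product weight with biases `w` -/
noncomputable def Pw (w : V → ℝ) (u : V → Bool) : ℝ := ∏ a, (1 + sg (u a) * w a) / 2

lemma sum_prod_bool (h : V → Bool → ℝ) :
    ∑ u : V → Bool, ∏ a, h a (u a) = ∏ a, (h a true + h a false) := by
  rw [← Fintype.piFinset_univ, ← Finset.prod_univ_sum (fun _ => Finset.univ) h]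
  simp

lemma sum_Pw_chi (w : V → ℝ) (A : Finset V) : ∑ u, Pw w u * chi A u = ∏ a ∈ A, w a := by
  have e : ∀ u, Pw w u * chi A u =
      ∏ a, ((1 + sg (u a) * w a) / 2 * (if a ∈ A then sg (u a) else 1)) := by
    intro u
    rw [Finset.prod_mul_distrib, Finset.prod_ite_mem, Finset.univ_inter]
    rfl
  simp_rw [e]
  rw [sum_prod_bool (fun a b => (1 + sg b * w a) / 2 * (if a ∈ A then sg b else 1)),
    ← Finset.univ_inter A, ← Finset.prod_ite_mem, Finset.univ_inter]
  refine Finset.prod_congr rfl (fun a _ => ?_)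
  split_ifs <;> simp <;> ring

lemma sum_Pw (w : V → ℝ) : ∑ u, Pw w u = 1 := by
  simpa [chi] using sum_Pw_chi w ∅

/-- truncation to `[-1, 1]` -/
noncomputable def clip (t : ℝ) : ℝ := max (-1) (min 1 t)

lemma clip_factor (b : Bool) (t : ℝ) :
    0 ≤ (1 + sg b * clip t) / 2 ∧ (1 + sg b * clip t) / 2 ≤ 1 := by
  have h1 : -1 ≤ clip t := le_max_left _ _
  have h2 : clip t ≤ 1 := max_le (by norm_num) (min_le_left _ _)
  cases b <;> simp <;> constructor <;> linarith

omit [DecidableEq V] in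
lemma Pw_clip_nonneg (w : V → ℝ) (u : V → Bool) : 0 ≤ Pw (fun a => clip (w a)) u :=
  Finset.prod_nonneg (fun _ _ => (clip_factor _ _).1)

omit [DecidableEq V] in
lemma Pw_clip_le (w : V → ℝ) (u : V → Bool) : Pw (fun a => clip (w a)) u ≤ 1 :=
  Finset.prod_le_one (fun _ _ => (clip_factor _ _).1) (fun _ _ => (clip_factor _ _).2)

lemma two_factor {p q t P Q T : ℝ} (hp : 0 ≤ p) (h1 : |q - p| ≤ t - p) (h2 : |Q - P| ≤ T - P)
    (h3 : |Q| ≤ T) : |q * Q - p * P| ≤ t * T - p * P := by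
  have e : q * Q - p * P = (q - p) * Q + p * (Q - P) := by ring
  rw [e]
  refine (abs_add_le _ _).trans ?_
  rw [abs_mul, abs_mul, abs_of_nonneg hp]
  have h4 : |q - p| * |Q| ≤ (t - p) * T :=
    mul_le_mul h1 h3 (abs_nonneg _) ((abs_nonneg _).trans h1)
  have h5 : p * |Q - P| ≤ p * (T - P) := mul_le_mul_of_nonneg_left h2 hp
  linarith

lemma abs_le_of_sub {P Q T : ℝ} (hP : 0 ≤ P) (h : |Q - P| ≤ T - P) : |Q| ≤ T := by
  have := abs_sub_abs_le_abs_sub Q P
  rw [abs_of_nonneg hP] at this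
  linarith

omit [Fintype V] in
lemma prod_diff (p q : V → ℝ) (hp : ∀ i, 0 ≤ p i) (s : Finset V) :
    |∏ i ∈ s, q i - ∏ i ∈ s, p i| ≤ ∏ i ∈ s, (p i + |q i - p i|) - ∏ i ∈ s, p i := by
  induction s using Finset.induction_on with
  | empty => simp
  | insert b s hb ih =>
    rw [Finset.prod_insert hb, Finset.prod_insert hb, Finset.prod_insert hb]
    exact two_factor (hp b) (by simp) ih (abs_le_of_sub (Finset.prod_nonneg (fun i _ => hp i)) ih)

/-- majorant weight -/
noncomputable def Tw (w : V → ℝ) (u : V → Bool) : ℝ :=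
  ∏ a, ((1 + sg (u a) * clip (w a)) / 2 +
    |(1 + sg (u a) * w a) / 2 - (1 + sg (u a) * clip (w a)) / 2|)

lemma Pw_diff (w : V → ℝ) (u : V → Bool) :
    |Pw w u - Pw (fun a => clip (w a)) u| ≤ Tw w u - Pw (fun a => clip (w a)) u :=
  prod_diff _ _ (fun _ => (clip_factor _ _).1) _

lemma sum_Tw (w : V → ℝ) : ∑ u, Tw w u = ∏ a, (1 + |w a - clip (w a)|) := by
  unfold Tw
  rw [sum_prod_bool (fun a b => (1 + sg b * clip (w a)) / 2 +
    |(1 + sg b * w a) / 2 - (1 + sg b * clip (w a)) / 2|)]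
  refine Finset.prod_congr rfl (fun a _ => ?_)
  have e1 : (1 + sg true * w a) / 2 - (1 + sg true * clip (w a)) / 2 =
      -((w a - clip (w a)) / 2) := by simp; ring
  have e2 : (1 + sg false * w a) / 2 - (1 + sg false * clip (w a)) / 2 =
      (w a - clip (w a)) / 2 := by simp; ring
  rw [e1, e2, abs_neg, abs_div, abs_two]
  simp
  ring

lemma tau_sq (t : ℝ) {r : ℕ} (hr : 1 ≤ r) : (1 + |t - clip t|) ^ 2 ≤ 1 + t ^ (2 * r) := by
  have h0 : 0 ≤ t ^ (2 * r) := by rw [pow_mul]; positivity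
  have key : 1 ≤ t ^ 2 → t ^ 2 ≤ 1 + t ^ (2 * r) := by
    intro h
    have : (t ^ 2) ^ 1 ≤ (t ^ 2) ^ r := pow_le_pow_right₀ h hr
    rw [pow_mul]
    rw [pow_one] at this
    linarith
  rcases le_total t (-1) with h | h
  · have : clip t = -1 := by
      rw [clip, min_eq_right (by linarith), max_eq_left h]
    rw [this, abs_of_nonpos (by linarith)]
    have := key (by nlinarith)
    nlinarith
  rcases le_total t 1 with h' | h'
  · have : clip t = t := by rw [clip, min_eq_right h', max_eq_right h]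
    rw [this]
    simpa using h0
  · have : clip t = 1 := by rw [clip, min_eq_left h', max_eq_right (by norm_num)]
    rw [this, abs_of_nonneg (by linarith)]
    have := key (by nlinarith)
    nlinarith

omit [DecidableEq V] in
lemma prod_tau_sq (w : V → ℝ) {r : ℕ} (hr : 1 ≤ r) :
    (∏ a, (1 + |w a - clip (w a)|)) ^ 2 ≤ ∏ a, (1 + w a ^ (2 * r)) := by
  rw [← Finset.prod_pow]
  exact Finset.prod_le_prod (fun _ _ => sq_nonneg _) (fun a _ => tau_sq _ hr)

lemma pointwise (w z : V → ℝ) {r : ℕ} (hr : 1 ≤ r) :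
    ∑ u, ∑ v, |Pw (fun a => clip (w a)) u * Pw (fun a => clip (z a)) v - Pw w u * Pw z v| ≤
      ((∏ a, (1 + w a ^ (2 * r))) + ∏ a, (1 + z a ^ (2 * r))) / 2 - 1 := by
  have h1 : ∑ u, ∑ v, |Pw (fun a => clip (w a)) u * Pw (fun a => clip (z a)) v - Pw w u * Pw z v| ≤
      ∑ u, ∑ v, (Tw w u * Tw z v - Pw (fun a => clip (w a)) u * Pw (fun a => clip (z a)) v) := by
    refine Finset.sum_le_sum (fun u _ => Finset.sum_le_sum (fun v _ => ?_))
    rw [abs_sub_comm]
    exact two_factor (Pw_clip_nonneg _ _) (Pw_diff _ _) (Pw_diff _ _)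
      (abs_le_of_sub (Pw_clip_nonneg _ _) (Pw_diff _ _))
  refine h1.trans ?_
  simp_rw [Finset.sum_sub_distrib, ← Finset.mul_sum, ← Finset.sum_mul, sum_Pw, sum_Tw]
  have h2 := prod_tau_sq w hr
  have h3 := prod_tau_sq z hr
  nlinarith [sq_nonneg (∏ a, (1 + |w a - clip (w a)|) - ∏ a, (1 + |z a - clip (z a)|))]

/-- polynomial form of the weight -/
noncomputable def PP (L : V → MvPolynomial V ℝ) (u : V → Bool) : MvPolynomial V ℝ :=
  ∏ a, C (1 / 2) * (1 + C (sg (u a)) * L a)

omit [DecidableEq V] in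
lemma eval_PP (L : V → MvPolynomial V ℝ) (u : V → Bool) (x : V → ℝ) :
    eval x (PP L u) = Pw (fun a => eval x (L a)) u := by
  simp only [PP, Pw, map_prod, map_mul, eval_C, map_add, map_one]
  exact Finset.prod_congr rfl (fun _ _ => by ring)

omit [DecidableEq V] in
lemma integrable_raw (U : Matrix V V ℝ) (ε : ℝ) (u v : V → Bool) :
    Integrable (fun x : V → ℝ => Pw (fun a => ε * x a) u * Pw (fun b => ε * (U *ᵥ x) b) v)
      (gam V) := by
  have := integrable_poly (PP (fun a => C ε * X a) u * PP (fun b => C ε * lin U b) v)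
  simpa [eval_PP, eval_lin] using this

omit [DecidableEq V] in
lemma integrable_clip (U : Matrix V V ℝ) (ε : ℝ) (u v : V → Bool) :
    Integrable (fun x : V → ℝ => Pw (fun a => clip (ε * x a)) u *
      Pw (fun b => clip (ε * (U *ᵥ x) b)) v) (gam V) := by
  refine Integrable.of_bound (C := 1) (Continuous.aestronglyMeasurable ?_)
    (Filter.Eventually.of_forall fun x => ?_)
  · unfold Pw clip
    fun_prop
  · rw [Real.norm_eq_abs, abs_of_nonneg (mul_nonneg (Pw_clip_nonneg _ _) (Pw_clip_nonneg _ _))]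
    exact mul_le_one₀ (Pw_clip_le _ _) (Pw_clip_nonneg _ _) (Pw_clip_le _ _)

omit [DecidableEq V] in
lemma integrable_G (ε : ℝ) (r : ℕ) :
    Integrable (fun x : V → ℝ => ∏ a, (1 + (ε * x a) ^ (2 * r))) (gam V) := by
  have := integrable_poly (∏ a : V, (1 + (C ε * X a) ^ (2 * r)) : MvPolynomial V ℝ)
  simpa using this

omit [DecidableEq V] in
lemma integral_G (ε : ℝ) (r : ℕ) :
    ∫ x, ∏ a, (1 + (ε * x a) ^ (2 * r)) ∂gam V ≤ (1 + (2 * r * ε ^ 2) ^ r) ^ Fintype.card V := by
  rw [gam, integral_fintype_prod_eq_pow (fun t : ℝ => 1 + (ε * t) ^ (2 * r))]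
  have e : ∫ t, (1 + (ε * t) ^ (2 * r)) ∂gaussianReal 0 1 = 1 + (ε ^ 2) ^ r * gm (2 * r) := by
    simp_rw [mul_pow]
    rw [integral_add (integrable_const _) ((integrable_pow _).const_mul _), integral_const_mul,
      pow_mul]
    simp [gm]
  rw [e]
  have h := gm_even r
  refine pow_le_pow_left₀ (by have := h.1; positivity) ?_ _
  rw [mul_pow, mul_comm]
  have := mul_le_mul_of_nonneg_right h.2 (by positivity : 0 ≤ (ε ^ 2) ^ r)
  linarith

lemma sum_sum_integral (F : (V → Bool) → (V → Bool) → (V → ℝ) → ℝ)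
    (hF : ∀ u v, Integrable (F u v) (gam V)) :
    ∑ u, ∑ v, ∫ x, F u v x ∂gam V = ∫ x, ∑ u, ∑ v, F u v x ∂gam V := by
  rw [integral_finsetSum _ (fun u _ => integrable_finsetSum _ (fun v _ => hF u v))]
  exact Finset.sum_congr rfl (fun u _ => (integral_finsetSum _ (fun v _ => hF u v)).symm)

lemma mom_raw (U : Matrix V V ℝ) (ε : ℝ) (A B : Finset V) :
    mom (fun u v => ∫ x, Pw (fun a => ε * x a) u * Pw (fun b => ε * (U *ᵥ x) b) v ∂gam V) A B =
      ε ^ (A.card + B.card) * EE (QQ U A B) := by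
  unfold mom
  simp_rw [← integral_mul_const]
  rw [sum_sum_integral _ (fun u v => (integrable_raw U ε u v).mul_const _), EE_apply,
    ← integral_const_mul]
  congr 1
  funext x
  have e : ∀ u v, Pw (fun a => ε * x a) u * Pw (fun b => ε * (U *ᵥ x) b) v * (chi A u * chi B v) =
      (Pw (fun a => ε * x a) u * chi A u) * (Pw (fun b => ε * (U *ᵥ x) b) v * chi B v) := by
    intro u v; ring
  simp_rw [e, ← Finset.mul_sum, ← Finset.sum_mul, sum_Pw_chi]
  simp only [QQ, map_mul, map_prod, eval_X, eval_lin, Finset.prod_mul_distrib, Finset.prod_const]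
  ring

end Ker

open Ker in
/-- PART K (Gaussian kernel). -/
theorem exists_kernel {V : Type} [Fintype V] [DecidableEq V] (U : Matrix V V ℝ)
    (hU : U * Uᵀ = 1) (ε : ℝ) (r : ℕ) (hr : 1 ≤ r) :
    ∃ κ κ' : (V → Bool) → (V → Bool) → ℝ, (∀ u v, 0 ≤ κ u v) ∧ (∑ u, ∑ v, κ u v = 1) ∧
      (∑ u, ∑ v, |κ u v - κ' u v| ≤ (1 + (2 * r * ε ^ 2) ^ r) ^ (Fintype.card V) - 1) ∧
      mom κ' ∅ ∅ = 1 ∧ (∀ B, B ≠ ∅ → mom κ' ∅ B = 0) ∧
      ∀ A B a, a ∈ A → mom κ' A B = ε ^ 2 * ∑ b ∈ B, U b a * mom κ' (A.erase a) (B.erase b) := by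
  refine ⟨fun u v => ∫ x, Pw (fun a => clip (ε * x a)) u *
      Pw (fun b => clip (ε * (U *ᵥ x) b)) v ∂gam V,
    fun u v => ∫ x, Pw (fun a => ε * x a) u * Pw (fun b => ε * (U *ᵥ x) b) v ∂gam V,
    fun u v => integral_nonneg (fun x => mul_nonneg (Pw_clip_nonneg _ _) (Pw_clip_nonneg _ _)),
    ?_, ?_, ?_, ?_, ?_⟩
  · rw [sum_sum_integral _ (integrable_clip U ε)]
    simp_rw [← Finset.mul_sum, ← Finset.sum_mul, sum_Pw]
    simp
  · have hI : ∀ u v, Integrable (fun x : V → ℝ => |Pw (fun a => clip (ε * x a)) u *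
        Pw (fun b => clip (ε * (U *ᵥ x) b)) v -
        Pw (fun a => ε * x a) u * Pw (fun b => ε * (U *ᵥ x) b) v|) (gam V) :=
      fun u v => ((integrable_clip U ε u v).sub (integrable_raw U ε u v)).abs
    have hG := integrable_G (V := V) ε r
    have hG' : Integrable (fun x : V → ℝ => ∏ a, (1 + (ε * (U *ᵥ x) a) ^ (2 * r))) (gam V) :=
      (mulVec_preserving hU).integrable_comp_of_integrable hG
    have hG2 : Integrable (fun x : V → ℝ => ((∏ a, (1 + (ε * x a) ^ (2 * r))) +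
        ∏ a, (1 + (ε * (U *ᵥ x) a) ^ (2 * r))) / 2) (gam V) := (hG.add hG').div_const 2
    have hE := (mulVec_preserving hU).map_eq
    have hJ : ∫ x, ∏ a, (1 + (ε * (U *ᵥ x) a) ^ (2 * r)) ∂gam V =
        ∫ x, ∏ a, (1 + (ε * x a) ^ (2 * r)) ∂gam V := by
      conv_rhs => rw [← hE]
      rw [integral_map (mulVec_preserving hU).measurable.aemeasurable (by
        rw [hE]; exact hG.aestronglyMeasurable)]
    calc _ ≤ ∑ u, ∑ v, ∫ x, |Pw (fun a => clip (ε * x a)) u *
            Pw (fun b => clip (ε * (U *ᵥ x) b)) v -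
            Pw (fun a => ε * x a) u * Pw (fun b => ε * (U *ᵥ x) b) v| ∂gam V := by
          refine Finset.sum_le_sum (fun u _ => Finset.sum_le_sum (fun v _ => ?_))
          rw [← integral_sub (integrable_clip U ε u v) (integrable_raw U ε u v)]
          exact abs_integral_le_integral_abs
      _ ≤ ∫ x, (((∏ a, (1 + (ε * x a) ^ (2 * r))) + ∏ a, (1 + (ε * (U *ᵥ x) a) ^ (2 * r))) / 2 - 1)
            ∂gam V := by
          rw [sum_sum_integral _ hI]
          exact integral_mono (integrable_finsetSum _ (fun u _ => integrable_finsetSum _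
            (fun v _ => hI u v))) (hG2.sub (integrable_const _))
            (fun x => pointwise _ _ hr)
      _ ≤ _ := by
          rw [integral_sub hG2 (integrable_const _), integral_div,
            integral_add hG hG', hJ]
          have := integral_G (V := V) ε r
          simp only [integral_const, probReal_univ, smul_eq_mul, mul_one]
          linarith
  · rw [mom_raw]
    simp [QQ, EE_apply]
  · intro B hB
    rw [mom_raw, EE_QQ_empty hU hB, mul_zero]
  · intro A B a ha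
    simp_rw [mom_raw]
    rw [EE_QQ_rec U A B ha, Finset.mul_sum, Finset.mul_sum]
    refine Finset.sum_congr rfl (fun b hb => ?_)
    have h1 := Finset.card_erase_add_one ha
    have h2 := Finset.card_erase_add_one hb
    rw [← h1, ← h2]
    ring

end Vale.Agent.P362
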