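import Vale.Agent.P362.Sg

/-! Gaussian moments, Stein's identity on polynomials and orthogonal invariance. -/

namespace Vale.Agent.P362.Ker

open MeasureTheory ProbabilityTheory MvPolynomial Matrix

/-- moments of the standard Gaussian -/
noncomputable def gm (n : ℕ) : ℝ := ∫ x, x ^ n ∂(gaussianReal 0 1)

lemma integrable_pow (n : ℕ) : Integrable (fun x : ℝ => x ^ n) (gaussianReal 0 1) :=
  integrable_pow_of_mem_interior_integrableExpSet (X := fun x : ℝ => x) (by simp) n

noncomputable def gg (t : ℝ) : ℝ := Real.exp (t ^ 2 / 2)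

lemma gg_contDiff : ContDiff ℝ ⊤ gg := by unfold gg; fun_prop

lemma gg_diff (n : ℕ) : Differentiable ℝ (iteratedDeriv n gg) :=
  gg_contDiff.differentiable_iteratedDeriv n (by simp)

lemma gg_deriv : deriv gg = fun t => t * gg t := by
  funext t
  have : HasDerivAt gg (Real.exp (t ^ 2 / 2) * (((2 : ℕ) * t ^ (2 - 1)) / 2)) t :=
    ((hasDerivAt_pow 2 t).div_const 2).exp
  rw [this.deriv, gg]
  simp
  ring

lemma gg_rec (n : ℕ) : iteratedDeriv (n + 2) gg =
    fun t => t * iteratedDeriv (n + 1) gg t + (n + 1) * iteratedDeriv n gg t := by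
  induction n with
  | zero =>
    funext t
    have h0 := gg_diff 0
    rw [iteratedDeriv_zero] at h0
    rw [iteratedDeriv_succ, iteratedDeriv_one, iteratedDeriv_zero]
    conv_lhs => rw [gg_deriv]
    rw [((hasDerivAt_id' t).fun_mul (h0 t).hasDerivAt).deriv]
    simp
    ring
  | succ n ih =>
    funext t
    rw [iteratedDeriv_succ (n := n + 2)]
    conv_lhs => rw [ih]
    rw [(((hasDerivAt_id' t).fun_mul (gg_diff (n + 1) t).hasDerivAt).fun_add
      ((gg_diff n t).hasDerivAt.const_mul _)).deriv, ← iteratedDeriv_succ, ← iteratedDeriv_succ]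
    push_cast
    ring

lemma gm_eq (n : ℕ) : gm n = iteratedDeriv n gg 0 := by
  have h := iteratedDeriv_mgf_zero (X := fun x : ℝ => x) (μ := gaussianReal 0 1) (by simp) n
  rw [mgf_fun_id_gaussianReal] at h
  have e : (fun t : ℝ => Real.exp (0 * t + ((1 : NNReal) : ℝ) * t ^ 2 / 2)) = gg := by
    funext t; simp [gg]
  rw [e] at h
  rw [h]
  rfl

lemma gm_zero : gm 0 = 1 := by simp [gm]

lemma gm_succ (n : ℕ) : gm (n + 1) = n * gm (n - 1) := by
  cases n with
  | zero => simp [gm]
  | succ n => rw [gm_eq, gm_eq, gg_rec]; simp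

lemma gm_even (r : ℕ) : 0 ≤ gm (2 * r) ∧ gm (2 * r) ≤ (2 * r : ℝ) ^ r := by
  induction r with
  | zero => simp [gm_zero]
  | succ r ih =>
    have e : gm (2 * (r + 1)) = (2 * r + 1 : ℝ) * gm (2 * r) := by
      rw [show 2 * (r + 1) = (2 * r + 1) + 1 by ring, gm_succ]
      push_cast
      rfl
    rw [e]
    refine ⟨by have := ih.1; positivity, ?_⟩
    have h1 : (2 * r : ℝ) ^ r ≤ (2 * ((r + 1 : ℕ) : ℝ)) ^ r :=
      pow_le_pow_left₀ (by positivity) (by push_cast; linarith) r
    rw [pow_succ']
    exact mul_le_mul (by push_cast; linarith) (ih.2.trans h1) ih.1 (by positivity)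

variable {V : Type} [Fintype V]

/-- the standard Gaussian measure on `V → ℝ` -/
noncomputable def gam (V : Type) [Fintype V] : Measure (V → ℝ) :=
  Measure.pi fun _ => gaussianReal 0 1

instance : IsProbabilityMeasure (gam V) := by unfold gam; infer_instance

lemma eval_mono (s : V →₀ ℕ) (c : ℝ) (x : V → ℝ) :
    eval x (monomial s c) = c * ∏ i, x i ^ s i := by
  rw [eval_monomial, Finsupp.prod_fintype _ _ (by simp)]

lemma integrable_poly (P : MvPolynomial V ℝ) : Integrable (fun x => eval x P) (gam V) := by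
  induction P using MvPolynomial.induction_on' with
  | monomial s c =>
    simp_rw [eval_mono]
    exact (Integrable.fintype_prod (f := fun i (t : ℝ) => t ^ s i)
      (fun i => integrable_pow _)).const_mul c
  | add p q hp hq => simp_rw [map_add]; exact hp.add hq

/-- Gaussian expectation of a polynomial -/
noncomputable def EE : MvPolynomial V ℝ →ₗ[ℝ] ℝ where
  toFun P := ∫ x, eval x P ∂gam V
  map_add' p q := by
    simp_rw [map_add]; exact integral_add (integrable_poly p) (integrable_poly q)
  map_smul' c p := by simp [integral_const_mul]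

lemma EE_apply (P : MvPolynomial V ℝ) : EE P = ∫ x, eval x P ∂gam V := rfl

lemma EE_mono (s : V →₀ ℕ) (c : ℝ) : EE (monomial s c) = c * ∏ i, gm (s i) := by
  rw [EE_apply]
  simp_rw [eval_mono]
  rw [integral_const_mul, gam, integral_fintype_prod_eq_prod (fun i (t : ℝ) => t ^ s i)]
  rfl

/-- Stein's identity -/
lemma stein (a : V) (P : MvPolynomial V ℝ) : EE (X a * P) = EE (pderiv a P) := by
  classical
  induction P using MvPolynomial.induction_on' with
  | monomial s c =>
    rw [pderiv_monomial, X, monomial_mul, EE_mono, EE_mono,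
      ← Finset.mul_prod_erase _ _ (Finset.mem_univ a),
      ← Finset.mul_prod_erase _ _ (Finset.mem_univ a)]
    have e1 : ∏ i ∈ Finset.univ.erase a, gm ((Finsupp.single a 1 + s : V →₀ ℕ) i) =
        ∏ i ∈ Finset.univ.erase a, gm (s i) := Finset.prod_congr rfl (fun i hi => by
      simp [Finsupp.single_eq_of_ne (Finset.ne_of_mem_erase hi)])
    have e2 : ∏ i ∈ Finset.univ.erase a, gm ((s - Finsupp.single a 1 : V →₀ ℕ) i) =
        ∏ i ∈ Finset.univ.erase a, gm (s i) := Finset.prod_congr rfl (fun i hi => by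
      simp [Finsupp.single_eq_of_ne (Finset.ne_of_mem_erase hi)])
    rw [e1, e2]
    simp only [Finsupp.coe_add, Pi.add_apply, Finsupp.single_eq_same, Finsupp.coe_tsub,
      Pi.sub_apply]
    rw [add_comm 1, gm_succ]
    ring
  | add p q hp hq => rw [mul_add, map_add, map_add, map_add, hp, hq]

variable [DecidableEq V]

lemma mulVec_preserving {U : Matrix V V ℝ} (hU : U * Uᵀ = 1) :
    MeasurePreserving (fun x : V → ℝ => U *ᵥ x) (gam V) (gam V) := by
  have hU' : Uᵀ * U = 1 := mul_eq_one_comm.1 hU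
  let f0 : EuclideanSpace ℝ V →ₗᵢ[ℝ] EuclideanSpace ℝ V :=
    (Matrix.toEuclideanLin U).isometryOfInner (fun x y => by
      simp only [EuclideanSpace.inner_eq_star_dotProduct, Matrix.toLpLin_apply, star_trivial]
      rw [Matrix.dotProduct_mulVec, Matrix.vecMul_mulVec, hU', Matrix.vecMul_one])
  let f := f0.toLinearIsometryEquiv rfl
  have hm : Measurable (fun x : V → ℝ => U *ᵥ x) := by fun_prop
  refine ⟨hm, (MeasurableEquiv.toLp 2 (V → ℝ)).map_measurableEquiv_injective ?_⟩
  have e : (MeasurableEquiv.toLp 2 (V → ℝ)) ∘ (fun x : V → ℝ => U *ᵥ x) =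
      f ∘ (WithLp.toLp 2) := by
    funext x; rfl
  rw [Measure.map_map (MeasurableEquiv.measurable _) hm, e,
    ← Measure.map_map f.continuous.measurable (by fun_prop), gam, map_pi_eq_stdGaussian,
    stdGaussian_map]
  exact map_pi_eq_stdGaussian.symm

end Vale.Agent.P362.Ker
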