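import Vale.Agent.P362.UpperA

/-! The upper bound `D = O(Q^4)`. -/

namespace Vale.Agent.P362

open Finset

namespace Up

variable {n : ℕ}

/-- Flip one bit. -/
def fl (x : Fin n → Bool) (i : Fin n) : Fin n → Bool := Function.update x i (!x i)

lemma fl_same (x : Fin n → Bool) (i : Fin n) : fl x i i = !x i := by simp [fl]

lemma fl_ne (x : Fin n → Bool) {i j : Fin n} (h : j ≠ i) : fl x i j = x j := by simp [fl, h]

lemma fl_fl (x : Fin n → Bool) (i : Fin n) : fl (fl x i) i = x := by
  funext j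
  by_cases h : j = i
  · subst h; simp [fl]
  · rw [fl_ne _ h, fl_ne _ h]

lemma fl_comm (x : Fin n → Bool) (i j : Fin n) : fl (fl x i) j = fl (fl x j) i := by
  by_cases h : i = j
  · rw [h]
  funext k
  by_cases h1 : k = i
  · subst h1; rw [fl_ne _ h, fl_same, fl_same, fl_ne _ h]
  by_cases h2 : k = j
  · subst h2; rw [fl_same, fl_ne _ h1, fl_ne _ h1, fl_same]
  rw [fl_ne _ h2, fl_ne _ h1, fl_ne _ h1, fl_ne _ h2]

lemma sum_fl (g : (Fin n → Bool) → ℝ) (i : Fin n) : ∑ x, g (fl x i) = ∑ x, g x :=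
  Function.Bijective.sum_comp (Function.Involutive.bijective fun x => fl_fl x i) g

lemma sg_not (b : Bool) : sg (!b) = -sg b := by cases b <;> simp

lemma chi_fl (A : Finset (Fin n)) (x : Fin n → Bool) (i : Fin n) :
    chi A (fl x i) = if i ∈ A then -chi A x else chi A x := by
  unfold chi
  split_ifs with h
  · rw [← mul_prod_erase _ _ h, ← mul_prod_erase _ _ h, fl_same, sg_not, neg_mul]
    congr 2
    exact prod_congr rfl fun j hj => by rw [fl_ne _ (ne_of_mem_erase hj)]
  · exact prod_congr rfl fun j hj => by rw [fl_ne _ (by rintro rfl; exact h hj)]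

lemma chi_sq (A : Finset (Fin n)) (x : Fin n → Bool) : chi A x * chi A x = 1 := by
  unfold chi
  rw [← prod_mul_distrib]
  simp [sg_mul_self]

lemma abs_chi (A : Finset (Fin n)) (x : Fin n → Bool) : |chi A x| = 1 := by
  unfold chi
  rw [abs_prod]
  simp [abs_sg]

/-- Signed adjacency operator. -/
noncomputable def adj (S : Finset (Fin n)) (v : (Fin n → Bool) → ℝ) (x : Fin n → Bool) : ℝ :=
  ∑ i ∈ S, chi (Iio i) x * v (fl x i)

lemma adj_sq (S : Finset (Fin n)) (v : (Fin n → Bool) → ℝ) :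
    ∑ x, adj S v x ^ 2 = S.card * ∑ x, v x ^ 2 := by
  have cross : ∀ i j : Fin n, i < j →
      ∑ x, chi (Iio i) x * v (fl x i) * (chi (Iio j) x * v (fl x j)) = 0 := by
    intro i j hij
    have h1 := sum_fl (fun x => chi (Iio i) x * v (fl x i) * (chi (Iio j) x * v (fl x j))) i
    have h2 := sum_fl (fun x => chi (Iio i) (fl x i) * v (fl (fl x i) i) *
      (chi (Iio j) (fl x i) * v (fl (fl x i) j))) j
    simp only [fl_fl, chi_fl, fl_comm _ i j, mem_Iio, lt_irrefl, hij, hij.not_gt, if_true,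
      if_false] at h1 h2
    have h3 : ∀ x, fl (fl (fl x j) j) i = fl x i := fun x => by rw [fl_fl]
    have h4 : ∑ x, chi (Iio i) x * v (fl x j) * (-chi (Iio j) x * v (fl x i)) =
        -∑ x, chi (Iio i) x * v (fl x i) * (chi (Iio j) x * v (fl x j)) := by
      rw [← sum_neg_distrib]; exact sum_congr rfl fun x _ => by ring
    linarith
  simp only [adj, sq, sum_mul_sum]
  rw [sum_comm]
  simp only [sum_comm (s := (univ : Finset (Fin n → Bool)))]
  rw [← nsmul_eq_mul, ← sum_const]
  refine sum_congr rfl fun i hi => ?_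
  rw [sum_eq_single i]
  · rw [← sum_fl (fun x => v x * v x) i]
    refine sum_congr rfl fun x _ => ?_
    linear_combination v (fl x i) * v (fl x i) * chi_sq (Iio i) x
  · intro j _ hj
    rcases lt_or_gt_of_ne hj with h | h
    · rw [← cross j i h]; exact sum_congr rfl fun x _ => mul_comm _ _
    · exact cross i j h
  · intro h; exact absurd hi h

lemma exists_ker (S : Finset (Fin n)) (H K : Finset (Fin n → Bool)) (h : K.card < H.card) :
    ∃ v : (Fin n → Bool) → ℝ, v ≠ 0 ∧ (∀ x, x ∉ H → v x = 0) ∧ ∀ x ∈ K, adj S v x = 0 := by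
  let L : ((Fin n → Bool) → ℝ) →ₗ[ℝ] ((Hᶜ : Finset _) → ℝ) × (K → ℝ) :=
    { toFun := fun v => (fun x => v x, fun x => adj S v x)
      map_add' := fun v w => by
        ext x <;> simp [adj, mul_add, sum_add_distrib]
      map_smul' := fun c v => by
        ext x <;> simp [adj, mul_sum, mul_left_comm] }
  have h1 : Module.finrank ℝ (((Hᶜ : Finset _) → ℝ) × (K → ℝ)) <
      Module.finrank ℝ ((Fin n → Bool) → ℝ) := by
    rw [Module.finrank_prod]
    simp only [Module.finrank_fintype_fun_eq_card, Fintype.card_coe]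
    have := card_add_card_compl H
    omega
  obtain ⟨v, hv, hv0⟩ := (Submodule.ne_bot_iff _).1 (LinearMap.ker_ne_bot_of_finrank_lt (f := L) h1)
  rw [LinearMap.mem_ker] at hv
  exact ⟨v, hv0, fun x hx => congrFun (congrArg Prod.fst hv) ⟨x, mem_compl.2 hx⟩,
    fun x hx => congrFun (congrArg Prod.snd hv) ⟨x, hx⟩⟩

/-- The subcube through `z` with free coordinates `S`. -/
def cube (S : Finset (Fin n)) (z : Fin n → Bool) : Finset (Fin n → Bool) :=
  univ.filter fun x => ∀ i, i ∉ S → x i = z i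

lemma mem_cube {S : Finset (Fin n)} {z x : Fin n → Bool} :
    x ∈ cube S z ↔ ∀ i, i ∉ S → x i = z i := by simp [cube]

lemma fl_mem {S : Finset (Fin n)} {z x : Fin n → Bool} {i : Fin n} (hi : i ∈ S) :
    fl x i ∈ cube S z ↔ x ∈ cube S z := by
  simp only [mem_cube]
  refine forall₂_congr fun j hj => ?_
  rw [fl_ne _ (by rintro rfl; exact hj hi)]

/-- Top coefficient of `f` on a subcube. -/
noncomputable def top (f : (Fin n → Bool) → Bool) (S : Finset (Fin n)) (z : Fin n → Bool) : ℝ :=
  ∑ x ∈ cube S z, sg (f x) * chi S x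

lemma pow_pos_of_ne {a : ℝ} (h : a ≠ 0) : 0 < a ^ 2 := by positivity

lemma huang {f : (Fin n → Bool) → Bool} {T : ℕ} {p : (Fin n → Bool) → Fin n → ℝ}
    (hp0 : ∀ x i, 0 ≤ p x i) (hp1 : ∀ x, ∑ i, p x i ≤ T)
    (hp : ∀ x y, f x ≠ f y → ∀ u v : ℝ, 0 ≤ u → 0 ≤ v →
      u * v / 20 ≤ ∑ i ∈ univ.filter (fun i => x i ≠ y i), (u ^ 2 * p x i + v ^ 2 * p y i))
    (S : Finset (Fin n)) (z : Fin n → Bool) (h : top f S z ≠ 0) : S.card ≤ (40 * T + 1) ^ 2 := by
  have hg : ∀ x, sg (f x) * chi S x = 1 ∨ sg (f x) * chi S x = -1 := fun x =>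
    mul_self_eq_one_iff.1 (by linear_combination chi S x * chi S x * sg_mul_self (f x) + chi_sq S x)
  obtain ⟨e, he⟩ : ∃ e : ℝ, ((cube S z).filter fun x => ¬ sg (f x) * chi S x = e).card <
      ((cube S z).filter fun x => sg (f x) * chi S x = e).card := by
    by_contra hc
    push Not at hc
    have h1 := hc 1
    have h2 := hc (-1)
    have e1 : ((cube S z).filter fun x => ¬ sg (f x) * chi S x = 1) =
        (cube S z).filter fun x => sg (f x) * chi S x = -1 :=
      filter_congr fun x _ => by rcases hg x with h | h <;> rw [h] <;> norm_num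
    have e2 : ((cube S z).filter fun x => ¬ sg (f x) * chi S x = -1) =
        (cube S z).filter fun x => sg (f x) * chi S x = 1 :=
      filter_congr fun x _ => by rcases hg x with h | h <;> rw [h] <;> norm_num
    rw [e1] at h1
    rw [e2] at h2
    apply h
    unfold top
    rw [← sum_filter_add_sum_filter_not _ (fun x => sg (f x) * chi S x = 1), e1,
      sum_congr rfl fun x hx => (mem_filter.1 hx).2, sum_congr rfl fun x hx => (mem_filter.1 hx).2]
    simp [le_antisymm h1 h2]
  obtain ⟨v, hv0, hv1, hv2⟩ := exists_ker S _ _ he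
  have hw : ∀ x, adj S v x ≠ 0 → sg (f x) * chi S x = e := by
    intro x hx
    by_contra hc
    by_cases hC : x ∈ cube S z
    · exact hx (hv2 x (mem_filter.2 ⟨hC, hc⟩))
    · refine hx (sum_eq_zero fun i hi => ?_)
      rw [hv1 _ fun h => hC ((fl_mem hi).1 (mem_filter.1 h).1), mul_zero]
  set m : ℝ := 40 * T + 1 with hm
  have hm0 : 0 ≤ m := by positivity
  have term : ∀ x, ∀ i ∈ S, m * (adj S v x * (chi (Iio i) x * v (fl x i))) / 20 ≤
      adj S v x ^ 2 * p x i + m ^ 2 * (v (fl x i) ^ 2 * p (fl x i) i) := by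
    intro x i hi
    have a1 := hp0 x i
    have a2 := hp0 (fl x i) i
    by_cases h1 : adj S v x = 0
    · rw [h1, zero_mul, mul_zero, zero_div]; positivity
    by_cases h2 : v (fl x i) = 0
    · rw [h2, mul_zero, mul_zero, mul_zero, zero_div]; positivity
    have h3 := hw x h1
    have h4 : sg (f (fl x i)) * chi S (fl x i) = e := by
      by_contra hc
      exact h2 (hv1 _ fun h => hc (mem_filter.1 h).2)
    rw [chi_fl, if_pos hi] at h4
    have h5 : f x ≠ f (fl x i) := by
      intro h5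
      rw [← h5] at h4
      rcases hg x with h6 | h6 <;> linarith
    have h6 := hp x _ h5 |adj S v x| (m * |v (fl x i)|) (abs_nonneg _) (by positivity)
    have h7 : (univ.filter fun j => x j ≠ fl x i j) = {i} := by
      ext j
      simp only [mem_filter, mem_univ, true_and, mem_singleton]
      by_cases h8 : j = i
      · subst h8; simp [fl_same]
      · simp [fl_ne _ h8, h8]
    rw [h7, sum_singleton, mul_pow, sq_abs, sq_abs] at h6
    have h9 : adj S v x * (chi (Iio i) x * v (fl x i)) ≤ |adj S v x| * |v (fl x i)| := by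
      refine (le_abs_self _).trans (le_of_eq ?_)
      rw [abs_mul, abs_mul, abs_chi, one_mul]
    have := mul_le_mul_of_nonneg_left h9 hm0
    nlinarith
  have hs := sum_le_sum fun x (_ : x ∈ univ) => sum_le_sum (term x)
  have e1 : ∑ x, ∑ i ∈ S, m * (adj S v x * (chi (Iio i) x * v (fl x i))) / 20 =
      m * (∑ x, adj S v x ^ 2) / 20 := by
    simp only [← sum_div, ← mul_sum, sq]
    rfl
  have hS : ∀ x, ∑ i ∈ S, p x i ≤ T := fun x =>
    (sum_le_sum_of_subset_of_nonneg (subset_univ S) fun i _ _ => hp0 x i).trans (hp1 x)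
  have e2 : ∑ x, ∑ i ∈ S, (adj S v x ^ 2 * p x i + m ^ 2 * (v (fl x i) ^ 2 * p (fl x i) i)) ≤
      T * ∑ x, adj S v x ^ 2 + m ^ 2 * (T * ∑ x, v x ^ 2) := by
    simp only [sum_add_distrib, ← mul_sum]
    refine add_le_add ?_ (mul_le_mul_of_nonneg_left ?_ (sq_nonneg _))
    · rw [mul_sum]
      exact sum_le_sum fun x _ => by
        rw [mul_comm (T : ℝ)]; exact mul_le_mul_of_nonneg_left (hS x) (sq_nonneg _)
    · rw [sum_comm]
      rw [sum_congr rfl fun i _ => sum_fl (fun x => v x ^ 2 * p x i) i, sum_comm, mul_sum]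
      exact sum_le_sum fun x _ => by
        rw [mul_comm (T : ℝ), ← mul_sum]; exact mul_le_mul_of_nonneg_left (hS x) (sq_nonneg _)
  rw [e1] at hs
  have h1 := hs.trans e2
  rw [adj_sq] at h1
  have hN : 0 < ∑ x, v x ^ 2 := by
    obtain ⟨x, hx⟩ := Function.ne_iff.1 hv0
    exact sum_pos' (fun _ _ => sq_nonneg _) ⟨x, mem_univ _, pow_pos_of_ne hx⟩
  have hT : (0 : ℝ) ≤ T := Nat.cast_nonneg _
  have h2 : ((T : ℝ) + 1 / 20) * (∑ x, v x ^ 2) * S.card ≤
      ((T : ℝ) + 1 / 20) * (∑ x, v x ^ 2) * m ^ 2 := by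
    have : 0 ≤ m ^ 2 * ∑ x, v x ^ 2 := by positivity
    rw [hm] at h1 this ⊢
    nlinarith
  have h3 := le_of_mul_le_mul_left h2 (by positivity)
  rw [hm] at h3
  exact_mod_cast h3

lemma top_insert (f : (Fin n → Bool) → Bool) {S : Finset (Fin n)} {i : Fin n} (hi : i ∉ S)
    (z : Fin n → Bool) : top f (insert i S) z = sg (z i) * (top f S z - top f S (fl z i)) := by
  unfold top
  rw [← sum_filter_add_sum_filter_not _ (fun x => x i = z i)]
  have e1 : (cube (insert i S) z).filter (fun x => x i = z i) = cube S z := by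
    ext x
    simp only [mem_filter, mem_cube, mem_insert, not_or]
    refine ⟨fun h j hj => ?_, fun h => ⟨fun j hj => h j hj.2, h i hi⟩⟩
    by_cases h1 : j = i
    · rw [h1, h.2]
    · exact h.1 j ⟨h1, hj⟩
  have e2 : (cube (insert i S) z).filter (fun x => ¬ x i = z i) = cube S (fl z i) := by
    ext x
    simp only [mem_filter, mem_cube, mem_insert, not_or]
    refine ⟨fun h j hj => ?_, fun h => ⟨fun j hj => ?_, ?_⟩⟩
    · by_cases h1 : j = i
      · rw [h1, fl_same]; exact Bool.eq_not.2 h.2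
      · rw [fl_ne _ h1]; exact h.1 j ⟨h1, hj⟩
    · rw [h j hj.2, fl_ne _ hj.1]
    · rw [h i hi, fl_same]; simp
  rw [e1, e2, mul_sub, mul_sum, mul_sum, sub_eq_add_neg, ← sum_neg_distrib]
  congr 1
  · refine sum_congr rfl fun x hx => ?_
    rw [chi, prod_insert hi, mem_cube.1 hx i hi, chi]; ring
  · refine sum_congr rfl fun x hx => ?_
    rw [chi, prod_insert hi, mem_cube.1 hx i hi, fl_same, sg_not, chi]; ring

lemma const_on {G : Finset (Fin n)} {z : Fin n → Bool} (φ : (Fin n → Bool) → ℝ)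
    (h : ∀ x ∈ cube G z, ∀ i ∈ G, φ (fl x i) = φ x) : ∀ x ∈ cube G z, φ x = φ z := by
  induction G using Finset.induction_on with
  | empty =>
    intro x hx
    rw [show x = z from funext fun i => mem_cube.1 hx i (by simp)]
  | insert i G hi ih =>
    have sub : ∀ x ∈ cube G z, x ∈ cube (insert i G) z := fun x hx =>
      mem_cube.2 fun j hj => mem_cube.1 hx j fun h => hj (mem_insert_of_mem h)
    have ih' := ih fun x hx j hj => h x (sub x hx) j (mem_insert_of_mem hj)
    intro x hx
    by_cases h1 : x i = z i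
    · refine ih' x (mem_cube.2 fun j hj => ?_)
      by_cases h2 : j = i
      · rw [h2, h1]
      · exact mem_cube.1 hx j (by simp [h2, hj])
    · rw [← h x hx i (mem_insert_self _ _)]
      refine ih' _ (mem_cube.2 fun j hj => ?_)
      by_cases h2 : j = i
      · rw [h2, fl_same]; exact (Bool.eq_not.2 (Ne.symm h1)).symm
      · rw [fl_ne _ h2]; exact mem_cube.1 hx j (by simp [h2, hj])

lemma exists_top (f : (Fin n → Bool) → Bool) (G : Finset (Fin n)) (z : Fin n → Bool) :
    ∃ S ⊆ G, (∀ x ∈ cube G z, top f S x = top f S z) ∧ top f S z ≠ 0 := by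
  classical
  have hne : (G.powerset.filter fun S => ∃ x ∈ cube G z, top f S x ≠ 0).Nonempty := by
    refine ⟨∅, mem_filter.2 ⟨by simp, z, mem_cube.2 fun _ _ => rfl, ?_⟩⟩
    have : cube ∅ z = {z} := by ext x; simp [mem_cube, funext_iff]
    rw [top, this, sum_singleton, chi, prod_empty, mul_one]
    cases f z <;> simp
  obtain ⟨S, hS, hmax⟩ := exists_max_image _ card hne
  rw [mem_filter, mem_powerset] at hS
  have hc : ∀ x ∈ cube G z, top f S x = top f S z := by
    refine const_on _ fun x hx i hi => ?_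
    by_cases h1 : i ∈ S
    · unfold top
      congr 1
      ext y
      simp only [mem_cube]
      refine forall₂_congr fun j hj => ?_
      rw [fl_ne _ (by rintro rfl; exact hj h1)]
    · by_contra h2
      have h3 := hmax (insert i S) (mem_filter.2 ⟨mem_powerset.2 (insert_subset hi hS.1), x, hx, by
        rw [top_insert f h1]
        refine mul_ne_zero ?_ (sub_ne_zero.2 (Ne.symm h2))
        cases x i <;> simp⟩)
      rw [card_insert_of_notMem h1] at h3
      omega
  obtain ⟨x, hx, hx0⟩ := hS.2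
  exact ⟨S, hS.1, hc, hc x hx ▸ hx0⟩

lemma top_const {f : (Fin n → Bool) → Bool} {S : Finset (Fin n)} {z : Fin n → Bool}
    (hS : S.Nonempty) (h : ∀ x ∈ cube S z, f x = f z) : top f S z = 0 := by
  obtain ⟨i, hi⟩ := hS
  unfold top
  refine sum_involution (fun x _ => fl x i) (fun x hx => ?_) (fun x _ _ h1 => ?_)
    (fun x hx => (fl_mem hi).2 hx) (fun x _ => fl_fl x i)
  · rw [h x hx, h _ ((fl_mem hi).2 hx), chi_fl, if_pos hi]; ring
  · have := congrFun h1 i
    rw [fl_same] at this
    simp at this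

lemma query (S : Finset (Fin n)) (t : (Fin n → Bool) → DT (Fin n)) (z : Fin n → Bool) :
    ∃ τ : DT (Fin n), ∀ x, τ.eval x = (t (S.piecewise x z)).eval x ∧
      τ.cost x = (t (S.piecewise x z)).cost x + S.card := by
  induction S using Finset.induction_on generalizing z with
  | empty => exact ⟨t z, fun x => by simp⟩
  | insert i S hi ih =>
    obtain ⟨τ0, h0⟩ := ih (Function.update z i false)
    obtain ⟨τ1, h1⟩ := ih (Function.update z i true)
    refine ⟨.node i τ0 τ1, fun x => ?_⟩
    have e : (insert i S).piecewise x z = S.piecewise x (Function.update z i (x i)) := by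
      funext j
      by_cases h2 : j = i
      · subst h2; simp [piecewise, hi]
      · simp [piecewise, h2]
    rw [e, card_insert_of_notMem hi]
    simp only [DT.eval, DT.cost]
    cases x i
    · simp [h0 x, add_assoc]
    · simp [h1 x, add_assoc]

lemma tree {f : (Fin n → Bool) → Bool} {T : ℕ} {p : (Fin n → Bool) → Fin n → ℝ}
    (hp0 : ∀ x i, 0 ≤ p x i) (hp1 : ∀ x, ∑ i, p x i ≤ T)
    (hp : ∀ x y, f x ≠ f y → ∀ u v : ℝ, 0 ≤ u → 0 ≤ v →
      u * v / 20 ≤ ∑ i ∈ univ.filter (fun i => x i ≠ y i), (u ^ 2 * p x i + v ^ 2 * p y i))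
    (k : ℕ) : ∀ (G : Finset (Fin n)) (z : Fin n → Bool),
      (∀ x ∈ cube G z, 1600 * (T + 1) * ∑ i ∈ G, p x i < k) →
      ∃ τ : DT (Fin n), ∀ x ∈ cube G z, τ.eval x = f x ∧ τ.cost x ≤ (40 * T + 1) ^ 2 * k := by
  have hT : (0 : ℝ) ≤ T := Nat.cast_nonneg _
  induction k with
  | zero =>
    intro G z h
    have h1 := h z (mem_cube.2 fun _ _ => rfl)
    have h2 : 0 ≤ ∑ i ∈ G, p z i := sum_nonneg fun i _ => hp0 z i
    have h3 : (0 : ℝ) ≤ 1600 * (T + 1) * ∑ i ∈ G, p z i := by positivity
    simp only [Nat.cast_zero] at h1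
    linarith
  | succ k ih =>
    intro G z h
    obtain ⟨S, hSG, hc, h0⟩ := exists_top f G z
    rcases S.eq_empty_or_nonempty with rfl | hS
    · refine ⟨.leaf (f z), fun x hx => ⟨?_, by simp [DT.cost]⟩⟩
      have h1 := hc x hx
      have e : ∀ y : Fin n → Bool, cube ∅ y = {y} := fun y => by ext x; simp [mem_cube, funext_iff]
      simp only [top, e, sum_singleton, chi, prod_empty, mul_one] at h1
      simp only [DT.eval]
      revert h1
      cases f x <;> cases f z <;> norm_num
    have hcard := huang hp0 hp1 hp S z h0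
    have hmass : ∀ x ∈ cube G z, 1 ≤ 1600 * (T + 1) * ∑ i ∈ S, p x i := by
      intro x hx
      obtain ⟨y, hy, hxy⟩ : ∃ y ∈ cube S x, f y ≠ f x := by
        by_contra hn
        push Not at hn
        exact h0 (hc x hx ▸ top_const hS hn)
      have h1 := hp x y hxy.symm (40 * (T + 1)) 1 (by positivity) zero_le_one
      have h2 : (univ.filter fun i => x i ≠ y i) ⊆ S := fun i hi => by
        by_contra h3
        exact (mem_filter.1 hi).2 (mem_cube.1 hy i h3).symm
      have h3 := h1.trans (sum_le_sum_of_subset_of_nonneg h2 fun i _ _ => by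
        have := hp0 x i; have := hp0 y i; positivity)
      rw [sum_add_distrib, ← mul_sum, ← mul_sum] at h3
      have h4 : ∑ i ∈ S, p y i ≤ T :=
        (sum_le_sum_of_subset_of_nonneg (subset_univ S) fun i _ _ => hp0 y i).trans (hp1 y)
      refine le_of_mul_le_mul_left ?_ (show (0 : ℝ) < T + 1 by positivity)
      nlinarith
    have sub : ∀ z' ∈ cube G z, ∀ x ∈ cube (G \ S) z', x ∈ cube G z := fun z' hz x hx =>
      mem_cube.2 fun j hj => by
        rw [mem_cube.1 hx j fun h => hj (mem_sdiff.1 h).1, mem_cube.1 hz j hj]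
    have hex : ∀ z', ∃ τ : DT (Fin n), z' ∈ cube G z → ∀ x ∈ cube (G \ S) z',
        τ.eval x = f x ∧ τ.cost x ≤ (40 * T + 1) ^ 2 * k := by
      intro z'
      by_cases hz : z' ∈ cube G z
      · obtain ⟨τ, hτ⟩ := ih (G \ S) z' fun x hx => by
          have h1 := h x (sub z' hz x hx)
          have h2 := hmass x (sub z' hz x hx)
          rw [← sum_sdiff hSG] at h1
          push_cast at h1
          linarith
        exact ⟨τ, fun _ => hτ⟩
      · exact ⟨.leaf true, fun h => absurd h hz⟩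
    choose t ht using hex
    obtain ⟨τ, hτ⟩ := query S t z
    refine ⟨τ, fun x hx => ?_⟩
    have h1 := ht (S.piecewise x z) (mem_cube.2 fun j hj =>
      piecewise_eq_of_notMem _ _ _ fun h => hj (hSG h)) x (mem_cube.2 fun j hj => by
        by_cases h2 : j ∈ S
        · rw [piecewise_eq_of_mem _ _ _ h2]
        · rw [piecewise_eq_of_notMem _ _ _ h2]
          exact mem_cube.1 hx j fun h => hj (mem_sdiff.2 ⟨h, h2⟩))
    rw [(hτ x).1, (hτ x).2, mul_add, mul_one]
    exact ⟨h1.1, add_le_add h1.2 hcard⟩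

end Up

open Up in
/-- PART G (known upper bound). -/
theorem upper_bound : ∃ C : ℕ, ∀ (n : ℕ) (f : (Fin n → Bool) → Bool) (T : ℕ),
    QAlg f T → RAlg f (C * (1 + T) ^ 4) := by
  refine ⟨2560000, fun n f T h => ?_⟩
  obtain ⟨p, hp0, hp1, hp⟩ := key h
  obtain ⟨τ, hτ⟩ := tree hp0 hp1 hp (1600 * (T + 1) * T + 1) univ (fun _ => false) fun x _ => by
    have := mul_le_mul_of_nonneg_left (hp1 x) (show (0 : ℝ) ≤ 1600 * (T + 1) by positivity)
    push_cast
    linarith
  have hτ' := fun x => hτ x (mem_cube.2 fun i hi => absurd (mem_univ i) hi)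
  refine ⟨1, fun _ => 1, fun _ => τ, fun _ => zero_le_one, by simp, fun _ x => (hτ' x).2.trans ?_,
    fun x => ?_⟩
  · calc (40 * T + 1) ^ 2 * (1600 * (T + 1) * T + 1)
        ≤ (40 * (1 + T)) ^ 2 * (1600 * (1 + T) ^ 2) :=
          Nat.mul_le_mul (Nat.pow_le_pow_left (by omega) 2) (by nlinarith)
      _ = _ := by ring
  · simp only [(hτ' x).1, if_true, sum_const, card_univ, Fintype.card_fin, one_smul]
    norm_num

end Vale.Agent.P362
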