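import Vale.Agent.P362.Param
import Vale.Agent.P362.Upper

/-! The separation `R ≥ Q ^ (4 - o(1))` and the value of the optimal exponent. -/

namespace Vale.Agent.P362

open Finset Filter

lemma exists_big (c a s0 : ℕ) : ∃ s, s0 ≤ s ∧ 1 ≤ s ∧ (c * s) ^ a ≤ 2 ^ s := by
  have h := tendsto_pow_const_div_const_pow_of_one_lt a (r := (2 : ℝ)) (by norm_num)
  have h2 := h.eventually (ge_mem_nhds (show (0 : ℝ) < 1 / ((c : ℝ) ^ a + 1) by positivity))
  obtain ⟨s, hs⟩ := (h2.and ((eventually_ge_atTop s0).and (eventually_ge_atTop 1))).exists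
  refine ⟨s, hs.2.1, hs.2.2, ?_⟩
  have h3 := hs.1
  rw [div_le_div_iff₀ (by positivity) (by positivity), one_mul] at h3
  have h4 : ((c : ℝ) * s) ^ a ≤ 2 ^ s := by
    refine le_trans ?_ h3
    rw [mul_pow]
    nlinarith [pow_nonneg (Nat.cast_nonneg (α := ℝ) s) a]
  exact_mod_cast h4

theorem separation (J : ℕ) (hJ : 1 ≤ J) (s0 : ℕ) : ∃ s, s0 ≤ s ∧ ∃ n : ℕ, 1 ≤ n ∧
    ∃ f : (Fin n → Bool) → Bool, 1 + Q f ≤ 2 ^ (s * (J + 7)) ∧ 2 ^ (s * (4 * J + 11)) ≤ R f := by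
  classical
  obtain ⟨s, hs0, hs, hbig⟩ := exists_big (32 * (2 * J + 12)) ((4 * J + 2) * 8) s0
  refine ⟨s, hs0, ?_⟩
  obtain ⟨n, hn⟩ : ∃ n, n = s * (2 * J + 12) := ⟨_, rfl⟩
  obtain ⟨k, hk⟩ : ∃ k, k = 4 * J + 2 := ⟨_, rfl⟩
  obtain ⟨G, hG⟩ : ∃ G, G = 2 ^ (Nat.log 2 n + 5) := ⟨_, rfl⟩
  have hn1 : 2 * J + 12 ≤ n := by rw [hn]; nlinarith
  have hG1 : 16 * n ≤ G := by
    have := Nat.lt_pow_succ_log_self (b := 2) (by norm_num) n
    rw [hG, show Nat.log 2 n + 5 = (Nat.log 2 n).succ + 4 by omega, pow_add]; omega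
  have hG2 : G ≤ 32 * n := by
    have := Nat.pow_log_le_self 2 (by omega : n ≠ 0)
    rw [hG, pow_add]; omega
  have hL : (G ^ k) ^ 8 ≤ 2 ^ s := by
    rw [← pow_mul, hk]
    refine le_trans (Nat.pow_le_pow_left ?_ _) hbig
    rw [hn] at hG2; nlinarith
  obtain ⟨D, hD⟩ := r_bound hJ hs hn hk hG hG1 rfl hL
  obtain ⟨dec, enc, hde⟩ := exists_dec (n * (2 * k + 1))
  obtain ⟨T, E, hT, hE, hc⟩ := q_bound (n := n) (k := k) (G := G) (H := G ^ k) (L := 2 ^ s)
    (Y := 2 ^ (s * (J + 6))) (by omega) (by omega) hG1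
    (Nat.pow_le_pow_right (by omega) (by omega)) hL
    (Nat.pow_le_pow_right (by norm_num) (by nlinarith)) (by rw [← pow_mul, hn]; congr 1; ring) D dec
  let e := Fintype.equivFin (Idx n k (n * (2 * k + 1) + 2))
  have hpos : 0 < Fintype.card (Idx n k (n * (2 * k + 1) + 2)) := Fintype.card_pos
  let f : (Fin (Fintype.card (Idx n k (n * (2 * k + 1) + 2))) → Bool) → Bool :=
    fun y => fn D dec (1 / ((G ^ k : ℕ) : ℝ) * (2 ^ n) ^ (k + 1)) (y ∘ e)
  refine ⟨_, hpos, f, ?_, ?_⟩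
  · have h1 : QAlg f T := (hE.comap e).toQAlg hpos f fun y => hc _
    have h2 : Q f ≤ T := Nat.sInf_le h1
    rw [← pow_add, show s + s * (J + 6) = s * (J + 7) by ring] at hT
    omega
  · obtain ⟨m, w, Tr, hw, hw1, hT, hcor⟩ : RAlg f (R f) :=
      Nat.sInf_mem (s := {q | RAlg f q}) ⟨_, ralg_full f⟩
    refine hD dec enc hde m (R f) w (fun j => (Tr j).map e.symm) hw hw1
      (fun j x => by rw [DT.cost_map]; exact hT _ _) fun x => ?_
    have := hcor (x ∘ e.symm)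
    simp only [f, Function.comp_assoc, Equiv.symm_comp_self, Function.comp_id] at this
    simpa only [DT.eval_map] using this

lemma qalg_full {n : ℕ} (hn : 0 < n) (f : (Fin n → Bool) → Bool) : QAlg f (n * 1) := by
  have h := (Det.piFin (ι := Fin n) (K := n) (g := fun j x => x j) fun j => Det.read j).map f
  exact Samp.toQAlg hn f h fun x => by simp; norm_num

theorem alphaTot_eq : alphaTot = 4 := by
  refine IsLeast.csInf_eq ⟨⟨by norm_num, ?_⟩, ?_⟩
  · obtain ⟨C, hC⟩ := upper_bound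
    refine ⟨C, fun n hn f => ?_⟩
    have h1 : QAlg f (Q f) := Nat.sInf_mem (s := {T | QAlg f T}) ⟨_, qalg_full hn f⟩
    have h2 : R f ≤ C * (1 + Q f) ^ 4 := Nat.sInf_le (hC n f _ h1)
    rw [show (4 : ℝ) = ((4 : ℕ) : ℝ) by norm_num, Real.rpow_natCast]
    exact_mod_cast h2
  · rintro α ⟨hα0, C, hC⟩
    by_contra hα
    rw [not_le] at hα
    obtain ⟨J, hJ⟩ := exists_nat_ge (18 / (4 - α) + 1)
    have h4 : 0 < 4 - α := by linarith
    have hJ1 : 1 ≤ J := by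
      have : 0 < 18 / (4 - α) := by positivity
      exact_mod_cast (by linarith : (1 : ℝ) ≤ J)
    have hJ2 : 18 ≤ (4 - α) * J := by
      rw [← div_le_iff₀' h4]; linarith
    obtain ⟨s0, hs0⟩ := exists_nat_gt C
    obtain ⟨s, hs, n, hn, f, hQ, hR⟩ := separation J hJ1 s0
    have h1 := hC n hn f
    have hQ' : 1 + (Q f : ℝ) ≤ 2 ^ (s * (J + 7)) := by exact_mod_cast hQ
    have hR' : (2 : ℝ) ^ (s * (4 * J + 11)) ≤ R f := by exact_mod_cast hR
    have h2 : (1 + (Q f : ℝ)) ^ α ≤ 2 ^ (s * (4 * J + 10)) := by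
      refine (Real.rpow_le_rpow (by positivity) hQ' hα0).trans ?_
      rw [← Real.rpow_natCast, ← Real.rpow_mul (by norm_num), ← Real.rpow_natCast]
      refine Real.rpow_le_rpow_of_exponent_le (by norm_num) ?_
      push_cast
      rw [mul_assoc]
      refine mul_le_mul_of_nonneg_left ?_ (Nat.cast_nonneg s)
      nlinarith
    have h3 : C < 2 ^ s := by
      have a1 : (s0 : ℝ) ≤ s := by exact_mod_cast hs
      have a2 : (s : ℝ) < 2 ^ s := by exact_mod_cast Nat.lt_two_pow_self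
      linarith
    have h5 : (0 : ℝ) < (1 + (Q f : ℝ)) ^ α := by positivity
    have h6 : C * (1 + (Q f : ℝ)) ^ α < 2 ^ s * 2 ^ (s * (4 * J + 10)) :=
      (mul_lt_mul_of_pos_right h3 h5).trans_le (mul_le_mul_of_nonneg_left h2 (by positivity))
    rw [← pow_add, show s + s * (4 * J + 10) = s * (4 * J + 11) by ring] at h6
    linarith

end Vale.Agent.P362
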