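import Vale.Agent.P362.QUp
import Vale.Agent.P362.Chain2
import Vale.Agent.P362.GoodSigns
import Vale.Agent.P362.Kernel
import Vale.Agent.P362.Embed

/-! Choice of parameters. -/

namespace Vale.Agent.P362

open Finset Matrix

lemma one_sub_pow_le {x y : ℝ} (K : ℕ) (hx : x ≤ 1) (hy : y ≤ K * x) :
    (1 - x) ^ K ≤ Real.exp (-y) := by
  calc (1 - x) ^ K ≤ Real.exp (-x) ^ K :=
        pow_le_pow_left₀ (by linarith) (by linarith [Real.add_one_le_exp (-x)]) K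
    _ = Real.exp (K * -x) := (Real.exp_nat_mul _ _).symm
    _ ≤ _ := Real.exp_le_exp.mpr (by linarith)

lemma exp_neg_nat_le (m : ℕ) : Real.exp (-(m : ℝ)) ≤ 1 / 2 ^ m := by
  rw [Real.exp_neg, one_div]
  refine inv_anti₀ (by positivity) ?_
  rw [← mul_one (m : ℝ), Real.exp_nat_mul]
  exact pow_le_pow_left₀ (by norm_num) (by linarith [Real.add_one_le_exp 1]) m

set_option maxHeartbeats 1000000 in
lemma q_bound {n k G H L Y : ℕ} (hn : 14 ≤ n) (hk : k ≤ 2 * n) (hG : 16 * n ≤ G)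
    (hH : G ^ 6 ≤ H) (hL : H ^ 8 ≤ L) (hY : L ≤ Y) (hYn : Y ^ 2 = 2 ^ n) (D : Vn n → Bool)
    (dec : (Fin (n * (2 * k + 1) + 2) → Bool) → ℝ) :
    ∃ (T : ℕ) (E : (Idx n k (n * (2 * k + 1) + 2) → Bool) → (Bool → ℝ) → ℝ),
      1 + T ≤ L * Y ∧ Samp T E ∧ ∀ x, (2 / 3 : ℝ) ≤
        E x (fun b => if b = fn D dec (1 / (H : ℝ) * (2 ^ n) ^ (k + 1)) x then 1 else 0) := by
  have hG1 : 224 ≤ G := by omega
  have hG2 : G ^ 2 ≤ H := (Nat.pow_le_pow_right (by omega) (by norm_num)).trans hH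
  have hGH : G ≤ H := (Nat.le_self_pow (by norm_num) G).trans hG2
  have hH1 : 1 ≤ H := by omega
  have hHY : H ≤ Y := (Nat.le_self_pow (by norm_num) H).trans (hL.trans hY)
  have hY1 : 1 ≤ Y := by omega
  have hn2 : 256 * n ^ 2 ≤ G ^ 2 := by nlinarith
  set M := Nat.clog 3 (Y * H) with hM
  have hM1 : Y * H ≤ 3 ^ M := Nat.le_pow_clog (by norm_num) _
  have hM2 : 3 ^ M ≤ 3 * (Y * H) := by
    have h1 : 1 < Y * H := by nlinarith
    have := Nat.pow_pred_clog_lt_self (b := 3) (by norm_num) h1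
    have h2 : 0 < M := Nat.clog_pos (by norm_num) h1
    rw [← hM] at this
    rw [show M = M.pred + 1 from (Nat.succ_pred_eq_of_pos h2).symm, pow_succ]; omega
  have hM3 : M ≤ n + 1 := by
    have h1 : 3 ^ M ≤ 3 ^ (n + 1) := by
      refine hM2.trans ?_
      have h2 : Y * H ≤ 3 ^ n := by
        calc Y * H ≤ Y ^ 2 := by nlinarith
          _ = 2 ^ n := hYn
          _ ≤ 3 ^ n := Nat.pow_le_pow_left (by norm_num) n
      rw [pow_succ]; omega
    exact (Nat.pow_le_pow_iff_right (by norm_num)).mp h1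
  have h9 : 2 ^ n * H ^ 2 ≤ 9 ^ M := by
    rw [← hYn, ← mul_pow, show 9 = 3 ^ 2 by norm_num, ← pow_mul, mul_comm 2 M, pow_mul]
    exact Nat.pow_le_pow_left hM1 2
  have hG0 : (0 : ℝ) < G := by exact_mod_cast (by omega : 0 < G)
  have hH0 : (0 : ℝ) < H := by exact_mod_cast hH1
  have hsa : 1 / (G : ℝ) ≤ sa M := by
    rw [sa, div_le_div_iff₀ hG0 (by positivity)]
    have : 27 * (M + 1) ≤ 2 * G := by omega
    exact_mod_cast (by simpa using this : 1 * (27 * (M + 1)) ≤ 2 * G)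
  have hsa1 := sa_le M
  have hK : ((2 : ℝ) ^ n) ^ 3 * (1 - sa M / 4) ^ (G ^ 2) ≤ 1 / 2 := by
    have h1 := one_sub_pow_le (x := sa M / 4) (y := ((3 * n + 1 : ℕ) : ℝ)) (G ^ 2) (by linarith) (by
      have h2 : ((3 * n + 1 : ℕ) : ℝ) ≤ G / 4 := by
        rw [le_div_iff₀ (by norm_num)]
        exact_mod_cast (by omega : (3 * n + 1) * 4 ≤ G)
      refine h2.trans ?_
      push_cast
      calc (G : ℝ) / 4 = G ^ 2 * (1 / G / 4) := by field_simp
        _ ≤ _ := by gcongr)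
    refine (mul_le_mul_of_nonneg_left (h1.trans (exp_neg_nat_le _)) (by positivity)).trans
      (le_of_eq ?_)
    field_simp; ring
  obtain ⟨E, hE, h⟩ := fn_samp (k := k) D dec (1 / (H : ℝ)) (by positivity)
    (by rw [div_le_one hH0]; exact_mod_cast hH1) (M := M) (K := G ^ 2) (r := 4 * G * H ^ 2)
    (by
      rw [div_pow, one_pow, mul_one_div, le_div_iff₀ (by positivity)]
      exact_mod_cast h9)
    (by
      have h1 : Fintype.card (Chk n k) ≤ 9 ^ M := by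
        refine le_trans ?_ h9
        simp only [Fintype.card_sum, Fintype.card_prod, card_Vn, Fintype.card_fin,
          Fintype.card_unit]
        have h2 : 1 ≤ 2 ^ n := Nat.one_le_two_pow
        have h3 : 3 + (2 * k + 1) * (n + 1) ≤ H ^ 2 := by
          have : (2 * k + 1) * (n + 1) ≤ (4 * n + 1) * (n + 1) := Nat.mul_le_mul_right _ (by omega)
          nlinarith [Nat.le_self_pow (n := 2) (by norm_num) H]
        nlinarith
      exact_mod_cast h1)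
    (Nat.one_le_pow _ _ (by omega)) hK
    (by
      have h1 := one_sub_pow_le (x := sa M * (1 / (H : ℝ)) ^ 2 / 2) (y := ((2 : ℕ) : ℝ))
        (4 * G * H ^ 2) (by
          have : (1 / (H : ℝ)) ^ 2 ≤ 1 := pow_le_one₀ (by positivity) (by
            rw [div_le_one hH0]; exact_mod_cast hH1)
          nlinarith [sa_pos M]) (by
          push_cast
          calc (2 : ℝ) = 4 * G * H ^ 2 * (1 / G * (1 / H) ^ 2 / 2) := by field_simp; norm_num
            _ ≤ _ := by gcongr)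
      exact (h1.trans (exp_neg_nat_le 2)).trans (by norm_num))
    (by
      have h1 : (1 - sa M) ^ (G ^ 2) ≤ (1 - sa M / 4) ^ (G ^ 2) :=
        pow_le_pow_left₀ (by linarith) (by linarith [sa_pos M]) _
      have h2 : 2 * (4 * G * H ^ 2) ≤ (2 ^ n) ^ 3 := by
        have a1 : 8 * G ≤ H := by nlinarith
        have a2 : H ^ 3 ≤ Y := (Nat.pow_le_pow_right hH1 (by norm_num)).trans (hL.trans hY)
        have a3 : Y ≤ (2 ^ n) ^ 3 := by
          rw [← hYn, ← pow_mul]; exact Nat.le_self_pow (by norm_num) Y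
        nlinarith
      have h3 : 2 * ((4 * G * H ^ 2 : ℕ) : ℝ) ≤ ((2 : ℝ) ^ n) ^ 3 := by exact_mod_cast h2
      have h4 : 0 ≤ (1 - sa M) ^ (G ^ 2) := pow_nonneg (by linarith) _
      nlinarith [mul_le_mul h3 h1 h4 (by positivity)])
  refine ⟨_, E, ?_, hE, h⟩
  have c1 : 3 * (n * (2 * k + 1) + 2) + n + 2 * k + 2 ≤ H := by
    have : n * (2 * k + 1) ≤ n * (4 * n + 1) := Nat.mul_le_mul_left _ (by omega)
    nlinarith
  have c2 : 96 * G ^ 7 ≤ H ^ 2 := by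
    calc 96 * G ^ 7 ≤ G ^ 5 * G ^ 7 := Nat.mul_le_mul_right _
          ((by omega : 96 ≤ G).trans (Nat.le_self_pow (by norm_num) G))
      _ = (G ^ 6) ^ 2 := by ring
      _ ≤ _ := Nat.pow_le_pow_left hH 2
  have c3 : 4 * G * H ^ 2 * (8 * (G ^ 2) ^ 3 * 3 ^ M * (3 * (n * (2 * k + 1) + 2) + n + 2 * k + 2))
      ≤ H ^ 6 * Y := by
    calc _ ≤ 4 * G * H ^ 2 * (8 * (G ^ 2) ^ 3 * (3 * (Y * H)) * H) := by gcongr
      _ = 96 * G ^ 7 * (H ^ 4 * Y) := by ring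
      _ ≤ H ^ 2 * (H ^ 4 * Y) := Nat.mul_le_mul_right _ c2
      _ = _ := by ring
  have c4 : 1 ≤ H ^ 6 * Y := Nat.mul_pos (Nat.pow_pos hH1) hY1
  have c5 : 2 * (H ^ 6 * Y) ≤ L * Y := by
    calc 2 * (H ^ 6 * Y) ≤ H ^ 2 * (H ^ 6 * Y) := Nat.mul_le_mul_right _ (by nlinarith)
      _ = H ^ 8 * Y := by ring
      _ ≤ _ := Nat.mul_le_mul_right _ hL
  omega

set_option maxHeartbeats 1000000 in
lemma r_bound {J s n k w G H : ℕ} (hJ : 1 ≤ J) (hs : 1 ≤ s) (hn : n = s * (2 * J + 12))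
    (hk : k = 4 * J + 2) (hw : G = 2 ^ w) (hG : 16 * n ≤ G) (hH : H = G ^ k)
    (hL : H ^ 8 ≤ 2 ^ s) :
    ∃ D : Vn n → Bool, ∀ (dec : (Fin (n * (2 * k + 1) + 2) → Bool) → ℝ)
      (enc : ℝ → Fin (n * (2 * k + 1) + 2) → Bool)
      (_ : ∀ v, Good (n * (2 * k + 1)) v → dec (enc v) = v) (m q' : ℕ) (p : Fin m → ℝ)
      (T : Fin m → DT (Idx n k (n * (2 * k + 1) + 2))) (_ : ∀ j, 0 ≤ p j) (_ : ∑ j, p j = 1)
      (_ : ∀ j x, (T j).cost x ≤ q') (_ : ∀ x, (2 / 3 : ℝ) ≤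
        ∑ j, if (T j).eval x = fn D dec (1 / (H : ℝ) * (2 ^ n) ^ (k + 1)) x then p j else 0),
      2 ^ (s * (4 * J + 11)) ≤ q' := by
  have hn1 : 2 * J + 12 ≤ n := by rw [hn]; nlinarith
  have hG1 : 224 ≤ G := by omega
  have hH6 : G ^ 6 ≤ H := by rw [hH]; exact Nat.pow_le_pow_right (by omega) (by omega)
  have hGH : G ≤ H := (Nat.le_self_pow (by norm_num) G).trans hH6
  set Λ : ℝ := 2 ^ s with hΛ
  have hΛ2 : 2 ≤ Λ := by
    rw [hΛ]; exact le_self_pow₀ (by norm_num) (by omega)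
  have hΛ0 : 0 < Λ := by linarith
  have hN : (2 : ℝ) ^ n = Λ ^ (2 * J + 12) := by rw [hΛ, ← pow_mul, hn]
  have hc : (Fintype.card (Vn n) : ℝ) = 2 ^ n := by rw [card_Vn]; push_cast; rfl
  have hq : ((2 ^ (s * (2 * J)) : ℕ) : ℝ) = Λ ^ (2 * J) := by rw [hΛ, ← pow_mul]; push_cast; rfl
  have hHr : (224 : ℝ) ≤ H := by exact_mod_cast hG1.trans hGH
  have hH0 : (0 : ℝ) < H := by linarith
  have hLr : (H : ℝ) ^ 8 ≤ Λ := by rw [hΛ]; exact_mod_cast hL
  have hn0 : (0 : ℝ) < n := by exact_mod_cast (by omega : 0 < n)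
  have hpow : ∀ a : ℕ, a ≤ 8 → (H : ℝ) ^ a ≤ Λ := fun a ha =>
    (pow_le_pow_right₀ (by linarith) ha).trans hLr
  obtain ⟨D, hD⟩ := exists_good_signs (Hm n) Hm_orth (fun x a => by rw [Hm_sq, hc]) Λ (n + 2) J
    (2 ^ (s * (2 * J))) hΛ2 hq
    (by
      rw [hc, Real.log_le_iff_le_exp (by positivity)]
      have h1 := exp_neg_nat_le (n + 2)
      rw [Real.exp_neg, one_div, inv_le_inv₀ (Real.exp_pos _) (by positivity)] at h1
      push_cast at h1
      refine le_trans ?_ h1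
      have : (1 : ℝ) ≤ 2 ^ n := one_le_pow₀ (by norm_num)
      rw [pow_add]; linarith)
    (by
      refine (Real.log_le_sub_one_of_pos (by positivity)).trans ?_
      have : ((2 * J + 12 : ℕ) : ℝ) ≤ n := by exact_mod_cast hn1
      push_cast at this; linarith)
    (by linarith)
    (by
      rw [hc, hN, hq]
      have h1 : 2 ^ 30 * (n + 2) ^ 2 ≤ H ^ 2 := by
        calc 2 ^ 30 * (n + 2) ^ 2 ≤ G ^ 10 * G ^ 2 := Nat.mul_le_mul
              (by rw [show 2 ^ 30 = 8 ^ 10 by norm_num]; exact Nat.pow_le_pow_left (by omega) _)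
              (Nat.pow_le_pow_left (by omega) _)
          _ = (G ^ 6) ^ 2 := by ring
          _ ≤ _ := Nat.pow_le_pow_left hH6 2
      have h2 : (2 : ℝ) ^ 30 * (n + 2) ^ 2 ≤ Λ ^ 2 := by
        have h3 : (2 : ℝ) ^ 30 * (n + 2) ^ 2 ≤ H ^ 2 := by exact_mod_cast h1
        have h4 := hpow 2 (by norm_num)
        nlinarith
      calc _ = Λ ^ (2 * J + 10) * (2 ^ 30 * (n + 2) ^ 2) := by ring
        _ ≤ Λ ^ (2 * J + 10) * Λ ^ 2 := by gcongr
        _ = _ := by ring)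
  refine ⟨D, fun dec enc hde m q' p T hp hp1 hT hcor => ?_⟩
  obtain ⟨κ, κ', k0, k1, kτ, h1, h0, hrec⟩ := exists_kernel (Um D) (Um_orth D).right
    (Real.sqrt (1 / (8 * n))) (2 * n) (by omega)
  rw [Real.sq_sqrt (by positivity)] at kτ hrec
  have hρ : ((2 ^ (s * (2 * J)) : ℕ) : ℝ) * (2 * (J + 1) / Λ) ^ k ≤ H / Λ ^ 2 := by
    rw [hq, div_pow]
    have h2 : (2 * ((J : ℝ) + 1)) ^ k ≤ H := by
      rw [hH]
      exact_mod_cast Nat.pow_le_pow_left (by omega : 2 * (J + 1) ≤ G) k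
    have h3 : (1 : ℝ) ≤ Λ ^ (2 * J) := one_le_pow₀ (by linarith)
    rw [hk] at h2 ⊢
    calc _ ≤ Λ ^ (2 * J) * (H / Λ ^ (4 * J + 2)) := by gcongr
      _ = H / Λ ^ 2 / Λ ^ (2 * J) := by field_simp; ring
      _ ≤ _ := div_le_self (by positivity) h3
  have hHΛ : (H : ℝ) / Λ ^ 2 ≤ 1 / H ^ 7 := by
    rw [div_le_div_iff₀ (by positivity) (by positivity)]
    nlinarith
  have hH7 : (1 : ℝ) / H ^ 7 ≤ 1 / (48 * H ^ 2) := by
    refine one_div_le_one_div_of_le (by positivity) ?_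
    have : (48 : ℝ) ≤ H ^ 5 := le_trans (by linarith) (le_self_pow₀ (by linarith) (by norm_num))
    calc 48 * (H : ℝ) ^ 2 ≤ H ^ 5 * H ^ 2 := by gcongr
      _ = _ := by ring
  have hH2 : (1 : ℝ) / (48 * H ^ 2) ≤ 1 / (2 * H) :=
    one_div_le_one_div_of_le (by positivity) (by nlinarith)
  have hH3 : (1 : ℝ) / (2 * H) ≤ 1 / 2 := one_div_le_one_div_of_le (by positivity) (by linarith)
  obtain ⟨Dn, hP, hI, hA⟩ := chain_main D (by positivity) (by positivity)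
    (by rw [div_le_one (by positivity)]
        have : (1 : ℝ) ≤ n := by exact_mod_cast (by omega : 1 ≤ n)
        linarith) hD k0 k1 kτ h1 h0 hrec k (by linarith)
  have hΛN : Λ ^ 2 ≤ (2 : ℝ) ^ n := by
    rw [hN]; exact pow_le_pow_right₀ (by linarith) (by omega)
  have hkH : (k : ℝ) ≤ H := by exact_mod_cast (by omega : k ≤ H)
  have hτ : (1 + ((1 + (2 * ((2 * n : ℕ) : ℝ) * (1 / (8 * n))) ^ (2 * n)) ^ Fintype.card (Vn n)
      - 1)) ^ k - 1 ≤ 2 * (H / Λ ^ 2) := by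
    have e1 : 2 * ((2 * n : ℕ) : ℝ) * (1 / (8 * n)) = 1 / 2 := by push_cast; field_simp; norm_num
    rw [e1, add_sub_cancel, ← pow_mul, card_Vn]
    have e2 : ((2 ^ n * k : ℕ) : ℝ) * (1 / 2) ^ (2 * n) ≤ H / Λ ^ 2 := by
      push_cast
      calc (2 : ℝ) ^ n * k * (1 / 2) ^ (2 * n) = k / 2 ^ n := by
            rw [_root_.one_div_pow, mul_comm 2 n, pow_mul]; field_simp
        _ ≤ _ := by gcongr
    have e3 : (1 + (1 / 2 : ℝ) ^ (2 * n)) ^ (2 ^ n * k) ≤ Real.exp (H / Λ ^ 2) := by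
      calc _ ≤ Real.exp ((1 / 2 : ℝ) ^ (2 * n)) ^ (2 ^ n * k) :=
            pow_le_pow_left₀ (by positivity) (by linarith [Real.add_one_le_exp ((1 / 2 : ℝ) ^ (2 * n))]) _
        _ = _ := (Real.exp_nat_mul _ _).symm
        _ ≤ _ := Real.exp_le_exp.mpr e2
    have e4 := Real.abs_exp_sub_one_le (x := H / Λ ^ 2) (by
      rw [abs_of_nonneg (by positivity)]; linarith)
    rw [abs_of_nonneg (by positivity : 0 ≤ (H : ℝ) / Λ ^ 2)] at e4
    linarith [(abs_le.mp e4).2]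
  have he : 4 / (H : ℝ) ≤ (1 / (8 * n)) ^ k := by
    rw [_root_.one_div_pow, div_le_div_iff₀ hH0 (by positivity), one_mul]
    have : 4 * (8 * n) ^ k ≤ H := by
      calc 4 * (8 * n) ^ k ≤ 2 ^ k * (8 * n) ^ k := Nat.mul_le_mul_right _ (by
            rw [show 4 = 2 ^ 2 by norm_num]; exact Nat.pow_le_pow_right (by norm_num) (by omega))
        _ = (16 * n) ^ k := by rw [← mul_pow]; congr 1; ring
        _ ≤ _ := by rw [hH]; exact Nat.pow_le_pow_left hG k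
    exact_mod_cast this
  have hA' := hA (1 / H) (by positivity)
  have hr := r_lower D enc dec _ (1 / H) hde hP hI (le_trans (by
    have : 1 / (2 * (H : ℝ)) = 1 / H / 2 := by field_simp
    have : 4 / (H : ℝ) = 4 * (1 / H) := by ring
    have : 0 < 1 / (H : ℝ) := by positivity
    linarith) hA') p T hp hp1 hT hcor (w * k + 1)
  have hHw : (H : ℝ) = 2 ^ (w * k) := by rw [hH, hw, ← pow_mul]; push_cast; rfl
  have a1 : (1 / 3 : ℝ) ^ (w * k + 1) = (2 / 3) ^ (w * k + 1) * (1 / H) / 2 := by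
    rw [hHw, show (1 / 3 : ℝ) = 2 / 3 * (1 / 2) by norm_num, mul_pow, _root_.one_div_pow, pow_succ 2]
    field_simp
  have a2 : 1 / (2 * (H : ℝ)) ≤ (2 / 3) ^ (w * k + 1) := by
    rw [hHw, mul_comm, ← pow_succ, ← _root_.one_div_pow]
    exact pow_le_pow_left₀ (by norm_num) (by norm_num) _
  have a3 : 2 * ((2 ^ (s * (2 * J)) : ℕ) : ℝ) / 2 ^ n ≤ 2 * (H / Λ ^ 2) := by
    rw [hq, hN]
    calc _ = 2 * (1 / Λ ^ 12) := by field_simp; ring
      _ ≤ _ := by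
        gcongr
        · linarith
        · linarith
        · norm_num
  have a4 : ((w * k + 1 : ℕ) : ℝ) ≤ H := by
    rw [hHw]; exact_mod_cast Nat.lt_two_pow_self
  have a5 : 1 / (4 * (H : ℝ) ^ 2) ≤ (2 / 3) ^ (w * k + 1) * (1 / H) / 2 := by
    calc _ = 1 / (2 * (H : ℝ)) * (1 / H) / 2 := by field_simp; norm_num
      _ ≤ _ := by gcongr
  have a6 : 1 / (8 * (H : ℝ) ^ 2) ≤ H * q' / (Λ ^ (2 * J + 12) * Λ ^ (2 * J)) := by
    have b1 : ((w * k + 1 : ℕ) : ℝ) * q' / (2 ^ n * (((2 ^ (s * (2 * J)) : ℕ) : ℝ) + 1)) ≤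
        H * q' / (Λ ^ (2 * J + 12) * Λ ^ (2 * J)) := by
      rw [hq, hN]
      gcongr
      linarith
    have b2 : 1 / (4 * (H : ℝ) ^ 2) = 2 * (1 / (8 * H ^ 2)) := by field_simp; norm_num
    have b3 : 1 / (8 * (H : ℝ) ^ 2) = 6 * (1 / (48 * H ^ 2)) := by field_simp; norm_num
    linarith
  have a7 : Λ ^ (4 * J + 11) ≤ q' := by
    rw [div_le_div_iff₀ (by positivity) (by positivity)] at a6
    have b1 : 8 * (H : ℝ) ^ 3 ≤ Λ := by
      have := hpow 4 (by norm_num)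
      nlinarith [pow_pos hH0 3]
    refine le_of_mul_le_mul_right ?_ hΛ0
    calc Λ ^ (4 * J + 11) * Λ = 1 * (Λ ^ (2 * J + 12) * Λ ^ (2 * J)) := by ring
      _ ≤ _ := a6
      _ = q' * (8 * H ^ 3) := by ring
      _ ≤ _ := by gcongr
  rw [hΛ, ← pow_mul] at a7
  exact_mod_cast a7

end Vale.Agent.P362
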