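import Vale.Agent.P362.Sg

/-! Level-wise operator bounds for kernels with Wick-type moments. -/

namespace Vale.Agent.P362

open Finset

variable {V : Type} [DecidableEq V]

lemma sum_powersetCard_succ (T : Finset V) (l : ℕ) (F : V → Finset V → ℝ) :
    ∑ B ∈ powersetCard (l + 1) T, ∑ b ∈ B, F b (B.erase b) =
      ∑ B' ∈ powersetCard l T, ∑ b ∈ T \ B', F b B' := by
  rw [sum_sigma', sum_sigma']
  refine sum_bij' (fun y _ => ⟨y.1.erase y.2, y.2⟩) (fun y _ => ⟨insert y.2 y.1, y.2⟩)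
    ?_ ?_ ?_ ?_ ?_
  · rintro ⟨B, b⟩ h
    simp only [mem_sigma, mem_powersetCard, mem_sdiff] at h ⊢
    refine ⟨⟨(erase_subset _ _).trans h.1.1, ?_⟩, h.1.1 h.2, by simp⟩
    rw [card_erase_of_mem h.2, h.1.2]; rfl
  · rintro ⟨B, b⟩ h
    simp only [mem_sigma, mem_powersetCard, mem_sdiff] at h ⊢
    refine ⟨⟨insert_subset h.2.1 h.1.1, ?_⟩, by simp⟩
    rw [card_insert_of_notMem h.2.2, h.1.2]
  · rintro ⟨B, b⟩ h
    simp only [mem_sigma] at h
    simp [insert_erase h.2]
  · rintro ⟨B, b⟩ h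
    simp only [mem_sigma, mem_sdiff] at h
    simp [erase_insert h.2.2]
  · rintro ⟨B, b⟩ _; rfl

variable {M : Finset V → Finset V → ℝ} {W : V → V → ℝ}

lemma wick_zero (h0 : ∀ B, B ≠ ∅ → M ∅ B = 0)
    (hrec : ∀ A B a, a ∈ A → M A B = ∑ b ∈ B, W b a * M (A.erase a) (B.erase b)) :
    ∀ (l : ℕ) (A B : Finset V), A.card = l → B.card ≠ l → M A B = 0
  | 0, A, B, hA, hB => by
      rw [card_eq_zero.mp hA]
      exact h0 B fun e => hB (by rw [e]; rfl)
  | l + 1, A, B, hA, hB => by
      obtain ⟨a, ha⟩ := card_pos.mp (by omega : 0 < A.card)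
      rw [hrec A B a ha]
      refine sum_eq_zero fun b hb => ?_
      rw [wick_zero h0 hrec l _ _ (by rw [card_erase_of_mem ha, hA]; rfl) (by
        have := card_pos.mpr ⟨b, hb⟩
        rw [card_erase_of_mem hb]; omega), mul_zero]

lemma wick_op (h1 : M ∅ ∅ = 1)
    (hrec : ∀ A B a, a ∈ A → M A B = ∑ b ∈ B, W b a * M (A.erase a) (B.erase b))
    (S T : Finset V) (lam : ℝ)
    (hW : ∀ g : V → ℝ, ∑ a ∈ S, (∑ b ∈ T, W b a * g b) ^ 2 ≤ lam ^ 2 * ∑ b ∈ T, g b ^ 2) :
    ∀ (l : ℕ) (d : Finset V → ℝ),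
      ∑ A ∈ powersetCard l S, (∑ B ∈ powersetCard l T, M A B * d B) ^ 2 ≤
        (lam ^ 2) ^ l * ∑ B ∈ powersetCard l T, d B ^ 2
  | 0, d => by simp [h1]
  | l + 1, d => by
      let g : Finset V → V → ℝ := fun B' a => ∑ b ∈ T \ B', W b a * d (insert b B')
      have e1 : ∀ A a, a ∈ A → ∑ B ∈ powersetCard (l + 1) T, M A B * d B =
          ∑ B' ∈ powersetCard l T, M (A.erase a) B' * g B' a := by
        intro A a ha
        have := sum_powersetCard_succ T l
          (fun b B' => W b a * M (A.erase a) B' * d (insert b B'))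
        simp only [g, mul_sum]
        rw [show ∑ B' ∈ powersetCard l T, ∑ b ∈ T \ B', M (A.erase a) B' * (W b a * d (insert b B'))
          = ∑ B' ∈ powersetCard l T, ∑ b ∈ T \ B', W b a * M (A.erase a) B' * d (insert b B') from
          sum_congr rfl fun _ _ => sum_congr rfl fun _ _ => by ring, ← this]
        refine sum_congr rfl fun B _ => ?_
        rw [hrec A B a ha, sum_mul]
        exact sum_congr rfl fun b hb => by rw [insert_erase hb]
      have e2 : ((l : ℝ) + 1) * ∑ A ∈ powersetCard (l + 1) S,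
          (∑ B ∈ powersetCard (l + 1) T, M A B * d B) ^ 2 =
          ∑ A' ∈ powersetCard l S, ∑ a ∈ S \ A',
            (∑ B' ∈ powersetCard l T, M A' B' * g B' a) ^ 2 := by
        rw [← sum_powersetCard_succ S l
          (fun a A' => (∑ B' ∈ powersetCard l T, M A' B' * g B' a) ^ 2), mul_sum]
        refine sum_congr rfl fun A hA => ?_
        symm
        rw [sum_congr rfl fun a ha => by rw [← e1 A a ha], sum_const,
          (mem_powersetCard.mp hA).2, nsmul_eq_mul]
        push_cast; rfl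
      have e3 : ∑ B' ∈ powersetCard l T, ∑ b ∈ T \ B', d (insert b B') ^ 2 =
          ((l : ℝ) + 1) * ∑ B ∈ powersetCard (l + 1) T, d B ^ 2 := by
        rw [← sum_powersetCard_succ T l (fun b B' => d (insert b B') ^ 2), mul_sum]
        refine sum_congr rfl fun B hB => ?_
        rw [sum_congr rfl fun b hb => by rw [insert_erase hb], sum_const,
          (mem_powersetCard.mp hB).2, nsmul_eq_mul]
        push_cast; rfl
      have e4 : ∀ B', ∑ a ∈ S, g B' a ^ 2 ≤ lam ^ 2 * ∑ b ∈ T \ B', d (insert b B') ^ 2 := by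
        intro B'
        have := hW (fun b => if b ∈ B' then 0 else d (insert b B'))
        have e : ∀ F : V → ℝ, ∑ b ∈ T \ B', F b = ∑ b ∈ T, if b ∈ B' then 0 else F b := by
          intro F
          rw [sdiff_eq_filter, sum_filter]
          exact sum_congr rfl fun b _ => by split_ifs <;> simp_all
        simp only [g, e]
        simpa only [mul_ite, mul_zero, ite_pow, ne_eq, OfNat.ofNat_ne_zero, not_false_eq_true,
          zero_pow] using this
      have hl : (0 : ℝ) < l + 1 := by positivity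
      refine le_of_mul_le_mul_left ?_ hl
      rw [e2]
      calc _ ≤ ∑ A' ∈ powersetCard l S, ∑ a ∈ S, (∑ B' ∈ powersetCard l T, M A' B' * g B' a) ^ 2 :=
            sum_le_sum fun A' _ => sum_le_sum_of_subset_of_nonneg sdiff_subset
              fun _ _ _ => sq_nonneg _
        _ = ∑ a ∈ S, ∑ A' ∈ powersetCard l S, (∑ B' ∈ powersetCard l T, M A' B' * g B' a) ^ 2 :=
            sum_comm
        _ ≤ ∑ a ∈ S, (lam ^ 2) ^ l * ∑ B' ∈ powersetCard l T, g B' a ^ 2 :=
            sum_le_sum fun a _ => wick_op h1 hrec S T lam hW l _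
        _ = (lam ^ 2) ^ l * ∑ B' ∈ powersetCard l T, ∑ a ∈ S, g B' a ^ 2 := by
            rw [← mul_sum, sum_comm]
        _ ≤ (lam ^ 2) ^ l * ∑ B' ∈ powersetCard l T,
              lam ^ 2 * ∑ b ∈ T \ B', d (insert b B') ^ 2 :=
            mul_le_mul_of_nonneg_left (sum_le_sum fun B' _ => e4 B') (by positivity)
        _ = _ := by rw [← mul_sum, e3]; ring

/-- from a bilinear bound on sparse unit vectors to an operator bound -/
lemma op_of_bil [Fintype V] (W : V → V → ℝ) (S T : Finset V) (ρ : ℝ)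
    (h : ∀ a b : V → ℝ, (∀ x, x ∉ S → a x = 0) → (∀ x, x ∉ T → b x = 0) →
      ∑ x, a x ^ 2 ≤ 1 → ∑ x, b x ^ 2 ≤ 1 → |∑ x, ∑ y, a x * W y x * b y| ≤ ρ) (g : V → ℝ) :
    ∑ a ∈ S, (∑ b ∈ T, W b a * g b) ^ 2 ≤ ρ ^ 2 * ∑ b ∈ T, g b ^ 2 := by
  set X := ∑ a ∈ S, (∑ b ∈ T, W b a * g b) ^ 2 with hX
  set Y := ∑ b ∈ T, g b ^ 2 with hY
  have hX0 : 0 ≤ X := sum_nonneg fun _ _ => sq_nonneg _
  have hY0 : 0 ≤ Y := sum_nonneg fun _ _ => sq_nonneg _
  rcases hX0.eq_or_lt with h0 | h0
  · rw [← h0]; positivity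
  have hY1 : 0 < Y := by
    rcases hY0.eq_or_lt with h1 | h1
    · exfalso
      have : ∀ b ∈ T, g b = 0 := fun b hb => by
        have := (sum_eq_zero_iff_of_nonneg fun _ _ => sq_nonneg _).mp h1.symm b hb
        simpa using this
      have : X = 0 := sum_eq_zero fun a _ => by
        rw [sum_eq_zero fun b hb => by rw [this b hb, mul_zero]]; simp
      linarith
    · exact h1
  have sX := Real.sqrt_pos.mpr h0
  have sY := Real.sqrt_pos.mpr hY1
  have eX := Real.mul_self_sqrt hX0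
  have eY := Real.mul_self_sqrt hY0
  have h2 := h (fun x => if x ∈ S then (∑ b ∈ T, W b x * g b) / Real.sqrt X else 0)
    (fun y => if y ∈ T then g y / Real.sqrt Y else 0) (fun x hx => by simp [hx])
    (fun x hx => by simp [hx]) (by
      simp only [ite_pow, div_pow, Real.sq_sqrt hX0, ne_eq, OfNat.ofNat_ne_zero,
        not_false_eq_true, zero_pow, sum_ite_mem, univ_inter, ← sum_div]
      rw [← hX, div_self h0.ne']) (by
      simp only [ite_pow, div_pow, Real.sq_sqrt hY0, ne_eq, OfNat.ofNat_ne_zero,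
        not_false_eq_true, zero_pow, sum_ite_mem, univ_inter, ← sum_div]
      rw [← hY, div_self hY1.ne'])
  have h3 : ∑ x, ∑ y, (if x ∈ S then (∑ b ∈ T, W b x * g b) / Real.sqrt X else 0) * W y x *
      (if y ∈ T then g y / Real.sqrt Y else 0) = X / (Real.sqrt X * Real.sqrt Y) := by
    simp only [mul_ite, mul_zero, sum_ite_mem, univ_inter, ite_mul, zero_mul, sum_ite_irrel,
      sum_const_zero]
    generalize Real.sqrt X = sx at sX
    generalize Real.sqrt Y = sy at sY
    rw [hX, sum_div S]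
    refine sum_congr rfl fun x _ => ?_
    set Z := ∑ b ∈ T, W b x * g b with hZ
    have : Z ^ 2 = ∑ b ∈ T, Z * (W b x * g b) := by rw [← mul_sum, ← hZ, sq]
    rw [this, sum_div T (fun b => Z * (W b x * g b))]
    exact sum_congr rfl fun y _ => by field_simp
  rw [h3, abs_of_pos (by positivity), div_le_iff₀ (by positivity)] at h2
  have h4 : Real.sqrt X ≤ ρ * Real.sqrt Y := by
    refine le_of_mul_le_mul_left ?_ sX
    rw [eX]; linarith
  have := mul_self_le_mul_self sX.le h4
  rw [eX] at this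
  calc X ≤ _ := this
    _ = ρ ^ 2 * (Real.sqrt Y * Real.sqrt Y) := by ring
    _ = _ := by rw [eY]

end Vale.Agent.P362
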