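import Vale.Agent.P362.Sg

/-! Real orthogonal circuits with generalized phase queries. -/

namespace Vale.Agent.P362

open Matrix

section
variable {H K : Type} [Fintype H] [DecidableEq H] [Fintype K] [DecidableEq K]

def Orth (M : Matrix H H ℝ) : Prop := Mᵀ * M = 1

lemma Orth.one : Orth (1 : Matrix H H ℝ) := by simp [Orth]

lemma Orth.mul {M N : Matrix H H ℝ} (hM : Orth M) (hN : Orth N) : Orth (M * N) := by
  unfold Orth at *
  rw [transpose_mul, Matrix.mul_assoc, ← Matrix.mul_assoc Mᵀ, hM, Matrix.one_mul, hN]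

lemma Orth.right {M : Matrix H H ℝ} (hM : Orth M) : M * Mᵀ = 1 := mul_eq_one_comm.mp hM

lemma Orth.tr {M : Matrix H H ℝ} (hM : Orth M) : Orth Mᵀ := by
  unfold Orth; rw [transpose_transpose]; exact hM.right

lemma Orth.diag {d : H → ℝ} (hd : ∀ h, d h * d h = 1) : Orth (diagonal d) := by
  unfold Orth
  rw [diagonal_transpose, diagonal_mul_diagonal]
  simp [hd]

lemma Orth.dot {M : Matrix H H ℝ} (hM : Orth M) (v w : H → ℝ) :
    (M *ᵥ v) ⬝ᵥ (M *ᵥ w) = v ⬝ᵥ w := by
  rw [dotProduct_mulVec, ← mulVec_transpose, mulVec_mulVec, hM, one_mulVec]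

lemma Orth.block {I : Type} [Fintype I] [DecidableEq I] {M : I → Matrix H H ℝ}
    (hM : ∀ i, Orth (M i)) : Orth (blockDiagonal M) := by
  unfold Orth at *
  rw [blockDiagonal_transpose, ← blockDiagonal_mul]
  simp only [hM]
  exact blockDiagonal_one

lemma Orth.block' {I : Type} [Fintype I] [DecidableEq I] {F : I → Type} [∀ i, Fintype (F i)]
    [∀ i, DecidableEq (F i)] {M : ∀ i, Matrix (F i) (F i) ℝ}
    (hM : ∀ i, Orth (M i)) : Orth (blockDiagonal' M) := by
  unfold Orth at *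
  rw [blockDiagonal'_transpose, ← blockDiagonal'_mul]
  simp only [hM]
  exact blockDiagonal'_one

lemma Orth.sub {M : Matrix H H ℝ} (hM : Orth M) (e : K ≃ H) : Orth (M.submatrix e e) := by
  unfold Orth at *
  rw [transpose_submatrix, submatrix_mul_equiv, hM, submatrix_one_equiv]

lemma block_mulVec {I : Type} [Fintype I] [DecidableEq I] (M : I → Matrix H H ℝ)
    (v : H × I → ℝ) (s : H × I) :
    (blockDiagonal M *ᵥ v) s = (M s.2 *ᵥ fun h => v (h, s.2)) s.1 := by
  obtain ⟨h, i⟩ := s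
  simp only [mulVec, dotProduct, Fintype.sum_prod_type, blockDiagonal_apply]
  refine Finset.sum_congr rfl fun h' _ => ?_
  rw [Finset.sum_eq_single i]
  · simp
  · intro j _ hj; simp [Ne.symm hj]
  · simp

lemma block'_mulVec {I : Type} [Fintype I] [DecidableEq I] {F : I → Type} [∀ i, Fintype (F i)]
    [∀ i, DecidableEq (F i)] (M : ∀ i, Matrix (F i) (F i) ℝ)
    (v : (Σ i, F i) → ℝ) (i : I) (k : F i) :
    (blockDiagonal' M *ᵥ v) ⟨i, k⟩ = (M i *ᵥ fun k' => v ⟨i, k'⟩) k := by
  simp only [mulVec, dotProduct, Fintype.sum_sigma]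
  rw [Finset.sum_eq_single i]
  · simp [blockDiagonal'_apply_eq]
  · intro j _ hj
    refine Finset.sum_eq_zero fun k' _ => ?_
    rw [blockDiagonal'_apply_ne _ _ _ (Ne.symm hj), zero_mul]
  · simp

/-- Householder: an orthogonal matrix mapping one unit vector to another. -/
lemma exists_orth_map (u w : H → ℝ) (hu : u ⬝ᵥ u = 1) (hw : w ⬝ᵥ w = 1) :
    ∃ M : Matrix H H ℝ, Orth M ∧ M *ᵥ u = w := by
  set v := u - w with hv
  by_cases h0 : v ⬝ᵥ v = 0
  · refine ⟨1, Orth.one, ?_⟩
    rw [one_mulVec]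
    have : v = 0 := dotProduct_self_eq_zero.mp h0
    exact sub_eq_zero.mp this
  · refine ⟨1 - (2 / (v ⬝ᵥ v)) • vecMulVec v v, ?_, ?_⟩
    · unfold Orth
      have hT : (vecMulVec v v)ᵀ = vecMulVec v v := by
        ext i j; simp [vecMulVec_apply, mul_comm]
      have hsq : vecMulVec v v * vecMulVec v v = (v ⬝ᵥ v) • vecMulVec v v := by
        ext i j
        simp only [Matrix.mul_apply, vecMulVec_apply, Matrix.smul_apply, dotProduct, smul_eq_mul,
          Finset.sum_mul]
        refine Finset.sum_congr rfl fun k _ => by ring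
      rw [transpose_sub, transpose_one, transpose_smul, hT, Matrix.sub_mul, Matrix.mul_sub,
        Matrix.mul_sub, Matrix.one_mul, Matrix.one_mul, Matrix.mul_one, Matrix.smul_mul,
        Matrix.mul_smul, hsq, smul_smul, smul_smul]
      have : 2 / (v ⬝ᵥ v) * (2 / (v ⬝ᵥ v)) * (v ⬝ᵥ v) = 2 / (v ⬝ᵥ v) + 2 / (v ⬝ᵥ v) := by
        field_simp; ring
      rw [this, add_smul]; abel
    · have hvu : v ⬝ᵥ v = 2 * (v ⬝ᵥ u) := by
        rw [hv]
        simp only [sub_dotProduct, dotProduct_sub, hu, hw, dotProduct_comm w u]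
        ring
      have h1 : v ⬝ᵥ u ≠ 0 := by
        intro h; apply h0; rw [hvu, h, mul_zero]
      have h2 : vecMulVec v v *ᵥ u = (v ⬝ᵥ u) • v := by
        ext i
        simp only [mulVec, dotProduct, vecMulVec_apply, Pi.smul_apply, smul_eq_mul,
          Finset.sum_mul]
        refine Finset.sum_congr rfl fun k _ => by ring
      rw [sub_mulVec, one_mulVec, smul_mulVec, h2, smul_smul, hvu]
      have : 2 / (2 * (v ⬝ᵥ u)) * (v ⬝ᵥ u) = 1 := by field_simp
      rw [this, one_smul, hv]; abel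
end

variable {ι : Type}

/-- the sign applied to a basis state by a generalized phase query -/
def phase {H : Type} (ad : H → Option ι) (x : ι → Bool) (h : H) : ℝ :=
  match ad h with
  | none => 1
  | some i => sg (x i)

lemma phase_mul_self {H : Type} (ad : H → Option ι) (x : ι → Bool) (h : H) :
    phase ad x h * phase ad x h = 1 := by
  unfold phase; cases ad h <;> simp [sg_mul_self]

/-- families of orthogonal matrices implementable with exactly `T` phase queries -/
def QU {H : Type} [Fintype H] [DecidableEq H] : ℕ → ((ι → Bool) → Matrix H H ℝ) → Prop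
  | 0, A => ∃ U, Orth U ∧ ∀ x, A x = U
  | T + 1, A => ∃ (B : (ι → Bool) → Matrix H H ℝ) (ad : H → Option ι) (U : Matrix H H ℝ),
      Orth U ∧ QU T B ∧ ∀ x, A x = U * diagonal (phase ad x) * B x

section
variable {H K : Type} [Fintype H] [DecidableEq H] [Fintype K] [DecidableEq K]

lemma QU.orth : ∀ {T : ℕ} {A : (ι → Bool) → Matrix H H ℝ}, QU T A → ∀ x, Orth (A x)
  | 0, _, ⟨_, hU, h⟩, x => by rw [h]; exact hU
  | _ + 1, _, ⟨_, ad, _, hU, hB, h⟩, x => by
      rw [h]; exact (hU.mul (Orth.diag (phase_mul_self ad x))).mul (hB.orth x)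

lemma QU.const {U : Matrix H H ℝ} (hU : Orth U) : QU (ι := ι) 0 (fun _ => U) := ⟨U, hU, fun _ => rfl⟩

lemma QU.left {U : Matrix H H ℝ} (hU : Orth U) :
    ∀ {T : ℕ} {A : (ι → Bool) → Matrix H H ℝ}, QU T A → QU T (fun x => U * A x)
  | 0, _, ⟨V, hV, h⟩ => ⟨U * V, hU.mul hV, fun x => by simp only [h]⟩
  | _ + 1, _, ⟨B, ad, V, hV, hB, h⟩ => ⟨B, ad, U * V, hU.mul hV, hB, fun x => by
      simp only [h, Matrix.mul_assoc]⟩

lemma QU.comp {T : ℕ} {A : (ι → Bool) → Matrix H H ℝ} (hA : QU T A) :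
    ∀ {T' : ℕ} {B : (ι → Bool) → Matrix H H ℝ}, QU T' B → QU (T + T') (fun x => B x * A x)
  | 0, _, ⟨V, hV, h⟩ => by
      have := hA.left hV
      simpa only [h, Nat.add_zero] using this
  | _ + 1, _, ⟨B, ad, V, hV, hB, h⟩ => ⟨_, ad, V, hV, hA.comp hB, fun x => by
      simp only [h, Matrix.mul_assoc]⟩

lemma QU.query (ad : H → Option ι) : QU 1 (fun x => diagonal (phase ad x)) :=
  ⟨fun _ => 1, ad, 1, Orth.one, QU.const Orth.one, fun x => by simp⟩

lemma QU.tr : ∀ {T : ℕ} {A : (ι → Bool) → Matrix H H ℝ}, QU T A → QU T (fun x => (A x)ᵀ)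
  | 0, _, ⟨V, hV, h⟩ => ⟨Vᵀ, hV.tr, fun x => by simp only [h]⟩
  | T + 1, _, ⟨B, ad, V, hV, hB, h⟩ => by
      have h1 := ((QU.const (ι := ι) hV.tr).comp (QU.query ad)).comp hB.tr
      rw [show 0 + 1 + T = T + 1 by omega] at h1
      simpa only [h, transpose_mul, diagonal_transpose, Matrix.mul_assoc] using h1

lemma QU.pad {T : ℕ} {A : (ι → Bool) → Matrix H H ℝ} (hA : QU T A) : QU (T + 1) A :=
  ⟨A, fun _ => none, 1, Orth.one, hA, fun x => by
    have : diagonal (phase (fun _ : H => (none : Option ι)) x) = 1 := by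
      rw [← diagonal_one]; rfl
    rw [this]; simp⟩

lemma QU.mono {T T' : ℕ} {A : (ι → Bool) → Matrix H H ℝ} (hA : QU T A) (h : T ≤ T') :
    QU T' A := by
  induction h with
  | refl => exact hA
  | step _ ih => exact ih.pad

lemma QU.sub (e : K ≃ H) : ∀ {T : ℕ} {A : (ι → Bool) → Matrix H H ℝ}, QU T A →
    QU T (fun x => (A x).submatrix e e)
  | 0, _, ⟨V, hV, h⟩ => ⟨V.submatrix e e, hV.sub e, fun x => by simp only [h]⟩
  | T + 1, _, ⟨B, ad, V, hV, hB, h⟩ => ⟨_, ad ∘ e, V.submatrix e e, hV.sub e, hB.sub e, fun x => by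
      simp only [h]
      rw [← submatrix_mul_equiv _ _ e e e, ← submatrix_mul_equiv _ _ e e e,
        submatrix_diagonal_equiv]
      rfl⟩

lemma QU.block {I : Type} [Fintype I] [DecidableEq I] :
    ∀ {T : ℕ} {A : I → (ι → Bool) → Matrix H H ℝ}, (∀ i, QU T (A i)) →
    QU T (fun x => blockDiagonal fun i => A i x)
  | 0, A, hA => by
      choose V hV h using hA
      exact ⟨blockDiagonal V, Orth.block hV, fun x => by simp only [h]⟩
  | T + 1, A, hA => by
      choose B ad V hV hB h using hA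
      refine ⟨_, fun s => ad s.2 s.1, blockDiagonal V, Orth.block hV, QU.block hB, fun x => ?_⟩
      simp only [h]
      rw [blockDiagonal_mul, blockDiagonal_mul, blockDiagonal_diagonal]
      rfl

lemma QU.block' {I : Type} [Fintype I] [DecidableEq I] {F : I → Type} [∀ i, Fintype (F i)]
    [∀ i, DecidableEq (F i)] :
    ∀ {T : ℕ} {A : ∀ i, (ι → Bool) → Matrix (F i) (F i) ℝ}, (∀ i, QU T (A i)) →
    QU T (fun x => blockDiagonal' fun i => A i x)
  | 0, A, hA => by
      choose V hV h using hA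
      exact ⟨blockDiagonal' V, Orth.block' hV, fun x => by simp only [h]⟩
  | T + 1, A, hA => by
      choose B ad V hV hB h using hA
      refine ⟨_, fun s => ad s.1 s.2, blockDiagonal' V, Orth.block' hV, QU.block' hB, fun x => ?_⟩
      simp only [h]
      rw [blockDiagonal'_mul, blockDiagonal'_mul, blockDiagonal'_diagonal]
      rfl

lemma QU.comap {ι' : Type} (e : ι → ι') : ∀ {T : ℕ} {A : (ι → Bool) → Matrix H H ℝ}, QU T A →
    QU T (fun y : ι' → Bool => A (y ∘ e))
  | 0, _, ⟨V, hV, h⟩ => ⟨V, hV, fun x => by simp only [h]⟩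
  | T + 1, _, ⟨B, ad, V, hV, hB, h⟩ => ⟨_, fun s => (ad s).map e, V, hV, hB.comap e, fun y => by
      simp only [h]
      congr 3
      funext s
      simp only [phase]
      cases ad s <;> rfl⟩
end

end Vale.Agent.P362
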