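import Vale.Agent.P362.Alg
import Vale.Agent.P362.Fn

/-! The quantum upper bound for the pointer function. -/

namespace Vale.Agent.P362

theorem fn_samp {n k B : ℕ} (D : Vn n → Bool) (dec : (Fin B → Bool) → ℝ) (β : ℝ) (hβ0 : 0 ≤ β)
    (hβ1 : β ≤ 1) {M K r : ℕ} (hN : (2 : ℝ) ^ n ≤ 9 ^ M * β ^ 2)
    (hC : (Fintype.card (Chk n k) : ℝ) ≤ 9 ^ M) (hK1 : 1 ≤ K)
    (hK : ((2 : ℝ) ^ n) ^ 3 * (1 - sa M / 4) ^ K ≤ 1 / 2)
    (hr : (1 - sa M * β ^ 2 / 2) ^ r ≤ 1 / 3) (hr' : r * (1 - sa M) ^ K ≤ 1 / 3) :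
    ∃ E : (Idx n k B → Bool) → (Bool → ℝ) → ℝ,
      Samp (r * (8 * K ^ 3 * 3 ^ M * (3 * B + n + 2 * k + 2))) E ∧ ∀ x, (2 / 3 : ℝ) ≤
        E x (fun b => if b = fn D dec (β * (2 ^ n) ^ (k + 1)) x then 1 else 0) := by
  have hc : (Fintype.card (Vn n) : ℝ) = 2 ^ n := by rw [card_Vn]; push_cast; rfl
  letI : DecidableEq (Chk n k) := Classical.decEq _
  refine pointer_alg (V := Vn n) (C := Chk n k) (rf := fun tb c x => refu x tb c)
    (Ed := fun i x φ => ∑ p, Psi (fun t => sig (adr k B i t) D x) (2 * k + 1) p ^ 2 /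
      (2 ^ n) ^ (2 * k + 1 + 1) * φ p)
    (okk := fun i p ch x => ok D dec (β * (2 ^ n) ^ (k + 1)) x i p ch) (γ := β ^ 2)
    (fun tb c => (det_refu tb c).mono (by omega))
    (fun i => (forr_samp (adr k B i) D (2 * k + 1)).mono (by omega))
    (fun i p ch => (det_ok D dec _ i p ch).mono (by omega)) (fun x i p h => ⟨?_, ?_, ?_⟩)
    (by nlinarith) (by rwa [hc]) hC hK1 (by rwa [hc]) hr hr'
  · intro tb
    have := h (.inl (tab x tb.1 tb.2 i))
    simp only [ok] at this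
    simp [refu, this]
  · intro c hci
    have := h (.inr (.inl c))
    simpa [ok, hci] using this
  · have h1 := sound_thr D dec _ x i p h
    simp only [mul_ite, mul_one, mul_zero, Finset.sum_ite_eq', Finset.mem_univ, if_true, sig_adr]
    rw [le_div_iff₀ (by positivity)]
    have h2 : (0 : ℝ) ≤ β * (2 ^ n) ^ (k + 1) := by positivity
    calc β ^ 2 * ((2 : ℝ) ^ n) ^ (2 * k + 1 + 1) = (β * (2 ^ n) ^ (k + 1)) ^ 2 := by ring
      _ ≤ _ := pow_le_pow_left₀ h2 h1 2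

end Vale.Agent.P362
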