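import Vale.Agent.P362.QU

/-! Output distributions of quantum query algorithms, as expectation functionals. -/

namespace Vale.Agent.P362

open Matrix

/-- a normalized positive linear functional -/
structure IsP {Ω : Type} (E : (Ω → ℝ) → ℝ) : Prop where
  add : ∀ φ ψ, E (fun ω => φ ω + ψ ω) = E φ + E ψ
  smul : ∀ c φ, E (fun ω => c * φ ω) = c * E φ
  mono : ∀ φ ψ, (∀ ω, φ ω ≤ ψ ω) → E φ ≤ E ψ
  one : E (fun _ => 1) = 1

namespace IsP
variable {Ω : Type} {E : (Ω → ℝ) → ℝ}

lemma const (h : IsP E) (c : ℝ) : E (fun _ => c) = c := by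
  have := h.smul c (fun _ => 1)
  simpa [h.one] using this

lemma nonneg (h : IsP E) (φ : Ω → ℝ) (hφ : ∀ ω, 0 ≤ φ ω) : 0 ≤ E φ := by
  have := h.mono (fun _ => 0) φ hφ
  rwa [h.const] at this

lemma le_const (h : IsP E) (φ : Ω → ℝ) (c : ℝ) (hφ : ∀ ω, φ ω ≤ c) : E φ ≤ c := by
  have := h.mono φ (fun _ => c) hφ
  rwa [h.const] at this

lemma const_le (h : IsP E) (φ : Ω → ℝ) (c : ℝ) (hφ : ∀ ω, c ≤ φ ω) : c ≤ E φ := by
  have := h.mono (fun _ => c) φ hφ
  rwa [h.const] at this

lemma sub (h : IsP E) (φ ψ : Ω → ℝ) : E (fun ω => φ ω - ψ ω) = E φ - E ψ := by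
  have h1 := h.add φ (fun ω => (-1) * ψ ω)
  rw [h.smul] at h1
  have : (fun ω => φ ω - ψ ω) = fun ω => φ ω + (-1) * ψ ω := by funext ω; ring
  rw [this, h1]; ring

lemma affine (h : IsP E) (a b : ℝ) (φ : Ω → ℝ) : E (fun ω => a + b * φ ω) = a + b * E φ := by
  rw [h.add (fun _ => a) (fun ω => b * φ ω), h.const, h.smul]

lemma mul_const (h : IsP E) (c : ℝ) (φ : Ω → ℝ) : E (fun ω => φ ω * c) = E φ * c := by
  simp only [mul_comm _ c, h.smul]

lemma sum (h : IsP E) {I : Type} (s : Finset I) (φ : I → Ω → ℝ) :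
    E (fun ω => ∑ i ∈ s, φ i ω) = ∑ i ∈ s, E (φ i) := by
  classical
  induction s using Finset.induction_on with
  | empty => simpa using h.const 0
  | insert i s hi ih =>
    simp only [Finset.sum_insert hi]
    rw [h.add, ih]
end IsP

variable {ι : Type}

/-- `E x` is the expectation functional of the measured output of a `T`-query algorithm -/
def Samp {Ω : Type} (T : ℕ) (E : (ι → Bool) → (Ω → ℝ) → ℝ) : Prop :=
  ∃ (H : Type) (_ : Fintype H) (_ : DecidableEq H) (A : (ι → Bool) → Matrix H H ℝ)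
    (ψ : H → ℝ) (out : H → Ω), QU T A ∧ ψ ⬝ᵥ ψ = 1 ∧
    ∀ x φ, E x φ = ∑ h, (A x *ᵥ ψ) h ^ 2 * φ (out h)

variable {Ω Ω' : Type}

lemma Samp.isP {T : ℕ} {E : (ι → Bool) → (Ω → ℝ) → ℝ} (h : Samp T E) (x : ι → Bool) :
    IsP (E x) := by
  obtain ⟨H, _, _, A, ψ, out, hA, hψ, hE⟩ := h
  refine ⟨fun φ φ' => ?_, fun c φ => ?_, fun φ φ' hφ => ?_, ?_⟩
  · simp only [hE, mul_add, Finset.sum_add_distrib]
  · simp only [hE, Finset.mul_sum]
    exact Finset.sum_congr rfl fun _ _ => by ring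
  · simp only [hE]
    exact Finset.sum_le_sum fun _ _ => mul_le_mul_of_nonneg_left (hφ _) (sq_nonneg _)
  · have := (hA.orth x).dot ψ ψ
    rw [hψ] at this
    rw [hE]
    simpa [dotProduct, sq] using this

lemma Samp.mono {T T' : ℕ} {E : (ι → Bool) → (Ω → ℝ) → ℝ} (h : Samp T E) (hT : T ≤ T') :
    Samp T' E := by
  obtain ⟨H, _, _, A, ψ, out, hA, hψ, hE⟩ := h
  exact ⟨H, _, _, A, ψ, out, hA.mono hT, hψ, hE⟩

lemma Samp.map {T : ℕ} {E : (ι → Bool) → (Ω → ℝ) → ℝ} (h : Samp T E) (g : Ω → Ω') :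
    Samp T (fun x φ => E x (fun ω => φ (g ω))) := by
  obtain ⟨H, _, _, A, ψ, out, hA, hψ, hE⟩ := h
  exact ⟨H, _, _, A, ψ, g ∘ out, hA, hψ, fun x φ => by simp only [hE]; rfl⟩

lemma Samp.congr {T : ℕ} {E E' : (ι → Bool) → (Ω → ℝ) → ℝ} (h : Samp T E)
    (hE : ∀ x φ, E' x φ = E x φ) : Samp T E' := by
  have : E' = E := by funext x φ; exact hE x φ
  rwa [this]

lemma Samp.pure (ω : Ω) : Samp (ι := ι) 0 (fun _ φ => φ ω) :=
  ⟨Unit, inferInstance, inferInstance, fun _ => 1, fun _ => 1, fun _ => ω, QU.const Orth.one,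
    by simp [dotProduct], fun x φ => by simp⟩

lemma Samp.unif [Fintype Ω] [DecidableEq Ω] [Nonempty Ω] :
    Samp (ι := ι) 0 (fun _ (φ : Ω → ℝ) => (∑ ω, φ ω) / Fintype.card Ω) := by
  have hc : (0 : ℝ) < Fintype.card Ω := by exact_mod_cast Fintype.card_pos
  have hs : (1 / Real.sqrt (Fintype.card Ω)) ^ 2 = 1 / (Fintype.card Ω : ℝ) := by
    rw [div_pow, Real.sq_sqrt hc.le]; simp
  refine ⟨Ω, inferInstance, inferInstance, fun _ => 1, fun _ => 1 / Real.sqrt (Fintype.card Ω),
    id, QU.const Orth.one, ?_, fun x φ => ?_⟩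
  · simp only [dotProduct, ← sq, hs, Finset.sum_const, Finset.card_univ, nsmul_eq_mul]
    field_simp
  · simp only [one_mulVec, hs, id, Finset.sum_div]
    exact Finset.sum_congr rfl fun _ _ => by ring

lemma Samp.read (i : ι) : Samp 1 (fun x (φ : Bool → ℝ) => φ (x i)) := by
  set s : ℝ := 1 / Real.sqrt 2 with hs
  have hs2 : s * s = 1 / 2 := by
    rw [hs, div_mul_div_comm, Real.mul_self_sqrt (by norm_num)]; norm_num
  let Hd : Matrix Bool Bool ℝ := of fun a b => if a && b then -s else s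
  have hHd : Orth Hd := by
    ext a b
    cases a <;> cases b <;> simp [Hd, Matrix.mul_apply, hs2] <;> norm_num
  let ad : Bool → Option ι := fun b => if b then some i else none
  refine ⟨Bool, inferInstance, inferInstance, fun x => Hd * diagonal (phase ad x), fun _ => s, id,
    (QU.query ad).left hHd, ?_, fun x φ => ?_⟩
  · simp [dotProduct, hs2]
  · simp only [← mulVec_mulVec, Fintype.sum_bool, id]
    simp only [mulVec, dotProduct, Fintype.sum_bool, Hd, of_apply, diagonal_apply, phase, ad]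
    cases hx : x i
    · simp [hs2, hx]; norm_num
    · simp [hs2, hx]; norm_num

lemma Samp.bind {T T' : ℕ} {E : (ι → Bool) → (Ω → ℝ) → ℝ}
    {F : Ω → (ι → Bool) → (Ω' → ℝ) → ℝ} (hE : Samp T E) (hF : ∀ ω, Samp T' (F ω)) :
    Samp (T + T') (fun x φ => E x (fun ω => F ω x φ)) := by
  obtain ⟨H, _, _, A, ψ, out, hA, hψ, hE⟩ := hE
  choose G iG dG B χ out' hB hχ hF using hF
  have hne : Nonempty H := by
    by_contra h
    rw [not_nonempty_iff] at h
    simp [dotProduct] at hψ
  obtain ⟨h0⟩ := hne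
  let K : Type := Σ h : H, G (out h)
  let τ : H → K → ℝ := fun h k => if e : k.1 = h then χ (out k.1) k.2 else 0
  have hτ : ∀ h, τ h ⬝ᵥ τ h = 1 := by
    intro h
    rw [← hχ (out h)]
    simp only [dotProduct, K, Fintype.sum_sigma, τ]
    rw [Finset.sum_eq_single h]
    · simp
    · intro j _ hj; simp [hj]
    · simp
  choose V hV hVτ using fun h => exists_orth_map (τ h0) (τ h) (hτ h0) (hτ h)
  let Bb : (ι → Bool) → Matrix K K ℝ := fun x => blockDiagonal' fun h : H => B (out h) x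
  have hBb : QU T' Bb := QU.block' fun h => hB (out h)
  let A1 : (ι → Bool) → Matrix (K × H) (K × H) ℝ := fun x =>
    (blockDiagonal fun _ : K => A x).submatrix (Equiv.prodComm K H) (Equiv.prodComm K H)
  have hA1 : QU T A1 := (QU.block fun _ : K => hA).sub (Equiv.prodComm K H)
  let A2 : (ι → Bool) → Matrix (K × H) (K × H) ℝ := fun x => blockDiagonal fun h => Bb x * V h
  have hA2 : QU T' A2 := by
    refine QU.block (A := fun h x => Bb x * V h) fun h => ?_
    have := (QU.const (ι := ι) (hV h)).comp hBb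
    rwa [Nat.zero_add] at this
  refine ⟨K × H, inferInstance, inferInstance, fun x => A2 x * A1 x, fun s => τ h0 s.1 * ψ s.2,
    fun s => out' _ s.1.2, hA1.comp hA2, ?_, fun x φ => ?_⟩
  · simp only [dotProduct, Fintype.sum_prod_type]
    have h1 := hτ h0
    simp only [dotProduct] at h1 hψ
    calc _ = ∑ k, τ h0 k * τ h0 k * ∑ h, ψ h * ψ h := by
          refine Finset.sum_congr rfl fun k _ => ?_
          rw [Finset.mul_sum]
          exact Finset.sum_congr rfl fun h _ => by ring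
      _ = 1 := by simp only [hψ, mul_one, h1]
  · have e1 : A1 x *ᵥ (fun s => τ h0 s.1 * ψ s.2) = fun s => τ h0 s.1 * (A x *ᵥ ψ) s.2 := by
      funext s
      simp only [A1, submatrix_mulVec_equiv, Function.comp, block_mulVec]
      simp only [mulVec, dotProduct, Finset.mul_sum]
      exact Finset.sum_congr rfl fun h _ => by simp; ring
    have e2 : ∀ s : K × H, (A2 x *ᵥ fun s => τ h0 s.1 * (A x *ᵥ ψ) s.2) s =
        (A x *ᵥ ψ) s.2 * (Bb x *ᵥ τ s.2) s.1 := by
      intro s
      simp only [A2, block_mulVec]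
      have : (fun k => τ h0 k * (A x *ᵥ ψ) s.2) = (A x *ᵥ ψ) s.2 • τ h0 := by
        funext k; simp [mul_comm]
      rw [this, mulVec_smul, ← mulVec_mulVec, hVτ]
      simp
    have e3 : ∀ (h h' : H) (k : G (out h')), (Bb x *ᵥ τ h) ⟨h', k⟩ =
        if h' = h then (B (out h') x *ᵥ χ (out h')) k else 0 := by
      intro h h' k
      have := block'_mulVec (fun h : H => B (out h) x) (τ h) h' k
      refine this.trans ?_
      simp only [τ]
      split_ifs with e
      · rfl
      · exact congrFun (mulVec_zero _) k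
    simp only []
    rw [hE]
    simp only [← mulVec_mulVec, e1, e2, hF]
    rw [Fintype.sum_prod_type_right]
    refine Finset.sum_congr rfl fun h _ => ?_
    simp only [K, Fintype.sum_sigma, e3]
    rw [Finset.sum_eq_single h]
    · simp only [if_true, Finset.mul_sum]
      exact Finset.sum_congr rfl fun k _ => by ring
    · intro j _ hj; simp [hj]
    · simp

/-- one round of amplitude amplification -/
lemma Samp.amp {T : ℕ} {E : (ι → Bool) → (Ω → ℝ) → ℝ} (hE : Samp T E) (G : Ω → Bool) :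
    Samp (3 * T) (fun x φ => E x (fun ω =>
      (if G ω then (3 - 4 * E x (fun ω => if G ω then 1 else 0)) ^ 2
        else (1 - 4 * E x (fun ω => if G ω then 1 else 0)) ^ 2) * φ ω)) := by
  obtain ⟨H, _, _, A, ψ, out, hA, hψ, hE⟩ := hE
  let S : Matrix H H ℝ := diagonal fun h => sg (G (out h))
  have hS : Orth S := Orth.diag fun h => sg_mul_self _
  let R0 : Matrix H H ℝ := (2 : ℝ) • vecMulVec ψ ψ - 1
  have hsq : vecMulVec ψ ψ * vecMulVec ψ ψ = vecMulVec ψ ψ := by
    ext i j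
    simp only [Matrix.mul_apply, vecMulVec_apply]
    calc _ = ψ i * ψ j * (ψ ⬝ᵥ ψ) := by
          simp only [dotProduct, Finset.mul_sum]
          exact Finset.sum_congr rfl fun k _ => by ring
      _ = _ := by rw [hψ, mul_one]
  have hR0 : Orth R0 := by
    have hT : (vecMulVec ψ ψ)ᵀ = vecMulVec ψ ψ := by
      ext i j; simp [vecMulVec_apply, mul_comm]
    unfold Orth
    simp only [R0, transpose_sub, transpose_one, transpose_smul, hT, Matrix.sub_mul,
      Matrix.mul_sub, Matrix.one_mul, Matrix.mul_one, Matrix.smul_mul, Matrix.mul_smul, hsq,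
      smul_smul]
    module
  have hR0v : ∀ v, R0 *ᵥ v = (2 * (ψ ⬝ᵥ v)) • ψ - v := by
    intro v
    have h2 : vecMulVec ψ ψ *ᵥ v = (ψ ⬝ᵥ v) • ψ := by
      ext i
      simp only [mulVec, dotProduct, vecMulVec_apply, Pi.smul_apply, smul_eq_mul,
        Finset.sum_mul]
      refine Finset.sum_congr rfl fun k _ => by ring
    simp only [R0, sub_mulVec, one_mulVec, smul_mulVec, h2, smul_smul]
  have hq := (((hA.left hS).comp hA.tr).left hR0).comp hA
  rw [show T + T + T = 3 * T by ring] at hq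
  refine ⟨H, inferInstance, inferInstance, _, ψ, out, hq, hψ, fun x φ => ?_⟩
  set p := E x (fun ω => if G ω then 1 else 0) with hp
  set w := A x *ᵥ ψ with hw
  have hww : ∑ h, w h ^ 2 = 1 := by
    rw [← hψ, ← (hA.orth x).dot ψ ψ]
    simp [dotProduct, sq, hw]
  have hdot : ψ ⬝ᵥ ((A x)ᵀ *ᵥ (S *ᵥ w)) = 1 - 2 * p := by
    rw [dotProduct_mulVec, vecMul_transpose, ← hw, hp, hE, ← hw, Finset.mul_sum]
    rw [show ∀ y : ℝ, 1 - y = ∑ h, w h ^ 2 - y from fun y => by rw [hww],
      ← Finset.sum_sub_distrib]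
    simp only [dotProduct, S, mulVec_diagonal]
    refine Finset.sum_congr rfl fun h _ => ?_
    cases G (out h) <;> simp <;> ring
  have hfin : ∀ h, ((A x * (R0 * ((A x)ᵀ * (S * A x)))) *ᵥ ψ) h =
      (if G (out h) then (3 - 4 * p) else (1 - 4 * p)) * w h := by
    intro h
    simp only [← mulVec_mulVec, ← hw]
    rw [hR0v, hdot, mulVec_sub, mulVec_smul, mulVec_mulVec, mulVec_mulVec, (hA.orth x).right,
      Matrix.one_mul, ← hw]
    simp only [Pi.sub_apply, Pi.smul_apply, smul_eq_mul, S, mulVec_diagonal]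
    cases G (out h) <;> simp <;> ring
  simp only [hfin]
  rw [hE, ← hw]
  refine Finset.sum_congr rfl fun h _ => ?_
  cases G (out h) <;> simp <;> ring

end Vale.Agent.P362
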