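import Vale.Agent.P362.Samp

/-! Deterministic subroutines, repetition and quantum search. -/

namespace Vale.Agent.P362

variable {ι Ω Ω' : Type}

/-- indicator of a bit -/
def ind (b : Bool) : ℝ := if b then 1 else 0

@[simp] lemma ind_true : ind true = 1 := rfl
@[simp] lemma ind_false : ind false = 0 := rfl
lemma ind_nonneg (b : Bool) : 0 ≤ ind b := by cases b <;> simp
lemma ind_le_one (b : Bool) : ind b ≤ 1 := by cases b <;> simp
lemma ind_not (b : Bool) : ind (!b) = 1 - ind b := by cases b <;> simp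

/-- `g` is computed exactly with `T` queries -/
def Det (T : ℕ) (g : (ι → Bool) → Ω) : Prop := Samp T (fun x (φ : Ω → ℝ) => φ (g x))

lemma Det.const (ω : Ω) : Det (ι := ι) 0 (fun _ => ω) := Samp.pure ω
lemma Det.read (i : ι) : Det 1 (fun x => x i) := Samp.read i
lemma Det.mono {T T' : ℕ} {g : (ι → Bool) → Ω} (h : Det T g) (hT : T ≤ T') : Det T' g :=
  Samp.mono h hT
lemma Det.map {T : ℕ} {g : (ι → Bool) → Ω} (h : Det T g) (F : Ω → Ω') :
    Det T (fun x => F (g x)) := Samp.map h F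
lemma Det.bind {T T' : ℕ} {g : (ι → Bool) → Ω} {F : Ω → (ι → Bool) → Ω'} (h : Det T g)
    (hF : ∀ ω, Det T' (F ω)) : Det (T + T') (fun x => F (g x) x) :=
  Samp.bind (F := fun ω x φ => φ (F ω x)) h hF
lemma Det.pair {T T' : ℕ} {g : (ι → Bool) → Ω} {g' : (ι → Bool) → Ω'} (h : Det T g)
    (h' : Det T' g') : Det (T + T') (fun x => (g x, g' x)) :=
  h.bind (F := fun ω x => (ω, g' x)) fun ω => h'.map fun ω' => (ω, ω')

lemma Det.congr {T : ℕ} {g g' : (ι → Bool) → Ω} (h : Det T g) (e : ∀ x, g' x = g x) :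
    Det T g' := by
  have : g' = g := funext e
  rwa [this]

lemma Det.piFin {T : ℕ} {K : ℕ} : ∀ {g : Fin K → (ι → Bool) → Ω}, (∀ j, Det T (g j)) →
    Det (K * T) (fun x j => g j x) := by
  induction K with
  | zero =>
    intro g _
    rw [Nat.zero_mul]
    exact (Det.const (ι := ι) (Ω := Fin 0 → Ω) (fun j => j.elim0)).congr
      fun x => funext fun j => j.elim0
  | succ K ih =>
    intro g h
    have h1 := ((h 0).pair (ih (g := fun j => g j.succ) fun j => h j.succ)).map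
      (fun y : Ω × (Fin K → Ω) => (Fin.cons y.1 y.2 : Fin (K + 1) → Ω))
    rw [show T + K * T = (K + 1) * T by ring] at h1
    refine h1.congr fun x => funext fun j => ?_
    refine Fin.cases ?_ (fun j => ?_) j <;> simp

lemma Samp.rep {T : ℕ} {E : (ι → Bool) → (Ω → ℝ) → ℝ} (hE : Samp T E) : ∀ K : ℕ,
    ∃ E' : (ι → Bool) → ((Fin K → Ω) → ℝ) → ℝ, Samp (K * T) E' ∧
      ∀ x (φ : Ω → ℝ), E' x (fun cs => ∏ j, φ (cs j)) = E x φ ^ K
  | 0 => ⟨fun _ φ => φ (fun j => j.elim0), by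
      rw [Nat.zero_mul]; exact Samp.pure _, fun x φ => by simp⟩
  | K + 1 => by
      obtain ⟨E', hE', h⟩ := hE.rep K
      have h1 := hE.bind (F := fun ω x φ => E' x (fun cs => φ (Fin.cons ω cs : Fin (K + 1) → Ω)))
        fun ω => hE'.map _
      rw [show T + K * T = (K + 1) * T by ring] at h1
      refine ⟨_, h1, fun x φ => ?_⟩
      simp only [Fin.prod_univ_succ, Fin.cons_zero, Fin.cons_succ, (hE'.isP x).smul, h,
        (hE.isP x).mul_const]
      ring

lemma Samp.andRep {T : ℕ} {E : (ι → Bool) → (Bool → ℝ) → ℝ} (hE : Samp T E) (K : ℕ) :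
    ∃ E' : (ι → Bool) → (Bool → ℝ) → ℝ, Samp (K * T) E' ∧ ∀ x, E' x ind = E x ind ^ K := by
  obtain ⟨E', hE', h⟩ := hE.rep K
  refine ⟨_, hE'.map (fun cs => decide (∀ j, cs j = true)), fun x => ?_⟩
  rw [← h]
  congr 1
  funext cs
  by_cases hc : ∀ j, cs j = true
  · simp [hc]
  · rw [decide_eq_false hc]
    push Not at hc
    obtain ⟨j, hj⟩ := hc
    rw [Finset.prod_eq_zero (Finset.mem_univ j) (by simp [hj])]; rfl

lemma Samp.orRep {T : ℕ} {E : (ι → Bool) → (Bool → ℝ) → ℝ} (hE : Samp T E) (K : ℕ) :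
    ∃ E' : (ι → Bool) → (Bool → ℝ) → ℝ, Samp (K * T) E' ∧
      ∀ x, E' x ind = 1 - (1 - E x ind) ^ K := by
  obtain ⟨E', hE', h⟩ := (hE.map not).andRep K
  refine ⟨_, hE'.map not, fun x => ?_⟩
  simp only [ind_not] at h ⊢
  rw [(hE'.isP x).sub, (hE'.isP x).one, h, (hE.isP x).sub, (hE.isP x).one]

lemma Samp.ampIter {T : ℕ} {E : (ι → Bool) → (Ω → ℝ) → ℝ} (hE : Samp T E) (G : Ω → Bool) :
    ∀ m : ℕ, ∃ (E' : (ι → Bool) → (Ω → ℝ) → ℝ) (α β : (ι → Bool) → ℝ), Samp (3 ^ m * T) E' ∧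
      ∀ x, 0 ≤ α x ∧ 0 ≤ β x ∧
        (∀ φ, E' x φ = E x (fun ω => (if G ω then α x else β x) * φ ω)) ∧
        α x * E x (fun ω => ind (G ω)) ≤ 9 ^ m * E x (fun ω => ind (G ω)) ∧
        9 ^ m * E x (fun ω => ind (G ω)) - (9 ^ m * E x (fun ω => ind (G ω))) ^ 2 / 3 ≤
          α x * E x (fun ω => ind (G ω))
  | 0 => ⟨E, fun _ => 1, fun _ => 1, by simpa using hE, fun x => by
      refine ⟨zero_le_one, zero_le_one, fun φ => by simp, by simp, ?_⟩
      have := sq_nonneg (E x (fun ω => ind (G ω)))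
      simp only [pow_zero, one_mul]; linarith⟩
  | m + 1 => by
      obtain ⟨E', α, β, hE', h⟩ := hE.ampIter G m
      have h1 := hE'.amp G
      rw [show 3 * (3 ^ m * T) = 3 ^ (m + 1) * T by ring] at h1
      have hp' : ∀ x, E' x (fun ω => if G ω then 1 else 0) = α x * E x (fun ω => ind (G ω)) := by
        intro x
        rw [(h x).2.2.1, ← (hE.isP x).smul]
        congr 1; funext ω; cases G ω <;> simp
      refine ⟨_, fun x => α x * (3 - 4 * (α x * E x (fun ω => ind (G ω)))) ^ 2,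
        fun x => β x * (1 - 4 * (α x * E x (fun ω => ind (G ω)))) ^ 2, h1, fun x => ?_⟩
      obtain ⟨ha, hb, hφ, hu, hl⟩ := h x
      have hp0 : 0 ≤ E x (fun ω => ind (G ω)) := (hE.isP x).nonneg _ fun ω => ind_nonneg _
      have hp1 : α x * E x (fun ω => ind (G ω)) ≤ 1 := by
        rw [← hp']
        exact (hE'.isP x).le_const _ _ fun ω => by split_ifs <;> norm_num
      set p := E x (fun ω => ind (G ω))
      set r := α x * p with hr
      have hr0 : 0 ≤ r := mul_nonneg ha hp0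
      refine ⟨by positivity, by positivity, fun φ => ?_, ?_, ?_⟩
      · simp only [hp']
        rw [hφ]
        congr 1; funext ω; cases G ω <;> simp <;> ring
      · have : α x * (3 - 4 * r) ^ 2 * p = r * (3 - 4 * r) ^ 2 := by rw [hr]; ring
        rw [this, pow_succ (9 : ℝ) m]
        have h9 : (3 - 4 * r) ^ 2 ≤ 9 := by nlinarith
        nlinarith [mul_le_mul_of_nonneg_left h9 hr0]
      · have : α x * (3 - 4 * r) ^ 2 * p = r * (3 - 4 * r) ^ 2 := by rw [hr]; ring
        rw [this, pow_succ (9 : ℝ) m]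
        set q := 9 ^ m * p with hq
        have e : (9 : ℝ) ^ m * 9 * p = 9 * q := by rw [hq]; ring
        rw [e]
        have h2 : r ^ 2 ≤ q ^ 2 := pow_le_pow_left₀ hr0 hu 2
        have h3 : 0 ≤ r ^ 3 := by positivity
        nlinarith

/-- success constant of the search routine -/
noncomputable def sa (M : ℕ) : ℝ := 2 / (27 * (M + 1))

lemma sa_pos (M : ℕ) : 0 < sa M := by unfold sa; positivity
lemma sa_le (M : ℕ) : sa M ≤ 1 := by
  unfold sa
  rw [div_le_one (by positivity)]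
  have : (0 : ℝ) ≤ M := Nat.cast_nonneg M
  linarith

theorem Samp.search {T T' : ℕ} {E : (ι → Bool) → (Ω → ℝ) → ℝ} (hE : Samp T E)
    {g : Ω → (ι → Bool) → Bool} (hg : ∀ ω, Det T' (g ω)) (M : ℕ) :
    ∃ E' : (ι → Bool) → (Ω → ℝ) → ℝ, Samp (3 ^ M * (T + T')) E' ∧
      ∀ x, 1 ≤ 9 ^ M * E x (fun ω => ind (g ω x)) → ∀ φ : Ω → ℝ, (∀ ω, 0 ≤ φ ω) →
        sa M * E x (fun ω => ind (g ω x) * φ ω) ≤ E x (fun ω => ind (g ω x)) * E' x φ := by
  have hJ := hE.bind (F := fun ω x (φ : Ω × Bool → ℝ) => φ (ω, g ω x))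
    fun ω => (hg ω).map fun b => (ω, b)
  choose Em α β hEm h using hJ.ampIter Prod.snd
  have hmix := (Samp.unif (ι := ι) (Ω := Fin (M + 1))).bind
    (F := fun (m : Fin (M + 1)) x (φ : Ω → ℝ) => Em m x (fun y => φ y.1)) (T' := 3 ^ M * (T + T'))
    fun m => ((hEm m).map Prod.fst).mono
      (Nat.mul_le_mul_right _ (Nat.pow_le_pow_right (by norm_num) (by have := m.2; omega)))
  rw [Nat.zero_add] at hmix
  refine ⟨_, hmix, fun x hx φ hφ => ?_⟩
  set p := E x (fun ω => ind (g ω x)) with hp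
  have hp1 : p ≤ 1 := (hE.isP x).le_const _ _ fun ω => ind_le_one _
  have hp0 : 0 ≤ p := (hE.isP x).nonneg _ fun ω => ind_nonneg _
  have hex : ∃ m : ℕ, 1 / 9 ≤ (9 : ℝ) ^ m * p := ⟨M, by linarith⟩
  have hm0 : Nat.find hex ≤ M := Nat.find_min' hex (by linarith)
  have hlo := Nat.find_spec hex
  have hhi : (9 : ℝ) ^ (Nat.find hex) * p ≤ 1 := by
    rcases Nat.eq_zero_or_pos (Nat.find hex) with h0 | h0
    · rw [h0]; simpa using hp1
    · have := Nat.find_min hex (m := Nat.find hex - 1) (by omega)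
      rw [show Nat.find hex = (Nat.find hex - 1) + 1 by omega, pow_succ]
      push Not at this
      linarith
  set m := Nat.find hex
  obtain ⟨ha, hb, hφ', -, hl⟩ := h m x
  simp only [← hp] at hl
  have hαp : 2 / 27 ≤ α m x * p := by nlinarith
  set Y := E x (fun ω => ind (g ω x) * φ ω) with hY
  have hY0 : 0 ≤ Y := (hE.isP x).nonneg _ fun ω => mul_nonneg (ind_nonneg _) (hφ ω)
  have h1 : α m x * Y ≤ Em m x (fun y => φ y.1) := by
    rw [hφ', hY, ← (hE.isP x).smul]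
    refine (hE.isP x).mono _ _ fun ω => ?_
    cases g ω x
    · simpa using mul_nonneg hb (hφ ω)
    · simp
  have h2 : Em m x (fun y => φ y.1) ≤ ∑ k : Fin (M + 1), Em k x (fun y => φ y.1) :=
    Finset.single_le_sum (f := fun k : Fin (M + 1) => Em k x (fun y => φ y.1))
      (fun k _ => ((hEm k).isP x).nonneg _ fun y => hφ _) (Finset.mem_univ ⟨m, by omega⟩)
  simp only [Fintype.card_fin, sa]
  push_cast
  rw [← mul_div_assoc, le_div_iff₀ (by positivity)]
  have : 2 / (27 * ((M : ℝ) + 1)) * Y * (M + 1) = 2 / 27 * Y := by field_simp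
  rw [this]
  calc 2 / 27 * Y ≤ α m x * p * Y := mul_le_mul_of_nonneg_right hαp hY0
    _ = p * (α m x * Y) := by ring
    _ ≤ _ := mul_le_mul_of_nonneg_left (h1.trans h2) hp0

end Vale.Agent.P362
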