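import Mathlib

namespace Vale.Agent.P362

/-- sign of a bit -/
def sg (b : Bool) : ℝ := if b then -1 else 1

/-- parity character -/
noncomputable def chi {V : Type} (A : Finset V) (u : V → Bool) : ℝ := ∏ a ∈ A, sg (u a)

/-- mixed moments of a kernel on pairs of bit vectors -/
noncomputable def mom {V : Type} [Fintype V] [DecidableEq V]
    (κ : (V → Bool) → (V → Bool) → ℝ) (A B : Finset V) : ℝ :=
  ∑ u, ∑ v, κ u v * (chi A u * chi B v)

@[simp] lemma sg_true : sg true = -1 := rfl
@[simp] lemma sg_false : sg false = 1 := rfl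
lemma sg_mul_self (b : Bool) : sg b * sg b = 1 := by cases b <;> simp
lemma sg_sq (b : Bool) : sg b ^ 2 = 1 := by cases b <;> simp
lemma sg_xor (a b : Bool) : sg (xor a b) = sg a * sg b := by cases a <;> cases b <;> simp
lemma abs_sg (b : Bool) : |sg b| = 1 := by cases b <;> simp

end Vale.Agent.P362
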