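import Vale.Agent.P362.Defs
import Vale.Agent.P362.Search

/-! Operations on decision trees. -/

namespace Vale.Agent.P362

namespace DT
variable {ι ι' : Type}

def depth : DT ι → ℕ
  | .leaf _ => 0
  | .node _ l r => max l.depth r.depth + 1

/-- the list of queried indices -/
def qs : DT ι → (ι → Bool) → List ι
  | .leaf _, _ => []
  | .node i l r, x => i :: (if x i then r.qs x else l.qs x)

lemma length_qs : ∀ (T : DT ι) (x : ι → Bool), (T.qs x).length = T.cost x
  | .leaf _, _ => rfl
  | .node i l r, x => by
      simp only [qs, cost, List.length_cons]
      split_ifs
      · rw [length_qs]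
      · rw [length_qs]

lemma agree : ∀ (T : DT ι) (x y : ι → Bool), (∀ i ∈ T.qs x, y i = x i) →
    T.eval y = T.eval x ∧ T.qs y = T.qs x
  | .leaf _, _, _, _ => ⟨rfl, rfl⟩
  | .node i l r, x, y, h => by
      have hi : y i = x i := h i (by simp [qs])
      simp only [eval, qs, hi]
      simp only [qs, List.mem_cons, forall_eq_or_imp] at h
      split_ifs with hx
      · have := agree r x y (by simpa [hx] using h.2)
        exact ⟨this.1, by rw [this.2]⟩
      · have := agree l x y (by simpa [hx] using h.2)
        exact ⟨this.1, by rw [this.2]⟩

def map (e : ι → ι') : DT ι → DT ι'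
  | .leaf b => .leaf b
  | .node i l r => .node (e i) (l.map e) (r.map e)

lemma eval_map (e : ι → ι') : ∀ (T : DT ι) (x : ι' → Bool), (T.map e).eval x = T.eval (x ∘ e)
  | .leaf _, _ => rfl
  | .node i l r, x => by simp only [map, eval, eval_map e l, eval_map e r]; rfl

lemma cost_map (e : ι → ι') : ∀ (T : DT ι) (x : ι' → Bool), (T.map e).cost x = T.cost (x ∘ e)
  | .leaf _, _ => rfl
  | .node i l r, x => by simp only [map, cost, cost_map e l, cost_map e r]; rfl

/-- run the first tree, and if it accepts run the second one -/
def andT : DT ι → DT ι → DT ι
  | .leaf b, T => if b then T else .leaf false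
  | .node i l r, T => .node i (l.andT T) (r.andT T)

lemma eval_andT : ∀ (T T' : DT ι) (x : ι → Bool), (T.andT T').eval x = (T.eval x && T'.eval x)
  | .leaf b, T', x => by cases b <;> simp [andT, eval]
  | .node i l r, T', x => by
      simp only [andT, eval, eval_andT l, eval_andT r]; split_ifs <;> rfl

lemma cost_andT : ∀ (T T' : DT ι) (x : ι → Bool), (T.andT T').cost x ≤ T.cost x + T'.cost x
  | .leaf b, T', x => by cases b <;> simp [andT, cost]
  | .node i l r, T', x => by
      have h1 := cost_andT l T' x
      have h2 := cost_andT r T' x
      simp only [andT, cost]; split_ifs <;> omega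

def andL : List (DT ι) → DT ι
  | [] => .leaf true
  | T :: l => T.andT (andL l)

lemma eval_andL (x : ι → Bool) : ∀ l : List (DT ι),
    ind ((andL l).eval x) = (l.map fun T => ind (T.eval x)).prod
  | [] => by simp [andL, eval]
  | T :: l => by
      simp only [andL, eval_andT, List.map_cons, List.prod_cons, ← eval_andL x l]
      cases T.eval x <;> simp

lemma cost_andL (x : ι → Bool) (q : ℕ) : ∀ l : List (DT ι), (∀ T ∈ l, T.cost x ≤ q) →
    (andL l).cost x ≤ l.length * q
  | [], _ => by simp [andL, cost]
  | T :: l, h => by
      have h1 := cost_andT T (andL l) x
      have h2 := cost_andL x q l fun T hT => h T (by simp [hT])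
      have h3 := h T (by simp)
      simp only [andL, List.length_cons, Nat.succ_mul]; omega

/-- the full decision tree over a list of indices -/
def full [DecidableEq ι] (f : (ι → Bool) → Bool) : List ι → (ι → Bool) → DT ι
  | [], z => .leaf (f z)
  | i :: l, z => .node i (full f l (Function.update z i false)) (full f l (Function.update z i true))

lemma cost_full [DecidableEq ι] (f : (ι → Bool) → Bool) (x : ι → Bool) :
    ∀ (l : List ι) (z : ι → Bool), (full f l z).cost x = l.length
  | [], _ => rfl
  | i :: l, z => by simp [full, cost, cost_full f x l]

lemma eval_full [DecidableEq ι] (f : (ι → Bool) → Bool) (x : ι → Bool) :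
    ∀ (l : List ι) (z : ι → Bool), (full f l z).eval x = f (fun i => if i ∈ l then x i else z i)
  | [], _ => by simp [full, eval]
  | i :: l, z => by
      have : ∀ b, x i = b → (fun j => if j ∈ l then x j else Function.update z i b j) =
          fun j => if j ∈ i :: l then x j else z j := by
        intro b hb
        funext j
        by_cases h1 : j ∈ l
        · simp [h1]
        · by_cases h2 : j = i
          · subst h2; simp [h1, hb]
          · simp [h1, h2]
      simp only [full, eval, eval_full f x l]
      split_ifs with h
      · rw [this true h]
      · rw [this false (by simpa using h)]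

/-- accept as soon as more than `c` queries fall in the region `P` -/
def trunc (P : ι → Bool) : DT ι → ℕ → DT ι
  | .leaf b, _ => .leaf b
  | .node j l r, c => if P j then
        (match c with
          | 0 => .leaf true
          | c + 1 => .node j (l.trunc P c) (r.trunc P c))
      else .node j (l.trunc P c) (r.trunc P c)

/-- the largest number of region queries along a path -/
def rd (P : ι → Bool) : DT ι → ℕ
  | .leaf _ => 0
  | .node j l r => max (l.rd P) (r.rd P) + (if P j then 1 else 0)

lemma rd_trunc (P : ι → Bool) : ∀ (T : DT ι) (c : ℕ), (T.trunc P c).rd P ≤ c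
  | .leaf _, _ => by simp [trunc, rd]
  | .node j l r, c => by
      simp only [trunc]
      split_ifs with h
      · cases c with
        | zero => simp [rd]
        | succ c =>
          have h1 := rd_trunc P l c
          have h2 := rd_trunc P r c
          simp only [rd, h, if_true]; omega
      · have h1 := rd_trunc P l c
        have h2 := rd_trunc P r c
        simp only [rd, h]; simp; omega

lemma countP_le_rd (P : ι → Bool) (x : ι → Bool) : ∀ T : DT ι, (T.qs x).countP P ≤ T.rd P
  | .leaf _ => by simp [qs]
  | .node j l r => by
      have h1 := countP_le_rd P x l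
      have h2 := countP_le_rd P x r
      simp only [qs, rd, List.countP_cons]
      split_ifs <;> omega

lemma trunc_rej (P : ι → Bool) (x : ι → Bool) : ∀ (T : DT ι) (c : ℕ),
    (T.trunc P c).eval x = false → T.eval x = false
  | .leaf _, _, h => h
  | .node j l r, c, h => by
      simp only [trunc] at h
      split_ifs at h with hP
      · cases c with
        | zero => simp [eval] at h
        | succ c =>
          simp only [eval] at h ⊢
          split_ifs at h ⊢
          · exact trunc_rej P x r c h
          · exact trunc_rej P x l c h
      · simp only [eval] at h ⊢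
        split_ifs at h ⊢
        · exact trunc_rej P x r c h
        · exact trunc_rej P x l c h

lemma rej_trunc (P : ι → Bool) (x : ι → Bool) : ∀ (T : DT ι) (c : ℕ),
    T.eval x = false → (T.qs x).countP P ≤ c → (T.trunc P c).eval x = false
  | .leaf _, _, h, _ => h
  | .node j l r, c, h, hc => by
      simp only [qs, List.countP_cons] at hc
      simp only [trunc]
      simp only [eval] at h
      split_ifs with hP
      · cases c with
        | zero => simp [hP] at hc
        | succ c =>
          simp only [eval]
          simp only [hP, if_true] at hc
          split_ifs at h hc ⊢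
          · exact rej_trunc P x r c h (by omega)
          · exact rej_trunc P x l c h (by omega)
      · simp only [eval]
        split_ifs at h hc ⊢
        · exact rej_trunc P x r c h (by omega)
        · exact rej_trunc P x l c h (by omega)

/-- substitute constants, renamed and flipped variables, or abort (accept) -/
def subst (s : ι → Option (Bool ⊕ (ι' × Bool))) : DT ι → DT ι'
  | .leaf b => .leaf b
  | .node j l r =>
    match s j with
    | none => .leaf true
    | some (.inl b) => if b then r.subst s else l.subst s
    | some (.inr (e, m)) =>
      if m then .node e (r.subst s) (l.subst s) else .node e (l.subst s) (r.subst s)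

def Compat (s : ι → Option (Bool ⊕ (ι' × Bool))) (x : ι → Bool) (z : ι' → Bool) : Prop :=
  ∀ j, (∀ b, s j = some (.inl b) → x j = b) ∧ ∀ e m, s j = some (.inr (e, m)) → x j = xor (z e) m

lemma subst_eval {s : ι → Option (Bool ⊕ (ι' × Bool))} {x : ι → Bool} {z : ι' → Bool}
    (h : Compat s x z) : ∀ T : DT ι, ((T.subst s).eval z = false → T.eval x = false) ∧
      (T.eval x = false → (∀ j ∈ T.qs x, s j ≠ none) → (T.subst s).eval z = false)
  | .leaf _ => ⟨id, fun h _ => h⟩
  | .node j l r => by
      have hl := subst_eval h l
      have hr := subst_eval h r
      simp only [subst, eval, qs, List.mem_cons, forall_eq_or_imp]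
      rcases hs : s j with _ | b | ⟨e, m⟩
      · simp [eval]
      · have := (h j).1 b hs
        rw [this]
        cases b
        · simpa using hl
        · simpa using hr
      · have := (h j).2 e m hs
        rw [this]
        cases m <;> cases hz : z e <;>
          first | simpa [eval, hz] using hl | simpa [eval, hz] using hr

lemma depth_subst {s : ι → Option (Bool ⊕ (ι' × Bool))} {P : ι → Bool}
    (h : ∀ j y, s j = some (.inr y) → P j = true) : ∀ T : DT ι, (T.subst s).depth ≤ T.rd P
  | .leaf _ => le_rfl
  | .node j l r => by
      have hl := depth_subst h l
      have hr := depth_subst h r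
      simp only [subst, rd]
      rcases hs : s j with _ | b | ⟨e, m⟩
      · simp [depth]
      · cases b <;> simp <;> omega
      · have := h j _ hs
        cases m <;> simp [depth, this] <;> omega

end DT

lemma ralg_full {n : ℕ} (f : (Fin n → Bool) → Bool) : RAlg f n := by
  refine ⟨1, fun _ => 1, fun _ => DT.full f (List.finRange n) (fun _ => false), by simp, by simp,
    fun _ x => by simp [DT.cost_full], fun x => ?_⟩
  simp [DT.eval_full]; norm_num

end Vale.Agent.P362
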