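import Vale.Agent.P362.Defs
import Vale.Agent.P362.Sg

/-! The positive adversary certificate extracted from a quantum algorithm. -/

namespace Vale.Agent.P362.Up

open Matrix Finset

/-- Real part of the inner product. -/
noncomputable def ip {S : Type} [Fintype S] (a b : S → ℂ) : ℝ := ∑ s, (star (a s) * b s).re

lemma ip_unitary {S : Type} [Fintype S] [DecidableEq S] {U : Matrix S S ℂ}
    (hU : U ∈ Matrix.unitaryGroup S ℂ) (a b : S → ℂ) : ip (U *ᵥ a) (U *ᵥ b) = ip a b := by
  have h : star (U *ᵥ a) ⬝ᵥ (U *ᵥ b) = star a ⬝ᵥ b := by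
    rw [star_mulVec, dotProduct_mulVec, vecMul_vecMul, ← star_eq_conjTranspose,
      Matrix.mem_unitaryGroup_iff'.1 hU, vecMul_one]
  have := congrArg Complex.re h
  simpa [ip, dotProduct, Complex.re_sum] using this

lemma ip_self {S : Type} [Fintype S] (a : S → ℂ) : ip a a = ∑ s, ‖a s‖ ^ 2 := by
  refine sum_congr rfl fun s _ => ?_
  rw [← Complex.normSq_eq_norm_sq, Complex.normSq_apply]
  simp

lemma amgm (a b : ℂ) (u v : ℝ) :
    |u * v * (star a * b).re| ≤ (u ^ 2 * ‖a‖ ^ 2 + v ^ 2 * ‖b‖ ^ 2) / 2 := by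
  rw [← Complex.normSq_eq_norm_sq, ← Complex.normSq_eq_norm_sq, Complex.normSq_apply,
    Complex.normSq_apply, abs_le]
  simp only [Complex.star_def, Complex.mul_re, Complex.conj_re, Complex.conj_im]
  constructor
  · nlinarith [sq_nonneg (u * a.re + v * b.re), sq_nonneg (u * a.im + v * b.im)]
  · nlinarith [sq_nonneg (u * a.re - v * b.re), sq_nonneg (u * a.im - v * b.im)]

variable {n : ℕ} {W : Type} [Fintype W]

/-- Query weight on the index `i`. -/
noncomputable def wt (a : Fin n × Bool × W → ℂ) (i : Fin n) : ℝ := ∑ β, ∑ w, ‖a (i, β, w)‖ ^ 2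

lemma sum_wt (a : Fin n × Bool × W → ℂ) : ∑ i, wt a i = ip a a := by
  rw [ip_self]
  simp [wt, Fintype.sum_prod_type]

lemma ip_oracle (x y : Fin n → Bool) (a b : Fin n × Bool × W → ℂ) (u v : ℝ) :
    u * v * ip a b ≤ u * v * ip (oracle x a) (oracle y b) +
      ∑ i ∈ univ.filter (fun i => x i ≠ y i), (u ^ 2 * wt a i + v ^ 2 * wt b i) := by
  simp only [ip, Fintype.sum_prod_type, oracle, sum_filter, wt]
  rw [mul_sum, mul_sum, ← sum_add_distrib]
  refine sum_le_sum fun i _ => ?_
  have h1 : ∀ β β', |u * v * ∑ w, (star (a (i, β, w)) * b (i, β', w)).re| ≤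
      (u ^ 2 * ∑ w, ‖a (i, β, w)‖ ^ 2 + v ^ 2 * ∑ w, ‖b (i, β', w)‖ ^ 2) / 2 := by
    intro β β'
    rw [mul_sum, mul_sum, mul_sum, ← sum_add_distrib, sum_div]
    exact (abs_sum_le_sum_abs _ _).trans (sum_le_sum fun w _ => amgm _ _ _ _)
  have h2 := abs_le.1 (h1 true true)
  have h3 := abs_le.1 (h1 true false)
  have h4 := abs_le.1 (h1 false true)
  have h5 := abs_le.1 (h1 false false)
  simp only [Fintype.sum_bool]
  cases x i <;> cases y i <;>
    simp only [Bool.xor_false, Bool.xor_true, Bool.not_true, Bool.not_false, ne_eq,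
      not_true_eq_false, if_false, Bool.false_eq_true, Bool.true_eq_false, not_false_eq_true,
      if_true] <;> linarith [h2.1, h2.2, h3.1, h3.2, h4.1, h4.2, h5.1, h5.2]

lemma ip_oracle_self (x : Fin n → Bool) (a : Fin n × Bool × W → ℂ) :
    ip (oracle x a) (oracle x a) = ip a a := by
  simp only [ip, Fintype.sum_prod_type, oracle]
  refine sum_congr rfl fun i _ => ?_
  simp only [Fintype.sum_bool]
  cases x i <;> simp only [Bool.xor_false, Bool.xor_true, Bool.not_true, Bool.not_false]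
  ring

lemma key {f : (Fin n → Bool) → Bool} {T : ℕ} (h : QAlg f T) :
    ∃ p : (Fin n → Bool) → Fin n → ℝ, (∀ x i, 0 ≤ p x i) ∧ (∀ x, ∑ i, p x i ≤ T) ∧
      ∀ x y, f x ≠ f y → ∀ u v : ℝ, 0 ≤ u → 0 ≤ v →
        u * v / 20 ≤ ∑ i ∈ univ.filter (fun i => x i ≠ y i), (u ^ 2 * p x i + v ^ 2 * p y i) := by
  obtain ⟨W, _, _, s0, U, out, hU, hout⟩ := h
  have h0 : ip (Pi.single s0 1 : Fin n × Bool × W → ℂ) (Pi.single s0 1) = 1 := by
    rw [ip_self, sum_eq_single s0] <;> simp +contextual [Pi.single_apply]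
  have hn : ∀ x t, ip (run U s0 x t) (run U s0 x t) = 1 := by
    intro x t
    induction t with
    | zero => rw [run, ip_unitary (hU 0), h0]
    | succ t ih => rw [run, ip_unitary (hU _), ip_oracle_self, ih]
  refine ⟨fun x i => ∑ t ∈ range T, wt (run U s0 x t) i, fun x i => ?_, fun x => ?_, ?_⟩
  · unfold wt; positivity
  · rw [sum_comm]
    simp [sum_wt, hn]
  intro x y hxy u v hu hv
  have h1 : ∀ t, u * v ≤ u * v * ip (run U s0 x t) (run U s0 y t) +
      ∑ i ∈ univ.filter (fun i => x i ≠ y i), (u ^ 2 * ∑ t ∈ range t, wt (run U s0 x t) i +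
        v ^ 2 * ∑ t ∈ range t, wt (run U s0 y t) i) := by
    intro t
    induction t with
    | zero => rw [run, run, ip_unitary (hU 0), h0]; simp
    | succ t ih =>
      have := ip_oracle x y (run U s0 x t) (run U s0 y t) u v
      rw [run, run, ip_unitary (hU _)]
      simp only [sum_range_succ, mul_add, sum_add_distrib] at ih this ⊢
      linarith
  have h2 : ip (run U s0 x T) (run U s0 y T) ≤ 19 / 20 := by
    have e1 := hout x
    have e2 := hout y
    have e3 := hn x T
    have e4 := hn y T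
    rw [ip_self] at e3 e4
    have : ip (run U s0 x T) (run U s0 y T) ≤ ∑ s, (5 / 7 * ‖run U s0 x T s‖ ^ 2 +
        5 / 7 * ‖run U s0 y T s‖ ^ 2
        - 51 / 140 * (if out s = f x then ‖run U s0 x T s‖ ^ 2 else 0)
        - 51 / 140 * (if out s = f y then ‖run U s0 y T s‖ ^ 2 else 0)) := by
      refine sum_le_sum fun s _ => ?_
      have a1 := (abs_le.1 (amgm (run U s0 x T s) (run U s0 y T s) 7 10)).2
      have a2 := (abs_le.1 (amgm (run U s0 x T s) (run U s0 y T s) 10 7)).2
      by_cases h3 : out s = f x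
      · rw [if_pos h3, if_neg (h3 ▸ hxy)]; linarith
      · have h4 : out s = f y := by
          revert h3 hxy; cases out s <;> cases f x <;> cases f y <;> simp
        rw [if_neg h3, if_pos h4]; linarith
    simp only [sum_sub_distrib, sum_add_distrib, ← mul_sum] at this
    linarith
  have h3 := h1 T
  have h4 := mul_le_mul_of_nonneg_left h2 (mul_nonneg hu hv)
  linarith

end Vale.Agent.P362.Up
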